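import Vale.Agent.P354XL.Op

/-!
Coefficients which depend smoothly on parameters in a compact set, and cut off functions in time.
-/

open scoped ContDiff
open Set Real Filter Topology

namespace Vale.Agent.P354XL

open Vale.Agent.P354BO

variable {s : ℤ} {ι : Type}

/-- The strip over an interval of radii. -/
def st (x y : ℝ) : Set (ℝ × ℝ) := {z | z.2 ∈ Icc x y}

theorem sw_zero (β : List (Fin 2)) (z : ℝ × ℝ) : sw β (fun _ => 0) z = 0 := by
  induction β with
  | nil => rfl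
  | cons k β ih => simpa [sw] using ih

theorem fin2 {p : Fin 2 → Prop} (a : p 0) (b : p 1) (i : Fin 2) : p i := by
  fin_cases i
  exacts [a, b]

theorem fd_snd {f : ℝ → ℂ} (hf : Differentiable ℝ f) (z e : ℝ × ℝ) :
    fderiv ℝ (fun z : ℝ × ℝ => f z.2) z e = e.2 • deriv f z.2 := by
  have := ((hf z.2).hasDerivAt.hasFDerivAt.comp z (hasFDerivAt_snd (𝕜 := ℝ) (p := z))).fderiv
  exact congrArg (fun D : ℝ × ℝ →L[ℝ] ℂ => D e) this

theorem fd_fst {f : ℝ → ℂ} (hf : Differentiable ℝ f) (z e : ℝ × ℝ) :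
    fderiv ℝ (fun z : ℝ × ℝ => f z.1) z e = e.1 • deriv f z.1 := by
  have := ((hf z.1).hasDerivAt.hasFDerivAt.comp z (hasFDerivAt_fst (𝕜 := ℝ) (p := z))).fderiv
  exact congrArg (fun D : ℝ × ℝ →L[ℝ] ℂ => D e) this

theorem deriv_par {E V : Type} [NormedAddCommGroup E] [NormedSpace ℝ E] [NormedAddCommGroup V]
    [NormedSpace ℝ V] {γ : E × ℝ → V} (h : ContDiff ℝ ∞ γ) (p : E) (r : ℝ) :
    deriv (fun r => γ (p, r)) r = fderiv ℝ γ (p, r) (0, 1) :=
  ((h.differentiable (by simp) (p, r)).hasFDerivAt.comp_hasDerivAt r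
    ((hasDerivAt_const r p).prodMk (hasDerivAt_id r))).deriv

theorem sm_par {E V : Type} [NormedAddCommGroup E] [NormedSpace ℝ E] [NormedAddCommGroup V]
    [NormedSpace ℝ V] {γ : E × ℝ → V} (h : ContDiff ℝ ∞ γ) :
    ContDiff ℝ ∞ fun q : E × ℝ => deriv (fun r => γ (q.1, r)) q.2 := by
  simp only [deriv_par h]
  exact (h.fderiv_right (m := ∞) le_rfl).clm_apply contDiff_const

theorem sb_of {E : Type} [NormedAddCommGroup E] [NormedSpace ℝ E] {K : Set E} (hK : IsCompact K)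
    {pa : ι → E} (hpa : ∀ p, pa p ∈ K) (x y : ℝ) {γ : E × ℝ → ℂ} (h : ContDiff ℝ ∞ γ) :
    Sb (st x y) (fun _ _ => 1) fun p z => γ (pa p, z.2) := by
  refine ⟨fun p => h.comp (contDiff_const.prodMk contDiff_snd), fun β => ?_⟩
  induction β generalizing γ with
  | nil =>
    obtain ⟨C, hC⟩ := (hK.prod (isCompact_Icc (a := x) (b := y))).exists_bound_of_continuousOn
      h.continuous.continuousOn
    exact ⟨C ^ 2, sq_nonneg _, fun p z hz => by
      rw [mul_one]
      exact pow_le_pow_left₀ (norm_nonneg _) (hC (pa p, z.2) ⟨hpa p, hz⟩) 2⟩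
  | cons k β ih =>
    have d : ∀ p, Differentiable ℝ fun r => γ (pa p, r) := fun p =>
      (h.comp (contDiff_prodMk_right _)).differentiable (by simp)
    induction k using fin2
    · exact ⟨0, le_rfl, fun p z _ => by simp [sw, fd_snd (d p), ev, sw_zero]⟩
    · obtain ⟨C, a, b⟩ := ih (sm_par h)
      exact ⟨C, a, fun p z hz => by simpa [sw, fd_snd (d p), ev] using b p z hz⟩

/-- A smooth function which is the inverse on [1, oo). -/
noncomputable def sinv (y : ℝ) : ℝ := smoothTransition (2 * y - 1) * y⁻¹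

theorem sinv_eq {y : ℝ} (h : 1 ≤ y) : sinv y = y⁻¹ := by
  rw [sinv, smoothTransition.one_of_one_le (by linarith), one_mul]

theorem sinv_sm : ContDiff ℝ ∞ sinv := by
  refine contDiff_iff_contDiffAt.2 fun y => ?_
  rcases lt_or_ge y (1 / 2) with h | h
  · refine (contDiffAt_const (c := 0)).congr_of_eventuallyEq ?_
    filter_upwards [gt_mem_nhds h] with x hx
    rw [sinv, smoothTransition.zero_of_nonpos (by linarith), zero_mul]
  · exact (smoothTransition.contDiffAt.comp y (by fun_prop)).mul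
      (contDiffAt_inv ℝ (by linarith : y ≠ 0))

theorem ramp_der {φ : ℝ → ℂ} (hφ : ContDiff ℝ ∞ φ) (κ : ℂ) (a l : ℝ) (z e : ℝ × ℝ) :
    fderiv ℝ (fun z : ℝ × ℝ => κ * φ ((z.1 - a) / l)) z e =
      e.1 • (κ / l * deriv φ ((z.1 - a) / l)) := by
  have d : ∀ t, HasDerivAt (fun t => κ * φ ((t - a) / l)) (κ / l * deriv φ ((t - a) / l)) t :=
    fun t => (((hφ.differentiable (by simp) _).hasDerivAt.scomp t
      (((hasDerivAt_id t).sub_const a).div_const l)).const_mul κ).congr_deriv (by simp; ring)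
  rw [fd_fst (f := fun t => κ * φ ((t - a) / l)) fun t => (d t).differentiableAt, (d _).deriv]

theorem ramp_bd (β : List (Fin 2)) {φ : ℝ → ℂ} (hφ : ContDiff ℝ ∞ φ)
    (h0 : ∀ y ∉ Icc (0 : ℝ) 1, φ y = 0) : ∃ C, 0 ≤ C ∧ ∀ (κ : ℂ) (a l : ℝ), 1 ≤ 2 * |l| → ∀ z,
      ‖sw β (fun z => κ * φ ((z.1 - a) / l)) z‖ ^ 2 ≤
        C * (‖κ‖ ^ 2 * (Icc (0 : ℝ) 1).indicator 1 ((z.1 - a) / l)) := by
  induction β generalizing φ with
  | nil =>
    obtain ⟨C, hC⟩ := (isCompact_Icc (a := (0 : ℝ)) (b := 1)).exists_bound_of_continuousOn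
      hφ.continuous.continuousOn
    refine ⟨C ^ 2, sq_nonneg _, fun κ a l _ z => ?_⟩
    by_cases c : (z.1 - a) / l ∈ Icc (0 : ℝ) 1
    · rw [indicator_of_mem c, sw, norm_mul, mul_pow, Pi.one_apply, mul_one, mul_comm]
      exact mul_le_mul_of_nonneg_right (pow_le_pow_left₀ (norm_nonneg _) (hC _ c) 2) (sq_nonneg _)
    · simp [sw, h0 _ c, indicator_of_notMem c]
  | cons k β ih =>
    induction k using fin2
    · obtain ⟨C, a, b⟩ := ih (contDiff_infty_iff_deriv.1 hφ).2 fun y hy =>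
        (EventuallyEq.deriv_eq ((isClosed_Icc.isOpen_compl.eventually_mem hy).mono h0)).trans
          (deriv_const _ _)
      refine ⟨C * 2 ^ 2, by positivity, fun κ x l hl z => ?_⟩
      have := b (κ / l) x l hl z
      simp only [sw, ramp_der hφ, ev, Matrix.cons_val_zero, one_smul]
      rw [mul_assoc, ← mul_assoc (2 ^ 2), ← mul_pow]
      refine this.trans (mul_le_mul_of_nonneg_left (mul_le_mul_of_nonneg_right
        (pow_le_pow_left₀ (norm_nonneg _) ?_ 2) (indicator_nonneg (fun _ _ => zero_le_one) _)) a)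
      rw [norm_div, Complex.norm_real, Real.norm_eq_abs, div_le_iff₀ (by linarith)]
      nlinarith [norm_nonneg κ]
    · exact ⟨0, le_rfl, fun κ x l _ z => by simp [sw, ramp_der hφ, ev, sw_zero]⟩

/-- The ramp from 0 at a to 1 at a + l. -/
noncomputable def ramp (a l : ℝ) (t : ℝ) : ℝ := smoothTransition ((t - a) / l)

/-- The size of the derivatives of the ramp. -/
noncomputable def rg (a l : ℝ) (t : ℝ) : ℝ := 1 / l ^ 2 * (Icc (0 : ℝ) 1).indicator 1 ((t - a) / l)

theorem rg_nonneg (a l t : ℝ) : 0 ≤ rg a l t :=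
  mul_nonneg (by positivity) (indicator_nonneg (fun _ _ => zero_le_one) _)

theorem cut_ramp (Z : Set (ℝ × ℝ)) {a l : ι → ℝ} (hl : ∀ p, 1 ≤ 2 * |l p|) :
    Cut Z (fun p z => (ramp (a p) (l p) z.1 : ℂ)) fun p z => rg (a p) (l p) z.1 := by
  have hφ : ContDiff ℝ ∞ fun y => (smoothTransition y : ℂ) :=
    Complex.ofRealCLM.contDiff.comp smoothTransition.contDiff
  have h0 : ∀ y ∉ Icc (0 : ℝ) 1, deriv (fun y => (smoothTransition y : ℂ)) y = 0 := fun y hy => by
    rcases lt_or_ge y 0 with c | c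
    · refine (EventuallyEq.deriv_eq (f := fun _ => 0) ?_).trans (deriv_const _ _)
      filter_upwards [gt_mem_nhds c] with x hx
      rw [smoothTransition.zero_of_nonpos hx.le, Complex.ofReal_zero]
    · refine (EventuallyEq.deriv_eq (f := fun _ => 1) ?_).trans (deriv_const _ _)
      filter_upwards [lt_mem_nhds (show 1 < y from not_le.1 fun e => hy ⟨c, e⟩)] with x hx
      rw [smoothTransition.one_of_one_le hx.le, Complex.ofReal_one]
  have sm : ∀ p, ContDiff ℝ ∞ fun z : ℝ × ℝ => (ramp (a p) (l p) z.1 : ℂ) := fun p =>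
    hφ.comp ((contDiff_fst.sub contDiff_const).div_const _)
  have e : ∀ p z k, fderiv ℝ (fun z : ℝ × ℝ => (ramp (a p) (l p) z.1 : ℂ)) z k =
      k.1 • (1 / l p * deriv (fun y => (smoothTransition y : ℂ)) ((z.1 - a p) / l p)) :=
    fun p z k => by simpa only [one_mul, ramp] using ramp_der hφ 1 (a p) (l p) z k
  have dv : ∀ k, Sb Z (fun p z => rg (a p) (l p) z.1)
      fun p z => fderiv ℝ (fun z : ℝ × ℝ => (ramp (a p) (l p) z.1 : ℂ)) z (ev k) := fun k => by
    refine ⟨fun p => ((sm p).fderiv_right (m := ∞) le_rfl).clm_apply contDiff_const, fun β => ?_⟩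
    induction k using fin2
    · obtain ⟨C, c0, b⟩ := ramp_bd β (contDiff_infty_iff_deriv.1 hφ).2 h0
      exact ⟨C, c0, fun p z _ => by simpa [e, ev, rg] using b (1 / l p) (a p) (l p) (hl p) z⟩
    · exact ⟨0, le_rfl, fun p z _ => by simp [e, ev, sw_zero]⟩
  refine ⟨fun p z => rg_nonneg _ _ _, ⟨sm, ?_⟩, dv⟩
  rintro (_ | ⟨k, β⟩)
  · refine ⟨1, zero_le_one, fun p z _ => ?_⟩
    rw [sw, Complex.norm_real, ramp, Real.norm_of_nonneg (smoothTransition.nonneg _), mul_one]
    exact pow_le_one₀ (smoothTransition.nonneg _) (smoothTransition.le_one _)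
  · obtain ⟨C, c0, b⟩ := (dv k).2 β
    refine ⟨C * 4, by positivity, fun p z hz => (b p z hz).trans ?_⟩
    rw [mul_assoc]
    refine mul_le_mul_of_nonneg_left (mul_le_mul ?_
      (indicator_le' (fun _ _ => le_rfl) (fun _ _ => zero_le_one) _)
      (indicator_nonneg (fun _ _ => zero_le_one) _) (by norm_num)) c0
    rw [← sq_abs, div_le_iff₀ (pow_pos (by linarith [hl p]) 2)]
    nlinarith [hl p]

variable {Z : Set (ℝ × ℝ)} {n : ℕ} {D D' : ι → Fam s → Fam s}

theorem Op.congr (h : Op Z n D) (e : ∀ p F, JS F → D' p F = D p F) : Op Z n D' where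
  js p F hF := by rw [e p F hF]; exact h.js p F hF
  sub p F G hF hG := by rw [e p _ (hF.sub hG), e p F hF, e p G hG, h.sub p F G hF hG]
  bnd := h.bnd.congr e
  cm θ g c := (h.cm θ g c).congr fun p F hF => by
    unfold P354XL.cm
    rw [e p F hF, e p _ (hF.smul (c.bd.1 p))]

theorem sb_const (Z : Set (ℝ × ℝ)) (c : ℂ) : Sb Z (fun (_ : ι) _ => 1) fun _ _ => c := by
  refine ⟨fun _ => contDiff_const, ?_⟩
  rintro (_ | ⟨k, β⟩)
  · exact ⟨‖c‖ ^ 2, sq_nonneg _, fun _ _ _ => by simp [sw]⟩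
  · exact ⟨0, le_rfl, fun _ _ _ => by simp [sw, sw_zero]⟩

theorem op_id : Op Z 0 fun (_ : ι) (F : Fam s) => F :=
  (op_smul (sb_const Z 1)).congr fun _ _ _ => by simp

theorem Op.iter (h : Op Z n D) (j : ℕ) : Op Z (n * j) fun p => (D p)^[j] := by
  induction j with
  | zero => exact op_id
  | succ j ih => exact ih.comp h

/-- The commutator with a product of two cut off functions. -/
theorem Op.cm_mul (h : Op Z n D) {θ η : ι → ℝ × ℝ → ℂ} {g g' : ι → ℝ × ℝ → ℝ} (c : Cut Z θ g)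
    (c' : Cut Z η g') :
    Bnd Z (fun p z => g p z + g' p z) n (P354XL.cm (fun p z => θ p z * η p z) D) := by
  have a := (h.cm θ g c).comp (bnd_smul c'.bd fun _ _ => zero_le_one)
    (fun p F hF => hF.smul (c'.bd.1 p)) c.g0
  have b := (bnd_smul c.bd fun _ _ => zero_le_one).comp (h.cm η g' c') (h.cm_js c'.bd.1)
    fun _ _ => zero_le_one
  simp only [mul_one, one_mul, add_zero, zero_add] at a b
  refine ((a.mono le_rfl c.g0 fun p z => le_add_of_nonneg_right (c'.g0 p z)).add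
    (b.mono le_rfl c'.g0 fun p z => le_add_of_nonneg_left (c.g0 p z))
    (fun p F hF => h.cm_js c.bd.1 p _ (hF.smul (c'.bd.1 p)))
    fun p F hF => (h.cm_js c'.bd.1 p F hF).smul (c.bd.1 p)).congr fun p F _ => funext fun z => ?_
  simp only [P354XL.cm, mul_smul, smul_sub]
  abel

end Vale.Agent.P354XL
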