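import Vale.Agent.P354XL.Sys
import Vale.Agent.P354LN.Pw
import Vale.Agent.P354XR.Dict
import Vale.Agent.P354FC.Parts

/-!
NPW: the bulk density at bounded radius.
-/

open scoped ContDiff
open Set Filter

namespace Vale.Agent.P354XL

open Vale.Agent.P354XG Vale.Agent.P354XI Vale.Agent.P354Z Vale.Agent.P354SI
open Vale.Agent.P354XT (Fld)

variable {P : Pr}

theorem op_pt (P : Pr) (y z : ℝ) (e : P354XT.Op) (he : e.Sm) : ∃ C, 0 ≤ C ∧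
    ∀ (σ : P354SI.St P) s u x B, |σ.E.M - P.c.M| ≤ 1 → |σ.E.a - P.c.a| ≤ 1 → x ∈ σ.E.O1 → x.2.1 ∈ Icc y z →
    (∀ J : List (Fin 5), J.length ≤ e.ord → ‖fv ((σ.Ph s).wd J u) x‖ ≤ B) →
    ‖fv (oph σ.X σ.E.M σ.E.a e u) x‖ ≤ C * B := by
  have k : ∀ l : List ((ℝ × ℝ × ℝ → ℝ) × List (Fin 5)), (∀ t ∈ l, ContDiff ℝ ∞ t.1 ∧
      t.2.length ≤ e.ord) → ∃ C, 0 ≤ C ∧ ∀ (σ : P354SI.St P) s u x B, |σ.E.M - P.c.M| ≤ 1 →
      |σ.E.a - P.c.a| ≤ 1 → x ∈ σ.E.O1 → x.2.1 ∈ Icc y z →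
      (∀ J : List (Fin 5), J.length ≤ e.ord → ‖fv ((σ.Ph s).wd J u) x‖ ≤ B) →
      ‖fv (l.map fun t => (σ.Ph s).rad (fun r => t.1 (σ.E.M, σ.E.a, r)) * (σ.Ph s).wd t.2 u).sum x‖ ≤
        C * B := fun l hl => by
    induction l with
    | nil => exact ⟨0, le_rfl, fun σ s u x B _ _ _ _ _ => by simp [fv_zero]⟩
    | cons t l ih =>
      obtain ⟨C, c0, hC⟩ := ih fun t h => hl t (List.mem_cons_of_mem _ h)
      have ht := hl t List.mem_cons_self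
      obtain ⟨F, f0, hF⟩ := f_bd P.c.M P.c.a y z ht.1
      refine ⟨F + C, by positivity, fun σ s u x B a1 a2 a3 a4 a5 => ?_⟩
      have e1 : fv ((σ.Ph s).rad fun r => t.1 (σ.E.M, σ.E.a, r)) x = t.1 (σ.E.M, σ.E.a, x.2.1) :=
        P354EF.fv_fO (φ := fun p => t.1 (σ.E.M, σ.E.a, p.2))
          ((P354XT.sm3 ht.1 _ _).comp contDiff_snd) a3
      rw [List.map_cons, List.sum_cons, fv_add, fv_mul, e1, add_mul]
      refine (norm_add_le _ _).trans (add_le_add ?_ (hC σ s u x B a1 a2 a3 a4 a5))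
      rw [norm_mul, Complex.norm_real]
      exact mul_le_mul (hF _ _ a1 a2 _ a4).1 (a5 _ ht.2) (norm_nonneg _) f0
  obtain ⟨C, c0, hC⟩ := k _ (e.nf_ok he)
  exact ⟨C, c0, fun σ s u x B => by
    rw [σ.oph_eq s, P354XT.Op.ph_nf (σ.Ph_is s) _ _ _ e he]
    exact hC σ s u x B⟩

/-- NPW. -/
theorem npw : P354FC.NPW := fun P hP => ⟨P.n0 + 4, fun ρ => by
  obtain ⟨C, c0, hC⟩ := P354LN.pw hP (P354XR.dict hP) ρ
  obtain ⟨C1, c1, h1⟩ := op_pt P (P.c.R1 - 1) ρ (oD .one) (opD_sm (e := .one) trivial)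
  obtain ⟨C2, c2, h2⟩ := op_pt P (P.c.R1 - 1) ρ o3 opC_sm
  refine ⟨(C1 ^ 2 + 1 + C2 ^ 2) * C, by positivity, ?_⟩
  filter_upwards [hC, ev_e _ (show 0 < 1 / (C + 1) by positivity)] with σ hC q j x a1 a2 a3 a4 a5 a6
    b i hi
  have q1 : C * σ.eps ≤ 1 := by linarith [(le_div_iff₀' (by positivity)).1 q.1, σ.e0]
  have q2 := (le_add_of_nonneg_right (abs_nonneg _)).trans (hC.1.trans q1)
  have q3 := (le_add_of_nonneg_left (abs_nonneg _)).trans (hC.1.trans q1)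
  have n0 := mul_nonneg c0 (σ.eta_nn (P.n0 + 4) x)
  have k : ∀ J : List (Fin 5), J.length ≤ 3 → ‖fv ((σ.Ph b).wd J ((σ.X 0)^[i] (σ.f b []))) x‖ ≤
      √(C * σ.E.eta (P.n0 + 4) x) := fun J hJ => by
    have w := fun J u => (σ.hom b).wd J u
    simp only [AlgHom.id_apply] at w
    rw [← wd_it σ b, ← w, ← w, ← P354LN.wd_app]
    exact Real.le_sqrt_of_sq_le ((((hC.2 ⟨x, a1⟩ j a2 a6 (abs_le.2 ⟨by change _ ≤ x.1 - _ - _; linarith,
      by change x.1 - _ - _ ≤ _; linarith⟩)).2 b _).1 (by simp; omega)))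
  have r1 : ∀ α : ℝ, α ≤ 0 → ∀ t, 0 ≤ t → x.2.1 ^ α * t ≤ t := fun α h t ht =>
    mul_le_of_le_one_left ht (Real.rpow_le_one_of_one_le_of_nonpos
      (by linarith [show 10 * P.c.M + 10 ≤ P.c.R1 from σ.ok.R1, σ.M0]) h)
  have s1 := pow_le_pow_left₀ (norm_nonneg _)
    (h1 σ b _ x _ q2 q3 a1 ⟨a5, a6⟩ fun J h => k J (h.trans (by decide))) 2
  have s2 := pow_le_pow_left₀ (norm_nonneg _) (h2 σ b _ x _ q2 q3 a1 ⟨a5, a6⟩ k) 2
  have s3 := pow_le_pow_left₀ (norm_nonneg _) (k [] (by simp)) 2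
  rw [mul_pow, Real.sq_sqrt n0] at s1 s2
  rw [Real.sq_sqrt n0, Fld.wd] at s3
  have m1 := mul_nonneg (sq_nonneg C1) n0
  have m2 := mul_nonneg (sq_nonneg C2) n0
  cases b
  · exact (r1 _ (by norm_num) _ (sq_nonneg _)).trans (by linarith)
  · exact (add_le_add (r1 _ (by norm_num) _ (sq_nonneg _))
      (r1 _ (by norm_num) _ (sq_nonneg _))).trans (by linarith)⟩

end Vale.Agent.P354XL
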