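import Vale.Agent.P354XL.Sys
import Vale.Agent.P354LN.Pw
import Vale.Agent.P354BF.Main
import Vale.Agent.P354XN.Plus
import Vale.Agent.P354XN.Minus

/-!
The estimate of low order.
-/

namespace Vale.Agent.P354XL

open Vale.Agent.P354SI

theorem low_sys {P : Pr} {G : ℕ → Filter (P354SI.St P)} {Γ : ℕ → ℝ → P354SI.St P → ℕ → ℝ}
    (hP : P.Ok) (hD : DICT P) : (sys P G Γ).LOW :=
  low_of hP (P354LN.pw hP hD) fun s =>
    lowo (lowr (P354BF.bfp P354XN.gp) (P354BF.bfm P354XN.gm) s)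

end Vale.Agent.P354XL
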