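import Vale.Agent.P354YA.BDefs
import Vale.Agent.P354TF.Geo
import Vale.Agent.P354TR.Trans
import Vale.Agent.P354YT.Chart
import Vale.Agent.P354BO.Outb
import Vale.Agent.P354CV.Bas

/-!
LKB: the link of BACK0.
-/

open scoped ContDiff
open Set Filter Topology

noncomputable section

namespace Vale.Agent.P354XL

open Vale.Agent.P354n (R4)
open Vale.Agent.P354R (Pull)
open Vale.Agent.P354XG (E6)
open Vale.Agent.P354XD (pj nq nq_pos)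
open Vale.Agent.P354XE (Tw rd pb eT Bd)
open Vale.Agent.P354XV (Lv)
open Vale.Agent.P354XO (Cht b4 dn4 sc)
open Vale.Agent.P354YO (sh IsTh rd_sh sh_cd sh_inv sh_inv' sh_sh)
open Vale.Agent.P354YI (Jb Oj)
open Vale.Agent.P354TR (Inv)
open Vale.Agent.P354Z

variable {A B : ℝ → ℝ} {p : R4} {M0 M a : ℝ}

theorem th_sm (h0 : 0 < M0) (h : IsTh M0 M a A B) : ContDiff ℝ ∞ A ∧ ContDiff ℝ ∞ B :=
  ⟨contDiff_infty_iff_deriv.2 ⟨fun r => (h r).1.differentiableAt, by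
    rw [funext fun r => (h r).1.deriv]
    exact ((P354CV.hs_cd h0).comp (by fun_prop)).sub contDiff_const⟩,
  contDiff_infty_iff_deriv.2 ⟨fun r => (h r).2.differentiableAt, by
    rw [funext fun r => (h r).2.deriv]
    exact contDiff_const.mul ((P354CV.js_cd h0).comp (by fun_prop))⟩⟩

/-- Uniform bounds for the normalized charts. -/
theorem th_jb (h0 : 0 < M0) (M a x y R C : ℝ) (n : ℕ) : ∃ K, 0 ≤ K ∧ ∀ A B, IsTh M0 M a A B →
    |A R| ≤ C → |B R| ≤ C → ∀ r ∈ Icc x y, Jb n A r K ∧ Jb n B r K := by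
  by_cases h : ∃ A B, IsTh M0 M a A B
  swap
  · exact ⟨0, le_rfl, fun A B k => (h ⟨A, B, k⟩).elim⟩
  obtain ⟨A0, B0, h⟩ := h
  have k : ∀ {F0 : ℝ → ℝ}, ContDiff ℝ ∞ F0 → ∃ K, 0 ≤ K ∧ ∀ (F d : ℝ → ℝ),
      (∀ r, HasDerivAt F (d r) r) → (∀ r, HasDerivAt F0 (d r) r) → |F R| ≤ C →
      ∀ r ∈ Icc x y, Jb n F r K := fun {F0} s => by
    obtain ⟨K, k0, hK⟩ := P354YI.ex_jb n (isCompact_Icc (a := x) (b := y)) fun _ _ => s.contDiffAt
    refine ⟨K + (|C| + |F0 R|), by positivity, fun F d h1 h2 h3 r hr => ?_⟩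
    have e : F = fun r => F0 r + (F R - F0 R) := funext fun r => by
      have := is_const_of_deriv_eq_zero (f := F - F0)
        (fun r => ((h1 r).sub (h2 r)).differentiableAt)
        (fun r => ((h1 r).sub (h2 r)).deriv.trans (sub_self _)) r R
      simp only [Pi.sub_apply] at this
      linarith
    rw [e]
    exact ((hK r hr).add (P354YI.jb_const n _ r) s.contDiffAt contDiffAt_const).mono le_rfl
      (add_le_add_right ((abs_sub _ _).trans (add_le_add_left (h3.trans (le_abs_self C)) _)) _)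
  obtain ⟨K1, k1, h1⟩ := k (th_sm h0 h).1
  obtain ⟨K2, k2, h2⟩ := k (th_sm h0 h).2
  exact ⟨K1 + K2, by positivity, fun A B t a b r hr =>
    ⟨(h1 A _ (fun r => (t r).1) (fun r => (h r).1) a r hr).mono le_rfl (by linarith),
      (h2 B _ (fun r => (t r).2) (fun r => (h r).2) b r hr).mono le_rfl (by linarith)⟩⟩

/-- The jets of sh. -/
theorem sh_jb {x : ℝ} (hx : 0 < x) (y : ℝ) {K : ℝ} (hK : 0 ≤ K) (m : ℕ) : ∃ C, 0 ≤ C ∧
    ∀ (A B : ℝ → ℝ) (p : R4) μ, rd p ∈ Icc x y → ContDiff ℝ ∞ A → ContDiff ℝ ∞ B → 0 ≤ μ → μ ≤ 1 →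
      Jb (m + 1) A (rd p) (K * μ) → Jb (m + 1) B (rd p) (K * μ) →
      Jb (m + 1) (fun y => sh A B y - y) p (C * μ) := by
  obtain ⟨C, c0, h⟩ := (P354YO.oj_sh (J := {d : (ℝ → ℝ) × (ℝ → ℝ) × R4 × ℝ //
    rd d.2.2.1 ∈ Icc x y ∧ ContDiff ℝ ∞ d.1 ∧ ContDiff ℝ ∞ d.2.1 ∧ 0 ≤ d.2.2.2 ∧ d.2.2.2 ≤ 1 ∧
      Jb (m + 1) d.1 (rd d.2.2.1) (K * d.2.2.2) ∧ Jb (m + 1) d.2.1 (rd d.2.2.1) (K * d.2.2.2)})
    (x := fun d => d.1.2.2.1) (μ := fun d => d.1.2.2.2) (F := fun d => d.1.1)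
    (G := fun d => d.1.2.1) (m := m) hx (fun d => d.2.1)
    ⟨fun d => d.2.2.1.contDiffAt, fun d => d.2.2.2.2.1, K, hK, fun d => d.2.2.2.2.2.2.1⟩
    ⟨fun d => d.2.2.2.1.contDiffAt, fun d => d.2.2.2.2.1, K, hK, fun d => d.2.2.2.2.2.2.2⟩
    fun d => d.2.2.2.2.2.1).bd
  exact ⟨C, c0, fun A B p μ a1 a2 a3 a4 a5 a6 a7 => h ⟨(A, B, p, μ), a1, a2, a3, a4, a5, a6, a7⟩⟩

/-- The second derivative of a composition. -/
theorem cmp2 (K : ℝ) : ∃ C, ∀ (S φ : R4 → R4) (p : R4), ContDiffAt ℝ ∞ φ p →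
    ContDiffAt ℝ ∞ S (φ p) → ‖fderiv ℝ φ p‖ ≤ K → ‖fderiv ℝ (fderiv ℝ φ) p‖ ≤ K →
    Jb 2 (fun y => S y - y) (φ p) K → ‖fderiv ℝ (fderiv ℝ (S ∘ φ)) p‖ ≤ C := by
  let J := {d : (R4 → R4) × (R4 → R4) × R4 // ContDiffAt ℝ ∞ d.2.1 d.2.2 ∧
    ContDiffAt ℝ ∞ d.1 (d.2.1 d.2.2) ∧ ‖fderiv ℝ d.2.1 d.2.2‖ ≤ K ∧
    ‖fderiv ℝ (fderiv ℝ d.2.1) d.2.2‖ ≤ K ∧ Jb 2 (fun y => d.1 y - y) (d.2.1 d.2.2) K}
  have a : Oj 1 (fun d : J => d.1.2.2) (fun d => fderiv ℝ d.1.2.1) 1 :=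
    .of1 (fun d => P354YI.at_fd d.2.1) fun d => .succ d.2.2.2.1 (.of_zero d.2.2.2.2.1)
  have b := (Oj.comp (fun d : J => d.2.1) 2 a
    (.of1 (fun d => d.2.2.1.sub contDiffAt_id) fun d => d.2.2.2.2.2)).fd.add a
  obtain ⟨C, -, h⟩ := (b.congr (g := fun d => fderiv ℝ (d.1.1 ∘ d.1.2.1)) fun d => by
    filter_upwards [P354YI.ev_dif d.2.1, P354YI.ev_dif (P354YI.at_comp
      (d.2.2.1.sub contDiffAt_id) d.2.1)] with y h1 h2
    rw [← fderiv_fun_add h2 h1]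
    simp only [id, sub_add_cancel]
    rfl).fd.val
  exact ⟨C * 1, fun S φ p a1 a2 a3 a4 a5 => h ⟨(S, φ, p), a1, a2, a3, a4, a5⟩⟩

theorem sh_det (h : rd p ≠ 0) (hA : DifferentiableAt ℝ A (rd p)) (hB : DifferentiableAt ℝ B (rd p)) :
    LinearMap.det (fderiv ℝ (sh A B) p : R4 →ₗ[ℝ] R4) = 1 := by
  rw [P354YT.det_pol (p := p) (A := 1) (B := deriv A (rd p) / rd p) (E := 0) (D := 0) (m := 1)
    (K := deriv B (rd p) / rd p) (c := B (rd p)) fun v => ?_]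
  · ring
  · rw [ContinuousLinearMap.coe_coe, P354TF.sh_fd h hA.hasDerivAt hB.hasDerivAt, P354XA.dr_eq]
    ext <;> simp [P354TF.rot, P354YT.pol, eT, P354XE.Om, sh] <;> ring

theorem sh_iv (hA : ContDiff ℝ ∞ A) (hB : ContDiff ℝ ∞ B) :
    Inv (sh A B) (sh (-A) (-B)) {q | rd q ≠ 0} {q | rd q ≠ 0} :=
  have o : IsOpen {q : R4 | rd q ≠ 0} := isOpen_ne_fun P354XA.rd_cont continuous_const
  ⟨o, o, fun _ h => (sh_cd h hA.contDiffAt hB.contDiffAt).contDiffWithinAt,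
    fun _ h => (sh_cd h hA.neg.contDiffAt hB.neg.contDiffAt).contDiffWithinAt,
    fun _ h => (rd_sh _ _ _).trans_ne h, fun _ h => (rd_sh _ _ _).trans_ne h,
    fun _ _ => sh_inv _ _ _, fun _ _ => sh_inv' _ _ _⟩

theorem cht_iv {U : Set E6} {a : E6 → E6} (h : Cht U a) :
    Inv (dn4 a) (b4 U a) (pj '' U) (pj '' (a '' U)) :=
  ⟨h.dif4.op, h.dif_b4.op, fun y k => (h.dif4.sm y k).contDiffWithinAt,
    fun y k => (h.dif_b4.sm y k).contDiffWithinAt,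
    fun _ ⟨x, k, e⟩ => e ▸ ⟨_, ⟨x, k, rfl⟩, (h.eqv.pj_dn k).symm⟩,
    fun _ ⟨_, k, e⟩ => e ▸ ⟨_, P354XO.Dif.mem k, (h.b4_pj k).symm⟩,
    fun _ ⟨_, k, e⟩ => by rw [← e, h.eqv.pj_dn k, h.b4_a k],
    fun _ ⟨_, ⟨_, k, e⟩, e'⟩ => by rw [← e', ← e, h.b4_a k, h.eqv.pj_dn k]⟩

/-- The pull back. -/
theorem pull_of {U : Set E6} {a : E6 → E6} {g : Tw} {W : Set R4} (h : Cht U a) (l : Lv g W)
    (s : pj '' U ⊆ W) (hA : ContDiff ℝ ∞ A) (hB : ContDiff ℝ ∞ B) : ∃ Wt,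
    Pull (sh A B ∘ dn4 a) g (pj '' U) (pb (sh (-A) (-B)) (pb (b4 U a) g)) Wt ∧
      Lv (pb (sh (-A) (-B)) (pb (b4 U a) g)) Wt := by
  have i := cht_iv h
  have j := sh_iv hA hB
  have l0 := l.mono i.o s
  have l1 := l0.pull (i.symm.pull l0 fun p => ⟨fun k => ⟨k, i.mh k⟩, fun k => k.1⟩)
  have l2 := l1.pull (j.symm.pull l1 (D := {q | _ ∧ _}) fun _ => Iff.rfl)
  have r : ∀ p ∈ pj '' U, rd (dn4 a p) ≠ 0 := fun _ ⟨x, k, e⟩ => by
    rw [← e, h.eqv.pj_dn k, P354XR.rd_pj (h.pos x k) (h.eqv.ne x k)]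
    exact (h.pos x k).ne'
  have d : ∀ p ∈ pj '' U, fderiv ℝ (sh A B ∘ dn4 a) p = _ := fun p k =>
    fderiv_comp p (j.dif (r p k)) (i.dif k)
  refine ⟨_, ⟨i.o, l2.isOpen, l2.met, j.sf.comp i.sf r, fun p k => ⟨j.mf (r p k), ?_⟩,
    fun p k => ?_, fun p k v w => ?_⟩, l2⟩
  · rw [Function.comp, sh_inv]
    exact i.mf k
  · rw [d p k]
    exact (Function.LeftInverse.injective (j.ap (r p k))).comp
      (Function.LeftInverse.injective (i.ap k))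
  · simp only [pb, d p k, Function.comp, ContinuousLinearMap.comp_apply, j.ap (r p k), sh_inv,
      i.ap k, i.l p k]

theorem ex_pt (h : 0 < rd p) : ∃ x : E6, 0 < x.2.1 ∧ x.2.2 ≠ 0 ∧ pj x = p := by
  have e : P354XO.rr p = rd p := by
    simp only [P354XA.rd_eq, P354XO.rr, P354XA.ip, sq]
  rw [← e] at h
  rcases le_total 0 p.2.2.2 with k | k
  · have n : P354XO.rr p + p.2.2.2 ≠ 0 := by positivity
    exact ⟨P354XO.sN p, h, fun z => n (Complex.ofReal_eq_zero.1 (congrArg Prod.fst z)),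
      P354XO.pj_sN n⟩
  · have n : P354XO.rr p - p.2.2.2 ≠ 0 := by linarith
    exact ⟨P354XO.sS p, h, fun z => n (Complex.ofReal_eq_zero.1 (congrArg Prod.snd z)),
      P354XO.pj_sS n⟩

theorem ex_unit {U : Set E6} {a : E6 → E6} (h : Cht U a) {x : E6} (hx : x ∈ U) :
    ∃ y ∈ U, pj y = pj x ∧ y.2.1 = x.2.1 ∧ nq (a y) = 1 := by
  have n := nq_pos (h.eqv.ne x hx)
  have z : ((√(nq (a x)))⁻¹ : ℝ) ≠ (0 : ℂ) := Complex.ofReal_ne_zero.2 (by positivity)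
  refine ⟨sc _ x, h.eqv.hom x hx _ z, P354XO.pj_sc z x, rfl, ?_⟩
  rw [h.eqv.eqv x hx _ z, P354XO.nq_sc, Complex.normSq_ofReal, ← mul_inv, Real.mul_self_sqrt n.le,
    inv_mul_cancel₀ n.ne']

theorem wt_sh {t d K s : ℝ} (hd : |d| ≤ K) (hs : 0 ≤ s) :
    (1 + |t|) ^ (-s) ≤ (1 + K) ^ s * (1 + |t + d|) ^ (-s) := by
  have k0 := (abs_nonneg d).trans hd
  have : 1 + |t + d| ≤ (1 + K) * (1 + |t|) := by
    nlinarith [abs_add_le t d, abs_nonneg t, mul_nonneg k0 (abs_nonneg t)]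
  refine le_trans (le_of_eq ?_) (mul_le_mul_of_nonneg_left
    (Real.rpow_le_rpow_of_nonpos (by positivity) this (by linarith)) (by positivity))
  rw [Real.mul_rpow (by positivity) (by positivity), ← mul_assoc, ← Real.rpow_add (by positivity),
    add_neg_cancel, Real.rpow_zero, one_mul]

theorem jb_neg {n : ℕ} {r c : ℝ} (h : Jb n A r c) : Jb n (-A) r c := fun k hk => by
  rw [iteratedFDeriv_neg_apply, norm_neg]
  exact h k hk

theorem near1 {ψ S : R4 → R4} {α β : ℝ} (hψ : ContDiffAt ℝ ∞ ψ p) (hS : ContDiffAt ℝ ∞ S (ψ p))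
    (h1 : Jb 1 (fun y => ψ y - y) p α) (h2 : Jb 1 (fun y => S y - y) (ψ p) β) (h : α ≤ 1) :
    ‖S (ψ p) - p‖ ≤ 2 * β + α ∧
      ‖fderiv ℝ (S ∘ ψ) p - ContinuousLinearMap.id ℝ R4‖ ≤ 2 * β + α := by
  have d1 := hψ.differentiableAt (by simp)
  have d2 := hS.differentiableAt (by simp)
  have a1 := h1.fd.zero
  have a2 := h2.fd.zero
  have b0 := h2.nonneg
  rw [fderiv_fun_sub d1 differentiableAt_fun_id, fderiv_fun_id] at a1
  rw [fderiv_fun_sub d2 differentiableAt_fun_id, fderiv_fun_id] at a2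
  have a3 : ‖fderiv ℝ ψ p‖ ≤ 2 := by
    linarith [norm_le_norm_sub_add (fderiv ℝ ψ p) (.id ℝ R4),
      ContinuousLinearMap.norm_id_le (𝕜 := ℝ) (E := R4)]
  refine ⟨(norm_sub_le_norm_sub_add_norm_sub _ (ψ p) _).trans
    (by linarith [h1.zero, h2.zero]), ?_⟩
  rw [fderiv_comp p d2 d1, show (fderiv ℝ S (ψ p)).comp (fderiv ℝ ψ p) - .id ℝ R4 =
    (fderiv ℝ S (ψ p) - .id ℝ R4).comp (fderiv ℝ ψ p) + (fderiv ℝ ψ p - .id ℝ R4) by
      rw [ContinuousLinearMap.sub_comp, ContinuousLinearMap.id_comp, sub_add_sub_cancel]]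
  refine (norm_add_le _ _).trans (add_le_add ((ContinuousLinearMap.opNorm_comp_le _ _).trans ?_) a1)
  exact (mul_le_mul a2 a3 (norm_nonneg _) b0).trans_eq (mul_comm _ _)

/-- LKB. -/
theorem lkb (hD : P354YQ.DEC) (hT : P354YQ.THS) : P354YA.LKB := by
  intro z c ag hN Cl hCl
  have ok := ag.ok
  have M0 : 0 < c.M := (abs_nonneg _).trans_lt ok.aM
  have r1 : 0 < c.r1 := by
    have : √(c.M ^ 2 - c.a ^ 2) ≤ c.M := Real.sqrt_le_iff.2 ⟨M0.le, by nlinarith [sq_nonneg c.a]⟩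
    linarith [ok.r1]
  have zr : 0 < z.r1 := by
    have := (ag.zo.ok _ le_rfl _ le_rfl).1.1
    exact (P354XA.hor this.sub).2.1.trans_lt this.r1.1
  obtain ⟨K, k0, hK⟩ := th_jb M0 c.M c.a c.r1 (c.Rs + 1) z.R1 Cl 2
  obtain ⟨C1, c1, h1⟩ := sh_jb r1 (c.Rs + 1) (show 0 ≤ K + 1 by linarith) 1
  obtain ⟨C2, h2⟩ := cmp2 (max Cl (C1 * 1))
  obtain ⟨C3, c3, h3⟩ := sh_jb r1 (c.Rs + 1) zero_le_one 0
  obtain ⟨Cd, cd, hD⟩ := hD c ok
  obtain ⟨w0, w1, Co, ho⟩ := P354BO.outb c.M c.a c.r1 (c.Rs + 1) 4 ok.aM r1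
  refine ⟨C2, fun ε ε0 => ?_⟩
  obtain ⟨μ, μ0, μ1, μ2⟩ : ∃ μ > 0, μ ≤ 1 ∧ C3 * μ ≤ ε / 4 := by
    refine ⟨min 1 (ε / (4 * (C3 + 1))), by positivity, min_le_left _ _,
      (mul_le_mul_of_nonneg_left (min_le_right _ _) c3).trans ?_⟩
    rw [← mul_div_assoc, div_le_div_iff₀ (by positivity) (by positivity)]
    linarith
  obtain ⟨η, η0, hT⟩ := hT c.M c.a c.r1 (c.Rs + 1) 2 M0 μ μ0
  obtain ⟨N, n0, hN'⟩ : ∃ N, 0 ≤ N ∧ N = |Co| * (1 + (K + 1)) ^ (7 / 5 : ℝ) :=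
    ⟨_, by positivity, rfl⟩
  obtain ⟨δ, δ0, δ1, δ2, δ3, δ4⟩ : ∃ δ > 0, δ ≤ 1 ∧ δ ≤ η ∧ δ ≤ w0 ∧ (N + 2) * δ ≤ ε :=
    ⟨min (min 1 η) (min w0 (ε / (N + 2))), by positivity, (min_le_left _ _).trans (min_le_left _ _),
      (min_le_left _ _).trans (min_le_right _ _), (min_le_right _ _).trans (min_le_left _ _),
      (le_div_iff₀' (by positivity)).1 ((min_le_right _ _).trans (min_le_right _ _))⟩
  refine ⟨δ / (Cd * Cl), by positivity, fun e he gc g E κ U a A B tw V L hE hL e0 dc hV a0 b0 l => ?_⟩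
  have e1 : Cd * (Cl * e) ≤ δ := by
    linarith [(le_div_iff₀' (by positivity)).1 he.2, mul_assoc Cd Cl e]
  have e2 : 0 ≤ Cl * e := mul_nonneg (by linarith) he.1.le
  have e3 : Cl * e ≤ δ := (le_mul_of_one_le_left e2 cd).trans e1
  have e4 := mul_nonneg n0 δ0.le
  have cp := hD E L _ hE hL (e3.trans δ1) e0 dc
  have pr : |E.M - c.M| + |E.a - c.a| ≤ δ := by linarith [cp.par, hE.near.e0]
  have th : IsTh c.M c.M c.a A B := by rw [ag.M, ag.a]; exact l.th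
  obtain ⟨A2, B2, t2, hT⟩ := hT _ _ A B (pr.trans δ2) th
  have s1 := th_sm M0 th
  have s2 := th_sm M0 t2
  have j2 : ∀ r ∈ Icc c.r1 (c.Rs + 1), Jb 2 A2 r ((K + 1) * 1) ∧ Jb 2 B2 r ((K + 1) * 1) :=
    fun r hr => by
    have k := hK A B th a0 (by rw [b0, abs_zero]; linarith) r hr
    exact ⟨((k.1.add (jb_neg (hT r hr).1) s1.1.contDiffAt (s1.1.sub s2.1).neg.contDiffAt).congr
      (.of_forall fun _ => by simp)).mono le_rfl (by linarith),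
      ((k.2.add (jb_neg (hT r hr).2) s1.2.contDiffAt (s1.2.sub s2.2).neg.contDiffAt).congr
      (.of_forall fun _ => by simp)).mono le_rfl (by linarith)⟩
  have key : ∀ p ∈ P354BK.Zo (P354MG.lo z c.Rs) (fun _ => 0) V, ∃ x ∈ U, pj x = p ∧ x.2.1 < c.Rs ∧
      nq (a x) = 1 ∧ a x ∈ E.O1 ∧ dn4 a p = pj (a x) ∧ rd (pj (a x)) = (a x).2.1 ∧
      (a x).2.1 ∈ Icc c.r1 (c.Rs + 1) := fun p hp => by
    obtain ⟨x, x1, x2, rfl⟩ := ex_pt (zr.trans hp.1.1)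
    obtain ⟨y, hy, y1, y2, y3⟩ := ex_unit l.cht (l.cov x x1 x2 hp.1 hp.2.1.le
      (by rw [hV]; exact (add_zero _).ge.trans_lt hp.2.2.2)).1
    have y4 : y.2.1 < c.Rs := (y2.trans (P354XR.rd_pj x1 x2).symm).trans_lt hp.2.2.1
    have y5 : a y ∈ E.O1 := l.o1 ▸ ⟨y, ⟨hy, y4⟩, rfl⟩
    exact ⟨y, hy, y1, y4, y3, y5, y1 ▸ l.cht.eqv.pj_dn hy,
      P354XR.rd_pj (l.cht.pos y hy) (l.cht.eqv.ne y hy), (hE.shape.rad1 _ y5).1,
      (hE.shape.rad1 _ y5).2.1⟩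
  obtain ⟨W, lW, sW⟩ := l.lv
  obtain ⟨Wt, P, lt⟩ := pull_of l.cht lW sW s2.1 s2.2
  rw [← l.met] at P lt
  refine ⟨_, _, ⟨_, Wt, fun p hp => ?_, P, lt⟩, fun p hp => ?_, by
    change |E.M - z.M| + |E.a - z.a| ≤ ε
    rw [← ag.M, ← ag.a]
    linarith, fun p hp => ?_, fun p hp => ?_, 0, fun p hp hs => ?_⟩ <;>
    obtain ⟨x, hx, rfl, x1, x2, x3, x4, x5, x6⟩ := key p hp <;>
    have sa := l.cht.eqv.sm_dn hx <;> have n : rd (dn4 a (pj x)) ≠ 0 := by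
      rw [x4, x5]; exact (l.cht.pos x hx).ne'
  · exact ⟨x, hx, rfl⟩
  · rw [fderiv_comp _ ((sh_cd n s2.1.contDiffAt s2.2.contDiffAt).differentiableAt (by simp))
      (sa.differentiableAt (by simp)), ContinuousLinearMap.toLinearMap_comp, LinearMap.det_comp,
      sh_det n (s2.1.differentiable (by simp) _) (s2.2.differentiable (by simp) _), one_mul]
    exact l.det x hx
  · have u0 : 0 ≤ (1 + |(a x).1|) ^ (-(7 / 5) : ℝ) := by positivity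
    have u1 : (1 + |(a x).1|) ^ (-(7 / 5) : ℝ) ≤ 1 :=
      Real.rpow_le_one_of_one_le_of_nonpos (by linarith [abs_nonneg (a x).1]) (by norm_num)
    have u2 : 0 ≤ Cd * (Cl * e) := mul_nonneg (by linarith) e2
    have b := ho E.O1 E.g E.F1 E.M E.a A2 B2 (a x) _ hE.shape.co1 hE.eqs.v1 hE.eqs.w1 (pr.trans δ3)
      t2 x3 x2 x6.1 x6.2 (mul_nonneg u2 u0) ((mul_le_of_le_one_right u2 u1).trans (e1.trans δ3))
      fun i => (P354BO.q2_mono _ _ hN _).trans (cp.n1 _ x3 (by rw [An, x2]; norm_num) (.inl i))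
    have u3 := wt_sh (t := (a x).1) (s := 7 / 5) ((j2 _ x6).1.zero.trans_eq (mul_one _))
      (by norm_num)
    rw [Function.comp, x4]
    refine fun k hk v w => (b k hk v w).trans (mul_le_mul_of_nonneg_right ?_ (by positivity))
    change _ ≤ ε * (1 + |(a x).1 + A2 (rd (pj (a x)))|) ^ (-(7 / 5) : ℝ)
    rw [x5]
    refine ((mul_le_mul_of_nonneg_right (le_abs_self Co) (mul_nonneg u2 u0)).trans
      (mul_le_mul_of_nonneg_left (mul_le_mul e1 u3 u0 δ0.le) (abs_nonneg _))).trans ?_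
    rw [← mul_assoc δ, ← mul_assoc, mul_comm δ, ← mul_assoc, ← hN']
    exact mul_le_mul_of_nonneg_right (by linarith) (by positivity)
  · rw [← x5, ← x4] at x6
    exact h2 _ _ _ sa (sh_cd n s2.1.contDiffAt s2.2.contDiffAt)
      (le_max_of_le_left (l.d2 x hx x1).1) (le_max_of_le_left (l.d2 x hx x1).2)
      ((h1 A2 B2 _ 1 x6 s2.1 s2.2 zero_le_one le_rfl (j2 _ x6).1 (j2 _ x6).2).mono le_rfl
        (le_max_right _ _))
  · rw [← x5, ← x4, ← rd_sh A B] at x6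
    have k := near1 (ψ := fun y => sh A B (dn4 a y)) (S := sh (-(A - A2)) (-(B - B2)))
      ((sh_cd n s1.1.contDiffAt s1.2.contDiffAt).comp _ sa)
      (sh_cd ((rd_sh _ _ _).trans_ne n) (s1.1.sub s2.1).neg.contDiffAt
        (s1.2.sub s2.2).neg.contDiffAt)
      ((l.ini x hx x1 (l.low x hx (hs.trans zero_le_one))).mono (by omega) le_rfl)
      (h3 _ _ _ μ x6 (s1.1.sub s2.1).neg (s1.2.sub s2.2).neg μ0.le μ1
        ((jb_neg (hT _ x6).1).mono one_le_two (one_mul _).ge)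
        ((jb_neg (hT _ x6).2).mono one_le_two (one_mul _).ge)) (e3.trans δ1)
    simp only [Function.comp_def, sh_sh, neg_sub, sub_add_cancel] at k
    rw [zero_smul, sub_zero]
    exact ⟨k.1.trans (by linarith), k.2.trans (by linarith)⟩

end Vale.Agent.P354XL
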