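import Vale.Agent.P354XL.Coef
import Vale.Agent.P354BF.Ms

/-!
The operators of the black box in the chart (t, r), the densities in time, and the statement of
the estimate of low order.
-/

open scoped ContDiff
open Complex (I)
open Set Filter

noncomputable section

namespace Vale.Agent.P354XL

open Vale.Agent.P354BO Vale.Agent.P354BF

variable {s : ℤ}

/-- The derivatives T = d_t, Phi = L 2. -/
def T (F : Fam s) : Fam s := X (.inl 0) F
def Φ (F : Fam s) : Fam s := X (.inr 2) F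

/-- The chart: the ingoing time is t + H r, the ingoing angle is the angle plus J r. -/
structure Ch where
  M : ℝ
  a : ℝ
  H : ℝ → ℝ
  J : ℝ → ℝ

namespace Ch
variable (c : Ch)

/-- The ingoing radial derivative d_r - H' T - J' Phi. -/
def R (F : Fam s) : Fam s := fun z =>
  X (.inl 1) F z + ((-deriv c.H z.2 : ℝ) : ℂ) • T F z + ((-deriv c.J z.2 : ℝ) : ℂ) • Φ F z

/-- The operator 2 (r^2 + a^2) T + 2 a Phi. -/
def Y (F : Fam s) : Fam s := fun z =>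
  ((2 * (z.2 ^ 2 + c.a ^ 2) : ℝ) : ℂ) • T F z + ((2 * c.a : ℝ) : ℂ) • Φ F z

/-- Minus the spheroidal operator. -/
def nl (k : ℝ) (F : Fam s) : Fam s := fun z =>
  X (.inr 0) (X (.inr 0) F) z + X (.inr 1) (X (.inr 1) F) z + X (.inr 2) (X (.inr 2) F) z +
    ((c.a ^ 2 : ℝ) : ℂ) • T (T F) z + ((2 * c.a : ℝ) : ℂ) • T (Φ F) z +
    ((-c.a ^ 2 : ℝ) : ℂ) • w 2 (w 2 (T (T F) z)) + (-(2 * k * c.a * I)) • w 2 (T F z)

/-- The Teukolsky operator of spin σ. -/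
def P (σ k : ℝ) (F : Fam s) : Fam s := fun z =>
  ((De c.M c.a z.2 : ℝ) : ℂ) • c.R (c.R F) z +
    (((1 - σ) * (2 * z.2 - 2 * c.M) : ℝ) : ℂ) • c.R F z + c.Y (c.R F) z +
    ((2 * z.2 * (1 - 2 * σ) : ℝ) : ℂ) • T F z + ((σ ^ 2 - σ : ℝ) : ℂ) • F z + c.nl k F z

/-- The outgoing derivative R + Y / Delta (where Delta is at least one). -/
def D (F : Fam s) : Fam s := fun z => c.R F z + ((sinv (De c.M c.a z.2) : ℝ) : ℂ) • c.Y F z

/-- The chain of spin -2 (where r and Delta are at least one). -/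
def up (F : Fam s) : Fam s := fun z => ((z.2 ^ 2 : ℝ) : ℂ) • c.D F z
def c0 (F : Fam s) : Fam s := fun z => ((De c.M c.a z.2 ^ 2 * sinv z.2 ^ 3 : ℝ) : ℂ) • F z
def c3 (F : Fam s) : Fam s := c.D (c.up (c.up (c.c0 F)))

end Ch

/-- A weighted square at the time t. -/
def qd (g : ℝ → ℝ) (G : Fam s) (x y t : ℝ) : ℝ := ∫ r in x..y, g r * ‖G (t, r)‖ ^ 2

/-- At most two ingoing radial derivatives. -/
def Ch.W2 (c : Ch) (F : Fam s) (x y t : ℝ) : ℝ :=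
  ∑ j ∈ Finset.range 3, qd (fun _ => 1) (c.R^[j] F) x y t

/-- All words of length at most n. -/
def Jt (n : ℕ) (F : Fam s) (x y t : ℝ) : ℝ := ∫ r in x..y, jet n F (t, r)

/-- The far densities of the spins 2 and -2. -/
def Ch.Lp (c : Ch) (p : ℝ) (F : Fam s) (x y t : ℝ) : ℝ :=
  qd (fun r => r ^ p * r ^ 2 / r ^ 7) (c.D F) x y t + qd (fun r => r ^ p / r ^ 7) F x y t
def Ch.Lm (c : Ch) (p : ℝ) (F : Fam s) (x y t : ℝ) : ℝ := qd (fun r => r ^ p / r) (c.c3 F) x y t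

/-- The charts of the parameters (M, a). -/
def ch (H J : (ℝ × ℝ) × ℝ → ℝ) (q : ℝ × ℝ) : Ch :=
  ⟨q.1, q.2, fun r => H (q, r), fun r => J (q, r)⟩

/-- The estimate of low order for the densities i, b, e, with plateau [p, q] and two ramps. -/
def LowC (i b e : ℝ → ℝ) (C0 C : ℝ) : Prop :=
  ∀ ε p q l1 l2 : ℝ, 0 ≤ ε → ε ≤ C0 → p ≤ q → 1 ≤ 2 * l1 → 1 ≤ 2 * l2 →
    ∫ t in p..q, Real.exp (-(2 * ε * t)) * i t ≤
      (∫ t in (p - l1)..(q + l2), Real.exp (-(2 * ε * t)) * b t) +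
      C / l1 ^ 2 * (∫ t in (p - l1)..p, Real.exp (-(2 * ε * t)) * e t) +
      C / l2 ^ 2 * ∫ t in q..(q + l2), Real.exp (-(2 * ε * t)) * e t

/-- The estimate of low order for the spin σ with the far density La. -/
def LOW (s : ℤ) (σ : ℝ) (La : Ch → ℝ → Fam s → ℝ → ℝ → ℝ → ℝ) : Prop :=
  ∀ (M0 a0 r0 k p R2 H1 C0 δ1 : ℝ) (H J : (ℝ × ℝ) × ℝ → ℝ), |a0| < M0 → M0 < r0 →
    r0 < rp M0 a0 → 0 < p → r0 ≤ R2 → ContDiff ℝ ∞ H → ContDiff ℝ ∞ J → 0 < δ1 →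
    ∃ ρ, 0 < ρ ∧ ∀ δ, 0 < δ → ∀ᶠ R in atTop, ∃ C, 0 ≤ C ∧ ∀ q : ℝ × ℝ, |q.1 - M0| ≤ ρ →
      |q.2 - a0| ≤ ρ → (∀ r ∈ Icc r0 (2 * R), -H1 ≤ H (q, r)) → ∀ F : Fam s, JS F →
        LowC ((ch H J q).W2 F r0 R2)
          (fun t => δ1 * ((ch H J q).W2 (T F) r0 R2 t + (ch H J q).W2 (Φ F) r0 R2 t) +
            δ * La (ch H J q) p F R2 (2 * R) t +
            C * (ch H J q).W2 ((ch H J q).P σ k F) r0 (2 * R) t)
          (Jt 4 F r0 (2 * R)) C0 C

section ops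
variable {ι : Type} {K : Set (ℝ × ℝ)} (hK : IsCompact K) {pa : ι → ℝ × ℝ} (hpa : ∀ p, pa p ∈ K)
  {H J : (ℝ × ℝ) × ℝ → ℝ} (hH : ContDiff ℝ ∞ H) (hJ : ContDiff ℝ ∞ J) (x y : ℝ)
include hK hpa

theorem Op.sm {x y : ℝ} {n : ℕ} {D : ι → Fam s → Fam s} (h : Op (st x y) n D)
    {γ : (ℝ × ℝ) × ℝ → ℝ} (hγ : ContDiff ℝ ∞ γ) :
    Op (st x y) n fun p F z => ((γ (pa p, z.2) : ℝ) : ℂ) • D p F z :=
  ((op_smul (sb_of hK hpa x y (Complex.ofRealCLM.contDiff.comp hγ))).comp h).mono (zero_add n).le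

theorem op_Y : Op (st x y) 1 fun p (F : Fam s) => (ch H J (pa p)).Y F :=
  ((op_X _).sm hK hpa (γ := fun q => 2 * (q.2 ^ 2 + q.1.2 ^ 2)) (by fun_prop)).add
    ((op_X _).sm hK hpa (γ := fun q => 2 * q.1.2) (by fun_prop))

theorem op_nl (k : ℝ) : Op (st x y) 2 fun p (F : Fam s) => (ch H J (pa p)).nl k F :=
  (((((((op_X _).comp (op_X _)).add ((op_X _).comp (op_X _))).add ((op_X _).comp (op_X _))).add
    (((op_X _).comp (op_X _)).sm hK hpa (γ := fun q => q.1.2 ^ 2) (by fun_prop))).add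
    (((op_X _).comp (op_X _)).sm hK hpa (γ := fun q => 2 * q.1.2) (by fun_prop))).add
    (((op_w 2).comp ((op_w 2).comp ((op_X _).comp (op_X _)))).sm hK hpa
      (γ := fun q => -q.1.2 ^ 2) (by fun_prop))).add
    (((op_smul (sb_of hK hpa x y (γ := fun q => -(2 * k * (q.1.2 : ℂ) * I))
      ((contDiff_const.mul (Complex.ofRealCLM.contDiff.comp contDiff_fst.snd)).mul
        contDiff_const).neg)).comp ((op_w 2).comp (op_X _))).mono (by norm_num))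

theorem op_c0 : Op (st x y) 0 fun p (F : Fam s) => (ch H J (pa p)).c0 F :=
  op_id.sm hK hpa (γ := fun q => De q.1.1 q.1.2 q.2 ^ 2 * sinv q.2 ^ 3)
    ((ContDiff.pow (by unfold De; fun_prop) 2).mul ((sinv_sm.comp contDiff_snd).pow 3))

include hH hJ

theorem op_R : Op (st x y) 1 fun p (F : Fam s) => (ch H J (pa p)).R F :=
  ((op_X _).add ((op_X _).sm hK hpa (sm_par hH).neg)).add ((op_X _).sm hK hpa (sm_par hJ).neg)

theorem op_P (σ k : ℝ) : Op (st x y) 2 fun p (F : Fam s) => (ch H J (pa p)).P σ k F :=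
  have r := op_R (s := s) hK hpa hH hJ x y
  ((((((r.comp r).sm hK hpa (γ := fun q => De q.1.1 q.1.2 q.2) (by unfold De; fun_prop)).add
    ((r.sm hK hpa (γ := fun q => (1 - σ) * (2 * q.2 - 2 * q.1.1)) (by fun_prop)).mono
      one_le_two)).add ((op_Y hK hpa x y).comp r)).add
    (((op_X _).sm hK hpa (γ := fun q => 2 * q.2 * (1 - 2 * σ)) (by fun_prop)).mono one_le_two)).add
    ((op_id.sm hK hpa (γ := fun _ => σ ^ 2 - σ) contDiff_const).mono zero_le_two)).add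
    (op_nl hK hpa x y k)

theorem op_D : Op (st x y) 1 fun p (F : Fam s) => (ch H J (pa p)).D F :=
  (op_R hK hpa hH hJ x y).add ((op_Y hK hpa x y).sm hK hpa
    (γ := fun q => sinv (De q.1.1 q.1.2 q.2)) (sinv_sm.comp (by unfold De; fun_prop)))

theorem op_up : Op (st x y) 1 fun p (F : Fam s) => (ch H J (pa p)).up F :=
  (op_D hK hpa hH hJ x y).sm hK hpa (γ := fun q => q.2 ^ 2) (by fun_prop)

theorem op_c3 : Op (st x y) 3 fun p (F : Fam s) => (ch H J (pa p)).c3 F :=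
  (op_D hK hpa hH hJ x y).comp ((op_up hK hpa hH hJ x y).comp
    ((op_up hK hpa hH hJ x y).comp (op_c0 hK hpa x y)))

end ops

end Vale.Agent.P354XL
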