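import Vale.Agent.P354XL.Defs

/-!
The coefficients at a complex frequency, and the operators at one frequency.
-/

open scoped ContDiff
open Complex (I)
open Set Filter Topology MeasureTheory

noncomputable section

namespace Vale.Agent.P354XL

open Vale.Agent.P354BO Vale.Agent.P354BF Vale.Agent.P354XN

variable {s : ℤ}

/-- The window [t0, t0 + τ] around the support [a, b], and the rate ε. -/
structure Fq where
  t0 : ℝ
  τ : ℝ
  ε : ℝ
  a : ℝ
  b : ℝ
  h1 : t0 < a
  h2 : b < t0 + τ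
  h3 : 0 < τ

namespace Fq
variable (f : Fq)

/-- The complex frequency. -/
def om (k : ℤ × ℤ) : ℂ := P354BO.om f.τ k.1 + I * f.ε

/-- The shifted function with the exponential weight. -/
def wf (F : Fam s) : Fam s := fun z => Complex.exp (-(f.ε * z.1)) • F (f.t0 + z.1, z.2)

/-- The support in time. -/
def Cs (F : Fam s) : Prop := ∀ z : ℝ × ℝ, z.1 < f.a ∨ f.b < z.1 → F z = 0

/-- The phase between the chart and the ingoing coordinates. -/
def ph (c : Ch) (k : ℤ × ℤ) (r : ℝ) : ℂ := Complex.exp (I * (f.om k * c.H r - k.2 * c.J r))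

/-- The coefficient as a curve in ingoing coordinates. -/
def hh (c : Ch) (k : ℤ × ℤ) (F : Fam s) (r : ℝ) : S s :=
  f.ph c k r • hat f.τ k fun t => f.wf F (t, r)

variable {f} {F G : Fam s} {c : Ch} {k : ℤ × ℤ}

theorem ex_sm : ContDiff ℝ ∞ fun z : ℝ × ℝ => Complex.exp (-(f.ε * z.1)) :=
  (contDiff_const.mul (Complex.ofRealCLM.contDiff.comp contDiff_fst)).neg.cexp

theorem wf_js (h : JS F) : JS (f.wf F) :=
  (h.comp ((contDiff_const.add contDiff_fst).prodMk contDiff_snd)).smul ex_sm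

theorem sl_js (h : JS F) (r : ℝ) : JS fun t => f.wf F (t, r) :=
  (wf_js h).comp (contDiff_prodMk_left r)

theorem Cs.X (h : f.Cs F) (a : Fin 2 ⊕ Fin 3) : f.Cs (X a F) := fun z hz => by
  rcases a with k | i
  · have o : IsOpen {z : ℝ × ℝ | z.1 < f.a ∨ f.b < z.1} :=
      (isOpen_lt continuous_fst continuous_const).union (isOpen_lt continuous_const continuous_fst)
    have : F =ᶠ[𝓝 z] fun _ => 0 := (o.eventually_mem hz).mono h
    simp [P354XL.X, this.fderiv_eq]
  · simp [P354XL.X, h z hz]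

theorem ph_der (hH : ContDiff ℝ ∞ c.H) (hJ : ContDiff ℝ ∞ c.J) (r : ℝ) :
    HasDerivAt (f.ph c k) (f.ph c k r * (I * (f.om k * deriv c.H r - k.2 * deriv c.J r))) r :=
  (((((hH.differentiable (by simp) r).hasDerivAt.ofReal_comp).const_mul _).sub
    (((hJ.differentiable (by simp) r).hasDerivAt.ofReal_comp).const_mul _)).const_mul I).cexp

theorem ph_sm (hH : ContDiff ℝ ∞ c.H) (hJ : ContDiff ℝ ∞ c.J) : ContDiff ℝ ∞ (f.ph c k) :=
  (contDiff_const.mul ((contDiff_const.mul (Complex.ofRealCLM.contDiff.comp hH)).sub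
    (contDiff_const.mul (Complex.ofRealCLM.contDiff.comp hJ)))).cexp

theorem md (hH : ContDiff ℝ ∞ c.H) (hJ : ContDiff ℝ ∞ c.J) (h : JS F) :
    (ang s).Md k.2 (f.hh c k F) := ((wf_js h).md f.τ k).smul (ph_sm hH hJ)

theorem ph_sq (r : ℝ) : ‖f.ph c k r‖ ^ 2 = Real.exp (-(2 * f.ε * c.H r)) := by
  rw [ph, Complex.norm_exp, ← Real.exp_nat_mul]
  exact congrArg _ (by simp [om]; ring)

theorem hh_add (h : JS F) (h' : JS G) (r : ℝ) :
    f.hh c k (fun z => F z + G z) r = f.hh c k F r + f.hh c k G r := by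
  rw [hh, hh, hh, ← smul_add, ← (sl_js h r).hat_add (sl_js h' r)]
  simp only [wf, smul_add]

theorem hh_smul (h : JS F) (γ : ℝ → ℂ) (r : ℝ) :
    f.hh c k (fun z => γ z.2 • F z) r = γ r • f.hh c k F r := by
  rw [hh, hh, smul_comm (γ r), ← (sl_js h r).hat_smul]
  simp only [wf, smul_comm (γ r)]

theorem hh_Φ (h : JS F) (r : ℝ) : f.hh c k (Φ F) r = (I * k.2) • f.hh c k F r := by
  rw [hh, hh, smul_comm (I * k.2), ← (sl_js h r).hat_L2]
  simp only [wf, map_smul, Φ, P354XL.X]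

theorem hh_w (h : JS F) (r : ℝ) : f.hh c k (fun z => w 2 (F z)) r = w 2 (f.hh c k F r) := by
  rw [hh, hh, map_smul, ← (sl_js h r).hat_w2]
  simp only [wf, map_smul]

theorem hh_cas (h : JS F) (r : ℝ) : f.hh c k (fun z => X (.inr 0) (X (.inr 0) F) z +
    X (.inr 1) (X (.inr 1) F) z + X (.inr 2) (X (.inr 2) F) z) r = -(ang s).cas (f.hh c k F r) := by
  rw [hh, hh, map_smul, ← (sl_js h r).hat_cas, ← smul_neg, ← (sl_js h r).cas.hat_neg]
  simp only [wf, map_smul, P354XL.X, Ang.cas_apply, Fin.sum_univ_three, ang, smul_neg, neg_neg,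
    smul_add]

theorem hh_T (h : JS F) (hc : f.Cs F) (r : ℝ) :
    f.hh c k (T F) r = (-(I * f.om k)) • f.hh c k F r := by
  have d : ∀ t, HasDerivAt (fun t => f.wf F (t, r))
      (f.wf (T F) (t, r) + (-f.ε : ℂ) • f.wf F (t, r)) t := fun t => by
    have a := (h.differentiable (f.t0 + t, r)).hasFDerivAt.comp_hasDerivAt t
      (((hasDerivAt_id t).const_add f.t0).prodMk (hasDerivAt_const t r))
    have b := (((hasDerivAt_id t).ofReal_comp).const_mul (f.ε : ℂ)).neg.cexp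
    refine (b.smul a).congr_deriv ?_
    simp only [wf, T, P354XL.X, ev, smul_smul, Matrix.cons_val_zero, id, Pi.neg_apply,
      Function.comp_apply, Complex.ofReal_one, mul_one, mul_comm]
  have e := (sl_js (f := f) h r).hat_deriv (k := k) f.h3.ne' (by
    simp only [wf]
    rw [hc _ (Or.inr f.h2), hc _ (Or.inl (by simpa using f.h1)), smul_zero, smul_zero])
  rw [funext fun t => (d t).deriv, (sl_js (F := T F) (X_js h _) r).hat_add
    ((sl_js h r).smul contDiff_const), (sl_js h r).hat_smul] at e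
  rw [hh, hh, smul_comm (-(I * f.om k)), eq_sub_of_add_eq e, ← sub_smul]
  rw [show -(I * f.om k) = -(I * P354BO.om f.τ k.1) - -f.ε by
    simp only [om]; linear_combination (-f.ε : ℂ) * Complex.I_mul_I]

theorem hh_R (hH : ContDiff ℝ ∞ c.H) (hJ : ContDiff ℝ ∞ c.J) (h : JS F) (hc : f.Cs F) (r : ℝ) :
    f.hh c k (c.R F) r = deriv (f.hh c k F) r := by
  have s1 : ContDiff ℝ ∞ fun z : ℝ × ℝ => ((-deriv c.H z.2 : ℝ) : ℂ) :=
    Complex.ofRealCLM.contDiff.comp ((contDiff_infty_iff_deriv.1 hH).2.comp contDiff_snd).neg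
  have s2 : ContDiff ℝ ∞ fun z : ℝ × ℝ => ((-deriv c.J z.2 : ℝ) : ℂ) :=
    Complex.ofRealCLM.contDiff.comp ((contDiff_infty_iff_deriv.1 hJ).2.comp contDiff_snd).neg
  have d := ((ph_der (f := f) (k := k) hH hJ r).smul
    (((wf_js (f := f) h).hat f.τ k).differentiable r).hasDerivAt).deriv
  have e : (fun t => deriv (fun q => f.wf F (t, q)) r) = fun t => f.wf (X (.inl 1) F) (t, r) :=
    funext fun t => (((h.differentiable (f.t0 + t, r)).hasFDerivAt.comp_hasDerivAt r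
      ((hasDerivAt_const r _).prodMk (hasDerivAt_id r))).const_smul
        (Complex.exp (-(f.ε * t)))).deriv
  rw [(wf_js h).deriv_hat, e] at d
  have jT : JS (T F) := X_js h _
  have jΦ : JS (Φ F) := X_js h _
  unfold Ch.R
  rw [hh_add ((X_js h _).add (jT.smul s1)) (jΦ.smul s2), hh_add (X_js h _) (jT.smul s1),
    hh_smul jT fun r => ((-deriv c.H r : ℝ) : ℂ), hh_smul jΦ fun r => ((-deriv c.J r : ℝ) : ℂ),
    hh_T h hc, hh_Φ h]
  refine Eq.trans ?_ d.symm
  simp only [hh]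
  push_cast
  module

end Fq

/-- The operator D acts on the coefficients as Dh, for the radii in U. -/
structure Fr (f : Fq) (c : Ch) (k : ℤ × ℤ) (U : Set ℝ) (D : Fam s → Fam s)
    (Dh : (ℝ → S s) → ℝ → S s) : Prop where
  js : ∀ F, JS F → JS (D F)
  cs : ∀ F, f.Cs F → f.Cs (D F)
  eq : ∀ F, JS F → f.Cs F → EqOn (f.hh c k (D F)) (Dh (f.hh c k F)) U
  loc : ∀ v v', EqOn v v' U → EqOn (Dh v) (Dh v') U

variable {f : Fq} {c : Ch} {k : ℤ × ℤ} {U : Set ℝ} {D D' : Fam s → Fam s}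
  {Dh Dh' : (ℝ → S s) → ℝ → S s}

theorem Fr.comp (h : Fr f c k U D Dh) (h' : Fr f c k U D' Dh') :
    Fr f c k U (fun F => D (D' F)) fun v => Dh (Dh' v) :=
  ⟨fun F a => h.js _ (h'.js F a), fun F a => h.cs _ (h'.cs F a), fun F a b =>
    (h.eq _ (h'.js F a) (h'.cs F b)).trans (h.loc _ _ (h'.eq F a b)),
    fun _ _ e => h.loc _ _ (h'.loc _ _ e)⟩

theorem Fr.add (h : Fr f c k U D Dh) (h' : Fr f c k U D' Dh') :
    Fr f c k U (fun F z => D F z + D' F z) fun v r => Dh v r + Dh' v r :=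
  ⟨fun F a => (h.js F a).add (h'.js F a), fun F a z hz => by
    simp only [h.cs F a z hz, h'.cs F a z hz, add_zero], fun F a b r hr => by
    simp only [Fq.hh_add (h.js F a) (h'.js F a), h.eq F a b hr, h'.eq F a b hr],
    fun _ _ e r hr => by simp only [h.loc _ _ e hr, h'.loc _ _ e hr]⟩

theorem Fr.congr (h : Fr f c k U D Dh) (e : ∀ v, EqOn (Dh v) (Dh' v) U) : Fr f c k U D Dh' :=
  ⟨h.js, h.cs, fun F a b => (h.eq F a b).trans (e _),
    fun _ _ a => ((e _).symm.trans (h.loc _ _ a)).trans (e _)⟩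

theorem Fr.smul (h : Fr f c k U D Dh) {γ : ℝ → ℂ} (hγ : ContDiff ℝ ∞ γ) :
    Fr f c k U (fun F z => γ z.2 • D F z) fun v r => γ r • Dh v r :=
  ⟨fun F a => (h.js F a).smul (hγ.comp contDiff_snd), fun F a z hz => by
    simp only [h.cs F a z hz, smul_zero], fun F a b r hr => by
    simp only [Fq.hh_smul (h.js F a), h.eq F a b hr], fun _ _ e r hr => by
    simp only [h.loc _ _ e hr]⟩

theorem Fr.sm (h : Fr f c k U D Dh) {γ : ℝ → ℝ} (hγ : ContDiff ℝ ∞ γ) :
    Fr f c k U (fun F z => ((γ z.2 : ℝ) : ℂ) • D F z) fun v r => ((γ r : ℝ) : ℂ) • Dh v r :=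
  h.smul (Complex.ofRealCLM.contDiff.comp hγ)

theorem fr_id : Fr (s := s) f c k U (fun F => F) fun v => v :=
  ⟨fun _ a => a, fun _ a => a, fun _ _ _ _ _ => rfl, fun _ _ e => e⟩

theorem fr_T : Fr (s := s) f c k U T fun v r => (-(I * f.om k)) • v r :=
  ⟨fun _ a => X_js a _, fun _ a => a.X _, fun _ a b r _ => Fq.hh_T a b r,
    fun _ _ e r hr => by simp only [e hr]⟩

theorem fr_Φ : Fr (s := s) f c k U Φ fun v r => (I * k.2) • v r :=
  ⟨fun _ a => X_js a _, fun _ a => a.X _, fun _ a _ r _ => Fq.hh_Φ a r,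
    fun _ _ e r hr => by simp only [e hr]⟩

theorem fr_w : Fr (s := s) f c k U (fun F z => w 2 (F z)) fun v r => w 2 (v r) :=
  ⟨fun _ a => a.w 2, fun _ a z hz => by simp only [a z hz, map_zero],
    fun _ a _ r _ => Fq.hh_w a r, fun _ _ e r hr => by simp only [e hr]⟩

theorem fr_cas : Fr (s := s) f c k U (fun F z => X (.inr 0) (X (.inr 0) F) z +
    X (.inr 1) (X (.inr 1) F) z + X (.inr 2) (X (.inr 2) F) z) fun v r => -(ang s).cas (v r) :=
  ⟨fun _ a => ((X_js (X_js a _) _).add (X_js (X_js a _) _)).add (X_js (X_js a _) _),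
    fun _ a z hz => by simp only [(a.X _).X _ z hz, add_zero], fun _ a _ r _ => Fq.hh_cas a r,
    fun _ _ e r hr => by simp only [e hr]⟩

theorem fr_Y : Fr (s := s) f c k U c.Y fun v r => (-(2 * I * Kf c.a (f.om k) k.2 r)) • v r :=
  ((fr_T.sm (γ := fun r => 2 * (r ^ 2 + c.a ^ 2)) (by fun_prop)).add
    (fr_Φ.sm (γ := fun _ => 2 * c.a) contDiff_const)).congr fun v r _ => by
    simp only [Kf]
    push_cast
    module

theorem fr_nl (κ : ℝ) : Fr (s := s) f c k U (c.nl κ)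
    fun v r => -(ang s).lop κ c.a (f.om k) k.2 (v r) :=
  ((((fr_cas.add ((fr_T.comp fr_T).sm (γ := fun _ => c.a ^ 2) contDiff_const)).add
    ((fr_T.comp fr_Φ).sm (γ := fun _ => 2 * c.a) contDiff_const)).add
    ((fr_w.comp (fr_w.comp (fr_T.comp fr_T))).sm (γ := fun _ => -c.a ^ 2) contDiff_const)).add
    ((fr_w.comp fr_T).smul (γ := fun _ => -(2 * κ * c.a * I)) contDiff_const)).congr
    fun v r _ => by
    simp only [Ang.lop_apply, map_smul, ang]
    push_cast
    match_scalars <;> ring_nf <;> simp only [Complex.I_sq] <;> ring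

theorem fr_c0 (h1 : ∀ r ∈ U, 1 ≤ r) : Fr (s := s) f c k U c.c0 (c0 c.M c.a) :=
  (fr_id.sm (γ := fun r => De c.M c.a r ^ 2 * sinv r ^ 3)
    ((ContDiff.pow (by unfold De; fun_prop) 2).mul (sinv_sm.pow 3))).congr fun v r hr => by
    simp only [c0, sinv_eq (h1 r hr)]
    push_cast
    rw [inv_pow, div_eq_mul_inv]

variable (hH : ContDiff ℝ ∞ c.H) (hJ : ContDiff ℝ ∞ c.J) (hU : IsOpen U)
include hH hJ hU

theorem fr_R : Fr (s := s) f c k U c.R deriv :=
  have a := fr_T.sm (s := s) (f := f) (c := c) (k := k) (U := U)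
    (contDiff_infty_iff_deriv.1 hH).2.neg
  have b := fr_Φ.sm (s := s) (f := f) (c := c) (k := k) (U := U)
    (contDiff_infty_iff_deriv.1 hJ).2.neg
  ⟨fun F h => ((X_js h _).add (a.js F h)).add (b.js F h), fun F h z hz => by
    have e1 := a.cs F h z hz
    have e2 := b.cs F h z hz
    simp only [Ch.R, h.X _ z hz, zero_add]
    exact (congrArg₂ _ e1 e2).trans (add_zero _), fun _ h h' r _ => Fq.hh_R hH hJ h h' r,
    fun _ _ e _ hr => EventuallyEq.deriv_eq ((hU.eventually_mem hr).mono e)⟩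

theorem fr_iter (j : ℕ) : Fr (s := s) f c k U c.R^[j] (iteratedDeriv j) := by
  induction j with
  | zero => exact fr_id
  | succ j ih => exact (ih.comp (fr_R hH hJ hU)).congr fun v r _ => by rw [iteratedDeriv_succ']

theorem fr_P (σ κ : ℝ) :
    Fr (s := s) f c k U (c.P σ κ) ((ang s).P σ κ c.M c.a (f.om k) k.2) :=
  have r := fr_R (s := s) (f := f) (k := k) hH hJ hU
  (((((((r.comp r).sm (γ := De c.M c.a) (by unfold De; fun_prop)).add
    (r.sm (γ := fun r => (1 - σ) * (2 * r - 2 * c.M)) (by fun_prop))).add (fr_Y.comp r)).add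
    (fr_T.sm (γ := fun r => 2 * r * (1 - 2 * σ)) (by fun_prop))).add
    (fr_id.sm (γ := fun _ => σ ^ 2 - σ) contDiff_const)).add (fr_nl κ)).congr fun v r _ => by
    simp only [Ang.P]
    push_cast
    module

variable (h1 : ∀ r ∈ U, 1 ≤ De c.M c.a r)
include h1

theorem fr_D : Fr (s := s) f c k U c.D (Dd c.M c.a (f.om k) k.2) :=
  ((fr_R hH hJ hU).add (fr_Y.sm (γ := fun r => sinv (De c.M c.a r))
    (sinv_sm.comp (by unfold De; fun_prop)))).congr fun v r hr => by
    simp only [Dd, sinv_eq (h1 r hr), div_eq_mul_inv]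
    push_cast
    module

theorem fr_up : Fr (s := s) f c k U c.up (up c.M c.a (f.om k) k.2) :=
  ((fr_D hH hJ hU h1).sm (γ := fun r => r ^ 2) (by fun_prop)).congr fun v r _ => by
    simp only [up, Complex.ofReal_pow]

theorem fr_c3 (h2 : ∀ r ∈ U, 1 ≤ r) : Fr (s := s) f c k U c.c3 (c3 c.M c.a (f.om k) k.2) :=
  (fr_D hH hJ hU h1).comp ((fr_up hH hJ hU h1).comp ((fr_up hH hJ hU h1).comp (fr_c0 h2)))

end Vale.Agent.P354XL
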