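import Vale.Agent.P354XL.Par
import Vale.Agent.P354BO.Gal

/-!
The estimate of low order in the time domain.
-/

open scoped ContDiff
open Complex (I)
open Set Filter Topology MeasureTheory intervalIntegral

noncomputable section

namespace Vale.Agent.P354XL

open Vale.Agent.P354BO Vale.Agent.P354BF Vale.Agent.P354XN

theorem ind_ii {φ : ℝ → ℝ} (h : Continuous φ) (a b A B : ℝ) :
    IntervalIntegrable ((Icc a b).indicator φ) volume A B :=
  ⟨(h.intervalIntegrable A B).1.indicator measurableSet_Icc,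
    (h.intervalIntegrable A B).2.indicator measurableSet_Icc⟩

theorem ind_int (φ : ℝ → ℝ) {a b A B : ℝ} (h1 : A < a) (h2 : a ≤ b) (h3 : b ≤ B) :
    ∫ t in A..B, (Icc a b).indicator φ t = ∫ t in a..b, φ t := by
  rw [integral_of_le (by linarith), integral_of_le h2, setIntegral_indicator measurableSet_Icc,
    inter_eq_right.2 (Icc_subset_Ioc_iff h2 |>.2 ⟨h1, h3⟩), integral_Icc_eq_integral_Ioc]

theorem rg_pos {a l : ℝ} (hl : 0 < l) (φ : ℝ → ℝ) (t : ℝ) :
    rg a l t * φ t = 1 / l ^ 2 * (Icc a (a + l)).indicator φ t := by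
  have : (t - a) / l ∈ Icc (0 : ℝ) 1 ↔ t ∈ Icc a (a + l) := by
    rw [mem_Icc, mem_Icc, le_div_iff₀ hl, div_le_iff₀ hl]
    exact and_congr ⟨fun _ => by linarith, fun _ => by linarith⟩
      ⟨fun _ => by linarith, fun _ => by linarith⟩
  by_cases c : t ∈ Icc a (a + l)
  · simp [rg, c, this.2 c]
  · simp [rg, c, mt this.1 c]

theorem rg_neg {a l : ℝ} (hl : 0 < l) (φ : ℝ → ℝ) (t : ℝ) :
    rg (a + l) (-l) t * φ t = 1 / l ^ 2 * (Icc a (a + l)).indicator φ t := by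
  have : (t - (a + l)) / -l ∈ Icc (0 : ℝ) 1 ↔ t ∈ Icc a (a + l) := by
    rw [div_neg, ← neg_div, mem_Icc, mem_Icc, le_div_iff₀ hl, div_le_iff₀ hl, and_comm]
    exact and_congr ⟨fun _ => by linarith, fun _ => by linarith⟩
      ⟨fun _ => by linarith, fun _ => by linarith⟩
  by_cases c : t ∈ Icc a (a + l)
  · simp [rg, c, this.2 c]
  · simp [rg, c, mt this.1 c]

/-- The cut off function with plateau [p, q], and the size of its derivatives. -/
def th (p q l1 l2 t : ℝ) : ℝ := ramp (p - l1) l1 t * ramp (q + l2) (-l2) t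
def ga (p q l1 l2 t : ℝ) : ℝ := rg (p - l1) l1 t + rg (q + l2) (-l2) t

variable {p q l1 l2 t : ℝ}

theorem th_sq_le (p q l1 l2 t : ℝ) : th p q l1 l2 t ^ 2 ≤ 1 :=
  pow_le_one₀ (mul_nonneg (Real.smoothTransition.nonneg _) (Real.smoothTransition.nonneg _))
    (mul_le_one₀ (Real.smoothTransition.le_one _) (Real.smoothTransition.nonneg _)
      (Real.smoothTransition.le_one _))

theorem th_one (h1 : 0 < l1) (h2 : 0 < l2) (h : t ∈ Icc p q) : th p q l1 l2 t = 1 := by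
  rw [th, ramp, ramp, div_neg, ← neg_div, Real.smoothTransition.one_of_one_le
    ((one_le_div h1).2 (by linarith [h.1])), Real.smoothTransition.one_of_one_le
    ((one_le_div h2).2 (by linarith [h.2])), one_mul]

theorem th_zero (h1 : 0 < l1) (h2 : 0 < l2) (h : t < p - l1 ∨ q + l2 < t) : th p q l1 l2 t = 0 := by
  rcases h with h | h
  · rw [th, ramp, Real.smoothTransition.zero_of_nonpos
      (div_nonpos_of_nonpos_of_nonneg (by linarith) h1.le), zero_mul]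
  · exact mul_eq_zero_of_right _ (Real.smoothTransition.zero_of_nonpos
      (div_nonpos_of_nonneg_of_nonpos (by linarith) (by linarith)))

theorem cutoff {w i b e iu bu : ℝ → ℝ} {C : ℝ} (hpq : p ≤ q) (h1 : 0 < l1) (h2 : 0 < l2)
    (cw : Continuous w) (ci : Continuous i) (cb : Continuous b) (ce : Continuous e)
    (ciu : Continuous iu) (cbu : Continuous bu) (w0 : ∀ t, 0 ≤ w t) (i0 : ∀ t, 0 ≤ i t)
    (b0 : ∀ t, 0 ≤ b t)
    (a1 : ∀ t, th p q l1 l2 t ^ 2 * i t ≤ 2 * iu t + C * (ga p q l1 l2 t * e t))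
    (a2 : ∀ t, bu t ≤ 2 * (th p q l1 l2 t ^ 2 * b t) + C * (ga p q l1 l2 t * e t))
    (a3 : ∫ t in (p - l1 - 1)..(q + l2 + 1), w t * iu t ≤
      ∫ t in (p - l1 - 1)..(q + l2 + 1), w t * bu t) :
    ∫ t in p..q, w t * i t ≤ (∫ t in (p - l1)..(q + l2), w t * (4 * b t)) +
      3 * C / l1 ^ 2 * (∫ t in (p - l1)..p, w t * e t) +
      3 * C / l2 ^ 2 * ∫ t in q..(q + l2), w t * e t := by
  have le : p - l1 - 1 ≤ q + l2 + 1 := by linarith
  have e1 : ∀ t, w t * (ga p q l1 l2 t * e t) = 1 / l1 ^ 2 * (Icc (p - l1) p).indicator (w * e) t +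
      1 / l2 ^ 2 * (Icc q (q + l2)).indicator (w * e) t := fun t => by
    have := rg_pos (a := p - l1) h1 (w * e) t
    rw [sub_add_cancel] at this
    rw [← this, ← rg_neg h2, ga, Pi.mul_apply]
    ring
  have j1 := (ind_ii (cw.mul ce) (p - l1) p (p - l1 - 1) (q + l2 + 1)).const_mul (C * (1 / l1 ^ 2))
  have j2 := (ind_ii (cw.mul ce) q (q + l2) (p - l1 - 1) (q + l2 + 1)).const_mul (C * (1 / l2 ^ 2))
  have j3 := ((cw.mul ciu).intervalIntegrable (μ := volume) (p - l1 - 1) (q + l2 + 1)).const_mul 2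
  have j4 := (ind_ii (cw.mul cb) (p - l1) (q + l2) (p - l1 - 1) (q + l2 + 1)).const_mul 2
  have s1 := integral_mono_on le (ind_ii (cw.mul ci) p q _ _) ((j3.add j1).add j2) fun t _ => by
    have := mul_le_mul_of_nonneg_left (a1 t) (w0 t)
    have u : (Icc p q).indicator (w * i) t ≤ w t * (th p q l1 l2 t ^ 2 * i t) := by
      by_cases c : t ∈ Icc p q
      · simp [c, th_one h1 h2 c]
      · simpa [c] using mul_nonneg (w0 t) (mul_nonneg (sq_nonneg _) (i0 t))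
    have v := congrArg (C * ·) (e1 t)
    simp only [Pi.mul_apply] at v ⊢
    linarith
  have s2 := integral_mono_on le ((cw.mul cbu).intervalIntegrable _ _) ((j4.add j1).add j2)
    fun t _ => by
    have := mul_le_mul_of_nonneg_left (a2 t) (w0 t)
    have u : w t * (th p q l1 l2 t ^ 2 * b t) ≤ (Icc (p - l1) (q + l2)).indicator (w * b) t := by
      by_cases c : t ∈ Icc (p - l1) (q + l2)
      · rw [indicator_of_mem c]
        exact mul_le_mul_of_nonneg_left (mul_le_of_le_one_left (b0 t) (th_sq_le _ _ _ _ _)) (w0 t)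
      · rw [indicator_of_notMem c, th_zero h1 h2 ((not_and_or.1 c).imp not_le.1 not_le.1)]
        simp
    have v := congrArg (C * ·) (e1 t)
    simp only [Pi.mul_apply] at v ⊢
    linarith
  rw [integral_add (j3.add j1) j2, integral_add j3 j1] at s1
  rw [integral_add (j4.add j1) j2, integral_add j4 j1] at s2
  simp only [intervalIntegral.integral_const_mul] at s1 s2
  rw [ind_int _ (by linarith) (by linarith) (by linarith),
    ind_int _ (by linarith) (by linarith) (by linarith),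
    ind_int _ (by linarith) (by linarith) (by linarith)] at s1 s2
  simp only [Pi.mul_apply] at s1 s2
  simp only [mul_left_comm _ (4 : ℝ), intervalIntegral.integral_const_mul, div_eq_mul_one_div (3 * C)]
  linarith

variable {s : ℤ}

theorem W2_eq (c : Ch) (F : Fam s) (x y : ℝ) : c.W2 F x y = fun t => qd (fun _ => 1) (c.R^[0] F) x y t +
    qd (fun _ => 1) (c.R^[1] F) x y t + qd (fun _ => 1) (c.R^[2] F) x y t :=
  funext fun t => by simp only [Ch.W2, Finset.sum_range_succ, Finset.sum_range_zero, zero_add]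

theorem W_eq (v : ℝ → S s) (x y : ℝ) : W 2 v x y = (∫ r in x..y, 1 * ‖iteratedDeriv 0 v r‖ ^ 2) +
    (∫ r in x..y, 1 * ‖iteratedDeriv 1 v r‖ ^ 2) + ∫ r in x..y, 1 * ‖iteratedDeriv 2 v r‖ ^ 2 := by
  simp only [W, Finset.sum_range_succ, Finset.sum_range_zero, zero_add, one_mul]

theorem W2_nonneg (c : Ch) (F : Fam s) {x y : ℝ} (h : x ≤ y) (t : ℝ) : 0 ≤ c.W2 F x y t :=
  Finset.sum_nonneg fun _ _ => qd_nonneg h (fun _ _ => zero_le_one) _ _

section
variable {f : Fq} {c : Ch} {D : Fam s → Fam s} {Dh : ℤ × ℤ → (ℝ → S s) → ℝ → S s} {G : Fam s}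
  {x y E : ℝ} (hH : ContDiff ℝ ∞ c.H) (hJ : ContDiff ℝ ∞ c.J) (hD : ∀ k, Fr f c k univ D (Dh k))
  (h : JS G) (hc : f.Cs G) (hxy : x ≤ y)
include hH hJ hD h hc hxy

theorem lo_W (e : ∀ r ∈ Icc x y, Real.exp (2 * f.ε * c.H r) ≤ E) :
    f.Lo E (fun k => W 2 (Dh k (f.hh c k G)) x y) (c.W2 (D G) x y) := by
  have a := fun j => Fq.lo hH.continuous (fun k => (fr_iter hH hJ isOpen_univ j).comp (hD k)) h hc
    hxy (subset_univ _) (g := fun _ => 1) continuousOn_const (fun _ _ => zero_le_one) e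
  simp only [W_eq, W2_eq]
  exact ((a 0).add (a 1)).add (a 2)

theorem hi_W (e : ∀ r ∈ Icc x y, Real.exp (-(2 * f.ε * c.H r)) ≤ E) :
    f.Hi E (fun k => W 2 (Dh k (f.hh c k G)) x y) (c.W2 (D G) x y) := by
  have a := fun j => Fq.hi hH.continuous (fun k => (fr_iter hH hJ isOpen_univ j).comp (hD k)) h hc
    hxy (subset_univ _) (g := fun _ => 1) continuousOn_const (fun _ _ => zero_le_one) e
  simp only [W_eq, W2_eq]
  exact ((a 0).add (a 1)).add (a 2)

end

section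
variable {ι : Type} {u : ι → ℝ × ℝ × ℝ × ℝ} (h1 : ∀ p, 1 ≤ 2 * (u p).2.2.1)
  (h2 : ∀ p, 1 ≤ 2 * (u p).2.2.2)
  {D : ι → Fam s → Fam s} {x y x' y' : ℝ}
include h1 h2

theorem Op.ct (h : Op (st x' y') 4 D) (a1 : x' ≤ x) (hxy : x ≤ y) (a2 : y ≤ y') {g : ℝ → ℝ}
    (hg : ContinuousOn g (Icc x y)) (h0 : ∀ r ∈ Icc x y, 0 ≤ g r) :
    Ct (fun p => th (u p).1 (u p).2.1 (u p).2.2.1 (u p).2.2.2)
      (fun p => ga (u p).1 (u p).2.1 (u p).2.2.1 (u p).2.2.2) (fun p F => qd g (D p F) x y)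
      fun F => Jt 4 F x' y' := by
  have c1 := cut_ramp (st x' y') (a := fun p => (u p).1 - (u p).2.2.1) (l := fun p => (u p).2.2.1)
    fun p => by linarith [h1 p, le_abs_self (u p).2.2.1]
  have c2 := cut_ramp (st x' y') (a := fun p => (u p).2.1 + (u p).2.2.2)
    (l := fun p => -(u p).2.2.2) fun p => by rw [abs_neg]; linarith [h2 p, le_abs_self (u p).2.2.2]
  refine ct_qd h.js (fun p => ?_) (fun p t => add_nonneg (rg_nonneg _ _ _) (rg_nonneg _ _ _)) ?_
    a1 hxy a2 hg h0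
  · simp only [th, Complex.ofReal_mul]
    exact (c1.bd.1 p).mul (c2.bd.1 p)
  · simp only [th, Complex.ofReal_mul]
    exact h.cm_mul c1 c2

theorem Op.ctW (h : Op (st x' y') 2 D) {c : ι → Ch} (r : Op (st x' y') 1 fun p (F : Fam s) => (c p).R F)
    (a1 : x' ≤ x) (hxy : x ≤ y) (a2 : y ≤ y') :
    Ct (fun p => th (u p).1 (u p).2.1 (u p).2.2.1 (u p).2.2.2)
      (fun p => ga (u p).1 (u p).2.1 (u p).2.2.1 (u p).2.2.2) (fun p F => (c p).W2 (D p F) x y)
      fun F => Jt 4 F x' y' := by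
  have a := fun j (hj : 1 * j + 2 ≤ 4) => (((r.iter j).comp h).mono hj).ct h1 h2 a1 hxy a2
    (g := fun _ => 1) continuousOn_const fun _ _ => zero_le_one
  simp only [W2_eq]
  exact ((a 0 (by norm_num)).add (a 1 (by norm_num))).add (a 2 (by norm_num))

end

theorem W_high {v : ℝ → S s} (hv : ContDiff ℝ ∞ v) {om : ℂ} {m : ℤ} {B x y : ℝ} (hxy : x ≤ y)
    (hB : 1 ≤ B) (h : ¬(‖om‖ ≤ B ∧ |(m : ℝ)| ≤ B)) :
    B * W 2 v x y ≤ W 2 (fun r => (-(I * om)) • v r) x y + W 2 (fun r => (I * m) • v r) x y := by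
  rw [W_smul hv, W_smul hv, ← add_mul]
  refine mul_le_mul_of_nonneg_right ?_ (W_nonneg 2 v hxy)
  simp only [norm_neg, norm_mul, Complex.norm_I, one_mul, Complex.norm_intCast]
  rcases not_and_or.1 h with c | c <;> nlinarith [not_le.1 c, sq_nonneg ‖om‖, sq_nonneg |(m : ℝ)|]

theorem low_gen {σ : ℝ} {La : Ch → ℝ → Fam s → ℝ → ℝ → ℝ → ℝ} {g1 g2 : ℝ → ℝ → ℝ}
    {D1 D2 : Ch → Fam s → Fam s} {E1 E2 : ℝ → ℝ → ℂ → ℝ → (ℝ → S s) → ℝ → S s}
    {la : ℝ → ℝ → ℝ → ℂ → ℝ → (ℝ → S s) → ℝ → ℝ}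
    (c1 : ∀ p, ContinuousOn (g1 p) (Ioi 0)) (c2 : ∀ p, ContinuousOn (g2 p) (Ioi 0))
    (p1 : ∀ p r, 0 < r → 0 ≤ g1 p r) (p2 : ∀ p r, 0 < r → 0 ≤ g2 p r)
    (eL : ∀ c p F x y t, La c p F x y t = qd (g1 p) (D1 c F) x y t + qd (g2 p) (D2 c F) x y t)
    (el : ∀ p M a om m v r, la p M a om m v r =
      g1 p r * ‖E1 M a om m v r‖ ^ 2 + g2 p r * ‖E2 M a om m v r‖ ^ 2)
    (op : ∀ (ι : Type) (K : Set (ℝ × ℝ)) (pa : ι → ℝ × ℝ) H J x y, IsCompact K → (∀ p, pa p ∈ K) →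
      ContDiff ℝ ∞ H → ContDiff ℝ ∞ J → (Op (st x y) 4 fun p => D1 (ch H J (pa p))) ∧
        Op (st x y) 4 fun p => D2 (ch H J (pa p)))
    (fr : ∀ f c k U, ContDiff ℝ ∞ c.H → ContDiff ℝ ∞ c.J → IsOpen U →
      (∀ r ∈ U, 1 ≤ De c.M c.a r) → (∀ r ∈ U, 1 ≤ r) →
      Fr f c k U (D1 c) (E1 c.M c.a (f.om k) k.2) ∧ Fr f c k U (D2 c) (E2 c.M c.a (f.om k) k.2))
    (bf : ∀ M0 a0 r0 k B p : ℝ, |a0| < M0 → M0 < r0 → r0 < rp M0 a0 → 0 < p →
      ∃ X, ∀ x, X ≤ x → ∃ ρ, 0 < ρ ∧ ∀ δ, 0 < δ → ∀ᶠ R in atTop, ∃ C, 0 ≤ C ∧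
      ∀ (M a : ℝ) (om : ℂ) (m : ℝ), |M - M0| ≤ ρ → |a - a0| ≤ ρ → ‖om‖ ≤ B → 0 ≤ om.im →
        |m| ≤ B → ∀ v, (ang s).Md m v → W 2 v r0 x ≤ δ * (∫ r in x..2 * R, la p M a om m v r) +
          C * W 2 ((ang s).P σ k M a om m v) r0 (2 * R)) : LOW s σ La := by
  intro M0 a0 r0 k p R2 H1 C0 δ1 H J ha h0 h1 hp hR hH hJ hδ1
  have M0p : 0 < M0 := (abs_nonneg _).trans_lt ha
  have hK : IsCompact (Metric.closedBall (M0, a0) 1) := isCompact_closedBall _ _
  have mem : ∀ q : ℝ × ℝ, |q.1 - M0| ≤ 1 → |q.2 - a0| ≤ 1 → q ∈ Metric.closedBall (M0, a0) 1 :=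
    fun q a b => by rw [Metric.mem_closedBall, Prod.dist_eq]; exact max_le a b
  obtain ⟨H2, up⟩ := (hK.prod (isCompact_Icc (a := r0) (b := R2))).exists_bound_of_continuousOn
    hH.continuous.continuousOn
  obtain ⟨E, E0, hE⟩ : ∃ E, 0 < E ∧ ∀ ε h : ℝ, 0 ≤ ε → ε ≤ C0 → h ≤ |H1| + |H2| →
      Real.exp (2 * ε * h) ≤ E := ⟨Real.exp (2 * C0 * (|H1| + |H2|)), Real.exp_pos _,
    fun ε h a b c => Real.exp_le_exp.2 (by nlinarith [abs_nonneg H1, abs_nonneg H2])⟩
  set B := 1 + 4 * E ^ 2 / δ1 with hB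
  have B1 : 1 ≤ B := le_add_of_nonneg_right (by positivity)
  obtain ⟨X, hX⟩ := bf M0 a0 r0 k B p ha h0 h1 hp
  set x := max X (max R2 (2 * M0 + 4)) with hx
  have x1 : R2 ≤ x := (le_max_left _ _).trans (le_max_right _ _)
  have x2 : 2 * M0 + 4 ≤ x := (le_max_right _ _).trans (le_max_right _ _)
  obtain ⟨ρ, ρ0, hρ⟩ := hX x (le_max_left _ _)
  refine ⟨min ρ 1, lt_min ρ0 one_pos, fun δ δ0 => ?_⟩
  filter_upwards [hρ (δ / (4 * E ^ 2)) (by positivity), eventually_ge_atTop x] with R hb hRx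
  obtain ⟨C, C0', hC⟩ := hb
  have xR : x ≤ 2 * R := by linarith
  have r0x : r0 ≤ x := hR.trans x1
  have sub : ∀ y, r0 ≤ y → Icc y (2 * R) ⊆ Ioi 0 := fun y hy r hr => by
    rw [mem_Ioi]; linarith [hr.1]
  let ι := Metric.closedBall (M0, a0) 1 × {u : ℝ × ℝ × ℝ × ℝ // 1 ≤ 2 * u.2.2.1 ∧ 1 ≤ 2 * u.2.2.2}
  have hpa : ∀ z : ι, z.1.1 ∈ Metric.closedBall (M0, a0) 1 := fun z => z.1.2
  have u1 : ∀ z : ι, 1 ≤ 2 * z.2.1.2.2.1 := fun z => z.2.2.1
  have u2 : ∀ z : ι, 1 ≤ 2 * z.2.1.2.2.2 := fun z => z.2.2.2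
  have oR := op_R (s := s) hK hpa hH hJ r0 (2 * R)
  have o := op ι _ _ H J r0 (2 * R) hK hpa hH hJ
  obtain ⟨Ci, i0, hi⟩ := (op_id.mono zero_le_two).ctW u1 u2 oR le_rfl hR (x1.trans xR)
  obtain ⟨Cb, b0, hb⟩ := ((((((op_X (.inl 0)).mono one_le_two).ctW u1 u2 oR le_rfl hR
    (x1.trans xR)).add (((op_X (.inr 2)).mono one_le_two).ctW u1 u2 oR le_rfl hR
    (x1.trans xR))).mul (κ := δ1 / 4) (by positivity)).add (((o.1.ct u1 u2 r0x xR le_rfl
    ((c1 p).mono (sub x r0x)) fun r hr => p1 p r (sub x r0x hr)).add (o.2.ct u1 u2 r0x xR le_rfl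
    ((c2 p).mono (sub x r0x)) fun r hr => p2 p r (sub x r0x hr))).mul (κ := δ / 4)
    (by positivity))).add (((op_P hK hpa hH hJ r0 (2 * R) σ k).ctW u1 u2 oR le_rfl (r0x.trans xR)
    le_rfl).mul (κ := E ^ 2 * C) (by positivity))
  refine ⟨4 * (E ^ 2 * C) + 3 * (Ci + Cb), by positivity, fun q q1 q2 lo F hF ε a b l1 l2 e0 e1 ab
    l1' l2' => ?_⟩
  have q1' := q1.trans (min_le_right _ _)
  have q2' := q2.trans (min_le_right _ _)
  let z : ι := ⟨⟨q, mem q q1' q2'⟩, ⟨(a, b, l1, l2), l1', l2'⟩⟩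
  let f : Fq := ⟨a - l1 - 1, b + l2 + 1 - (a - l1 - 1), ε, a - l1, b + l2, by linarith,
    by linarith, by linarith⟩
  set c := ch H J q with hc
  have cH : ContDiff ℝ ∞ c.H := hH.comp (contDiff_prodMk_right q)
  have cJ : ContDiff ℝ ∞ c.J := hJ.comp (contDiff_prodMk_right q)
  have hu : JS (cut (th a b l1 l2) F) := (op_smul (s := s) ((cut_ramp univ
    (a := fun _ : Unit => a - l1) (l := fun _ => l1) fun _ => by
      linarith [le_abs_self l1]).bd)).js () _ ((op_smul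
    ((cut_ramp univ (a := fun _ : Unit => b + l2) (l := fun _ => -l2) fun _ => by
      rw [abs_neg]; linarith [le_abs_self l2]).bd)).js () _ hF) |>.congr fun y _ => by
    simp only [cut, th, Complex.ofReal_mul, mul_smul]
  have cs : f.Cs (cut (th a b l1 l2) F) := fun y hy => by
    simp only [cut, th_zero (by linarith) (by linarith) hy, Complex.ofReal_zero, zero_smul]
  have eU : ∀ r ∈ Icc r0 R2, Real.exp (2 * f.ε * c.H r) ≤ E := fun r hr => hE ε _ e0 e1 (by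
    have : c.H r ≤ H2 := (le_abs_self _).trans (up (q, r) ⟨mem q q1' q2', hr⟩)
    linarith [le_abs_self H2, abs_nonneg H1])
  have eD : ∀ r, r0 ≤ r → r ≤ 2 * R → Real.exp (-(2 * f.ε * c.H r)) ≤ E := fun r hr hr' => by
    rw [← mul_neg]
    have : -H1 ≤ c.H r := lo r ⟨hr, hr'⟩
    exact hE ε _ e0 e1 (by linarith [le_abs_self H1, abs_nonneg H2])
  have fU := fun k => fr f c k (Ioi (x - 1)) cH cJ isOpen_Ioi (fun r hr => by
    have := (abs_le.1 q1').2
    have hr' : x - 1 < r := hr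
    show 1 ≤ r ^ 2 - 2 * q.1 * r + q.2 ^ 2
    nlinarith [sq_nonneg q.2]) fun r hr => by
    have hr' : x - 1 < r := hr
    linarith
  have sU : Icc x (2 * R) ⊆ Ioi (x - 1) := fun r hr => by rw [mem_Ioi]; linarith [hr.1]
  have L0 := lo_W cH cJ (fun _ => fr_id) hu cs hR eU
  have L1 := ((((hi_W cH cJ (fun _ => fr_T) hu cs hR fun r hr => eD r hr.1 (hr.2.trans (x1.trans xR))).add
    (hi_W cH cJ (fun _ => fr_Φ) hu cs hR fun r hr => eD r hr.1 (hr.2.trans (x1.trans xR)))).mul (κ := δ1 / (4 * E ^ 2))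
    (by positivity)).add (((Fq.hi cH.continuous (fun k => (fU k).1) hu cs xR sU
    ((c1 p).mono (sub x r0x)) (fun r hr => p1 p r (sub x r0x hr)) fun r hr =>
      eD r (r0x.trans hr.1) hr.2).add (Fq.hi cH.continuous (fun k => (fU k).2) hu cs xR sU
    ((c2 p).mono (sub x r0x)) (fun r hr => p2 p r (sub x r0x hr)) fun r hr =>
      eD r (r0x.trans hr.1) hr.2)).mul (κ := δ / (4 * E ^ 2)) (by positivity))).add
    ((hi_W cH cJ (fun _ => fr_P cH cJ isOpen_univ σ k) hu cs (r0x.trans xR)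
      fun r hr => eD r hr.1 hr.2).mul C0')
  have L2 := L0.le L1 E0.le fun κ => by
    have md := Fq.md (f := f) (k := κ) cH cJ hu
    have n1 := W_nonneg 2 (fun r => (-(I * f.om κ)) • f.hh c κ (cut (th a b l1 l2) F) r) hR
    have n2 := W_nonneg 2 (fun r => (I * κ.2) • f.hh c κ (cut (th a b l1 l2) F) r) hR
    have ii : ∀ {g D Dh}, Fr f c κ (Ioi (x - 1)) D Dh → ContinuousOn g (Ioi 0) →
        IntervalIntegrable (fun r => g r * ‖Dh (f.hh c κ (cut (th a b l1 l2) F)) r‖ ^ 2) volume x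
          (2 * R) := fun hD hg => ContinuousOn.intervalIntegrable_of_Icc xR
      ((hg.mono (sub x r0x)).mul ((((Fq.md cH cJ (hD.js _ hu)).1.cont.continuousOn.congr
        fun r hr => (hD.eq _ hu cs (sU hr)).symm).norm).pow 2))
    by_cases cb : ‖f.om κ‖ ≤ B ∧ |(κ.2 : ℝ)| ≤ B
    · have := (W_mono md.1.cd le_rfl le_rfl hR x1).trans (hC c.M c.a _ _ (q1.trans (min_le_left _ _))
        (q2.trans (min_le_left _ _)) cb.1 (by simpa [Fq.om] using e0) cb.2 _ md)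
      simp only [el] at this
      rw [integral_add (ii (fU κ).1 (c1 p)) (ii (fU κ).2 (c2 p))] at this
      exact this.trans (add_le_add (le_add_of_nonneg_left (by positivity)) le_rfl)
    · have := mul_le_mul_of_nonneg_left (W_high md.1.cd hR B1 cb)
        (by positivity : 0 ≤ δ1 / (4 * E ^ 2))
      have e : 1 ≤ δ1 / (4 * E ^ 2) * B := by
        rw [hB, mul_add, div_mul_div_cancel₀ (by positivity), div_self hδ1.ne']
        exact le_add_of_nonneg_left (by positivity)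
      rw [← mul_assoc] at this
      refine ((le_mul_of_one_le_left (W_nonneg 2 _ hR) e).trans this).trans ((le_add_of_nonneg_right
        (mul_nonneg (by positivity) (add_nonneg ?_ ?_))).trans (le_add_of_nonneg_right
        (mul_nonneg C0' (W_nonneg 2 _ (r0x.trans xR)))))
      · exact integral_nonneg xR fun r hr => mul_nonneg (p1 p r (sub x r0x hr)) (sq_nonneg _)
      · exact integral_nonneg xR fun r hr => mul_nonneg (p2 p r (sub x r0x hr)) (sq_nonneg _)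
  have r0R := r0x.trans xR
  have cW : ∀ {G : Fam s} {x y}, JS G → x ≤ y → Continuous (c.W2 G x y) := fun hG hxy =>
    continuous_finsetSum _ fun j _ => qd_cont ((oR.iter j).js z _ hG) hxy continuousOn_const
  have cL : ∀ {G : Fam s} {y}, JS G → r0 ≤ y → y ≤ 2 * R → Continuous fun t =>
      qd (g1 p) (D1 c G) y (2 * R) t + qd (g2 p) (D2 c G) y (2 * R) t := fun hG a b =>
    (qd_cont (o.1.js z _ hG) b ((c1 p).mono (sub _ a))).add
      (qd_cont (o.2.js z _ hG) b ((c2 p).mono (sub _ a)))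
  have jP := (op_P (s := s) hK hpa hH hJ r0 (2 * R) σ k).js z
  have cB : ∀ {G : Fam s} {y} (κ1 κ2 κ3 : ℝ), JS G → r0 ≤ y → y ≤ 2 * R → Continuous fun t =>
      κ1 * (c.W2 (T G) r0 R2 t + c.W2 (Φ G) r0 R2 t) + κ2 * (qd (g1 p) (D1 c G) y (2 * R) t +
        qd (g2 p) (D2 c G) y (2 * R) t) + κ3 * c.W2 (c.P σ k G) r0 (2 * R) t :=
    fun _ _ _ hG a b => ((continuous_const.mul ((cW (X_js hG _) hR).add (cW (X_js hG _) hR))).add
      (continuous_const.mul (cL hG a b))).add (continuous_const.mul (cW (jP _ hG) r0R))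
  have cw : Continuous fun t : ℝ => Real.exp (-(2 * ε * t)) := by fun_prop
  have w0 := fun t : ℝ => (Real.exp_pos (-(2 * ε * t))).le
  have ge := fun t => mul_nonneg (add_nonneg (rg_nonneg (a - l1) l1 t) (rg_nonneg (b + l2) (-l2) t))
    (Jt_nonneg r0R 4 F t)
  have n1 := fun t => qd_nonneg xR (fun r hr => p1 p r (sub x r0x hr)) (D1 c F) t
  have n2 := fun t => qd_nonneg xR (fun r hr => p2 p r (sub x r0x hr)) (D2 c F) t
  have n3 := W2_nonneg c (c.P σ k F) r0R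
  have fin := cutoff (C := Ci + Cb) ab (by linarith) (by linarith) cw (cW hF hR)
    (cB (δ1 / 4) (δ / 4) (E ^ 2 * C) hF r0x xR) (Jt_cont hF 4 r0 (2 * R)) (cW hu hR)
    (cB (δ1 / 4) (δ / 4) (E ^ 2 * C) hu r0x xR) w0 (W2_nonneg c F hR) (fun t => by
      have := W2_nonneg c (T F) hR t
      have := W2_nonneg c (Φ F) hR t
      have := n1 t
      have := n2 t
      have := n3 t
      positivity) (fun t => (hi z F hF t).2.trans (add_le_add le_rfl
      (mul_le_mul_of_nonneg_right (le_add_of_nonneg_right b0) (ge t))))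
    (fun t => (hb z F hF t).1.trans (add_le_add le_rfl
      (mul_le_mul_of_nonneg_right (le_add_of_nonneg_left i0) (ge t)))) (by
      rw [← Fq.In_mul, Fq.In_eq, Fq.In_eq, show f.t0 + f.τ = b + l2 + 1 by simp [f]] at L2
      refine (le_of_mul_le_mul_left L2 (Real.exp_pos _)).trans (le_of_eq (integral_congr
        fun t _ => congrArg _ ?_))
      field_simp)
  have m : ∀ u v, u ≤ v → ∀ l : ℝ, 3 * (Ci + Cb) / l ^ 2 * ∫ t in u..v, Real.exp (-(2 * ε * t)) *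
      Jt 4 F r0 (2 * R) t ≤ (4 * (E ^ 2 * C) + 3 * (Ci + Cb)) / l ^ 2 *
      ∫ t in u..v, Real.exp (-(2 * ε * t)) * Jt 4 F r0 (2 * R) t := fun u v h l =>
    mul_le_mul_of_nonneg_right (div_le_div_of_nonneg_right (le_add_of_nonneg_left (by positivity))
      (sq_nonneg _)) (integral_nonneg h fun t _ => mul_nonneg (w0 t) (Jt_nonneg r0R 4 F t))
  refine fin.trans (add_le_add (add_le_add ?_ (m _ _ (by linarith) _)) (m _ _ (by linarith) _))
  simp only [eL]
  refine integral_mono_on (by linarith) ((cw.mul (continuous_const.mul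
    (cB _ _ _ hF r0x xR))).intervalIntegrable _ _) ((cw.mul (cB _ _ _ hF hR
    (x1.trans xR))).intervalIntegrable _ _) fun t _ => mul_le_mul_of_nonneg_left ?_ (w0 t)
  have k1 := qd_mono (o.1.js z _ hF) x1 xR ((c1 p).mono (sub _ hR))
    (fun r hr => p1 p r (sub _ hR hr)) t
  have k2 := qd_mono (o.2.js z _ hF) x1 xR ((c2 p).mono (sub _ hR))
    (fun r hr => p2 p r (sub _ hR hr)) t
  have k3 := mul_le_mul_of_nonneg_left (add_le_add k1 k2) δ0.le
  have k4 := mul_nonneg (add_nonneg i0 b0) (n3 t)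
  linarith

/-- The estimate of low order for the spin 2. -/
theorem lowP (h : BFP) (hs : |(s : ℝ)| = 2) : LOW s 2 Ch.Lp :=
  low_gen (g1 := fun p r => r ^ p * r ^ 2 / r ^ 7) (g2 := fun p r => r ^ p / r ^ 7)
    (D1 := Ch.D) (D2 := fun _ F => F) (E1 := Dd) (E2 := fun _ _ _ _ v => v) (la := P354XN.lp)
    (fun p r hr => ContinuousAt.continuousWithinAt (by
      have : r ≠ 0 := ne_of_gt hr
      fun_prop (disch := simp [this])))
    (fun p r hr => ContinuousAt.continuousWithinAt (by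
      have : r ≠ 0 := ne_of_gt hr
      fun_prop (disch := simp [this])))
    (fun _ _ _ => by positivity) (fun _ _ _ => by positivity) (fun _ _ _ _ _ _ => rfl)
    (fun _ _ _ _ _ _ _ => by rw [P354XN.lp]; ring)
    (fun _ _ _ _ _ x y hK hpa hH hJ => ⟨(op_D hK hpa hH hJ x y).mono (by norm_num),
      op_id.mono (by norm_num)⟩) (fun _ _ _ _ hH hJ hU h1 _ => ⟨fr_D hH hJ hU h1, fr_id⟩)
    (h _ _ (ang_is s) (ang_gal s) hs)

/-- The estimate of low order for the spin -2. -/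
theorem lowM (h : BFM) (hs : |(s : ℝ)| = 2) : LOW s (-2) Ch.Lm :=
  low_gen (g1 := fun p r => r ^ p / r) (g2 := fun _ _ => 0)
    (D1 := Ch.c3) (D2 := fun _ F => F) (E1 := c3) (E2 := fun _ _ _ _ v => v) (la := lm)
    (fun p r hr => ContinuousAt.continuousWithinAt (by
      have : r ≠ 0 := ne_of_gt hr
      fun_prop (disch := simp [this])))
    (fun _ => continuousOn_const) (fun _ _ _ => by positivity) (fun _ _ _ => le_rfl)
    (fun _ _ _ _ _ _ => by simp [Ch.Lm, qd]) (fun _ _ _ _ _ _ _ => by rw [lm]; ring)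
    (fun _ _ _ _ _ x y hK hpa hH hJ => ⟨(op_c3 hK hpa hH hJ x y).mono (by norm_num),
      op_id.mono (by norm_num)⟩) (fun _ _ _ _ hH hJ hU h1 h2 => ⟨fr_c3 hH hJ hU h1 h2, fr_id⟩)
    (h _ _ (ang_is s) (ang_gal s) hs)

end Vale.Agent.P354XL
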