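import Vale.Agent.P354BO.Hat

/-!
Families of differential operators on jointly smooth functions of (t, r) with values in the
sections: bounds by jets and commutators with cut off functions, uniform in a parameter.
-/

open scoped ContDiff
open Set

namespace Vale.Agent.P354XL

open Vale.Agent.P354BO Vale.Agent.P354BF

/-- Functions of (t, r) with values in the sections. -/
abbrev Fam (s : ℤ) := ℝ × ℝ → S s

variable {s : ℤ} {ι : Type}

/-- The directions of t and r. -/
def ev : Fin 2 → ℝ × ℝ := ![(1, 0), (0, 1)]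

/-- The letters: the derivatives in t and r, and the rotations. -/
noncomputable def X : Fin 2 ⊕ Fin 3 → Fam s → Fam s
  | .inl k, F => fun z => fderiv ℝ F z (ev k)
  | .inr i, F => fun z => L i (F z)

/-- The sum of the squares of all words of length at most n. -/
noncomputable def jet : ℕ → Fam s → ℝ × ℝ → ℝ
  | 0, F, z => ‖F z‖ ^ 2
  | n + 1, F, z => ‖F z‖ ^ 2 + ∑ a, jet n (X a F) z

/-- The partial derivatives of a scalar function; the head of the list acts first. -/
noncomputable def sw : List (Fin 2) → (ℝ × ℝ → ℂ) → ℝ × ℝ → ℂ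
  | [], c => c
  | k :: β, c => sw β fun z => fderiv ℝ c z (ev k)

variable {F G : Fam s} {Z : Set (ℝ × ℝ)} {g g' : ι → ℝ × ℝ → ℝ} {n n' : ℕ}
  {D D' : ι → Fam s → Fam s}

theorem X_js (h : JS F) (a : Fin 2 ⊕ Fin 3) : JS (X a F) := by
  rcases a with k | i
  exacts [h.fderiv _, h.L i]

theorem X_add (h : JS F) (h' : JS G) (a : Fin 2 ⊕ Fin 3) :
    X a (fun z => F z + G z) = fun z => X a F z + X a G z := by
  funext z
  rcases a with k | i
  · exact congrArg (· (ev k)) (fderiv_add (h.differentiable z) (h'.differentiable z))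
  · exact map_add _ _ _

theorem X_sub (h : JS F) (h' : JS G) (a : Fin 2 ⊕ Fin 3) :
    X a (fun z => F z - G z) = fun z => X a F z - X a G z := by
  funext z
  rcases a with k | i
  · exact congrArg (· (ev k)) (fderiv_sub (h.differentiable z) (h'.differentiable z))
  · exact map_sub _ _ _

theorem X_smul (h : JS F) {c : ℝ × ℝ → ℂ} (hc : ContDiff ℝ ∞ c) (k : Fin 2) :
    X (.inl k) (fun z => c z • F z) =
      fun z => c z • X (.inl k) F z + fderiv ℝ c z (ev k) • F z := funext fun z =>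
  congrArg (· (ev k)) (fderiv_smul (hc.differentiable (by simp) z) (h.differentiable z))

theorem X_smul' (c : ℝ × ℝ → ℂ) (i : Fin 3) :
    X (.inr i) (fun z => c z • F z) = fun z => c z • X (.inr i) F z :=
  funext fun _ => map_smul _ _ _

theorem X_w (h : JS F) (a : Fin 2 ⊕ Fin 3) (j : Fin 3) : ∃ (c : ℂ) (k : Fin 3), ‖c‖ ≤ 1 ∧
    X a (fun z => w j (F z)) = fun z => w j (X a F z) + c • w k (F z) := by
  rcases a with k | i
  · refine ⟨0, 0, by simp, funext fun z => ?_⟩
    rw [zero_smul, add_zero]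
    exact congrArg (· (ev k))
      (((w j).restrictScalars ℝ).hasFDerivAt.comp z (h.differentiable z).hasFDerivAt).fderiv
  · have : j = i ∨ j = i + 1 ∨ j = i + 2 := by revert i j; decide
    rcases this with e | e | e <;> rw [e]
    · exact ⟨0, i, by simp, funext fun z => ((ang_is s).Lw0 i _).trans (by simp [X, ang])⟩
    · exact ⟨-1, i + 2, by simp, funext fun z =>
        ((ang_is s).Lw1 i _).trans (by simp [X, ang, sub_eq_add_neg])⟩
    · exact ⟨1, i + 1, by simp, funext fun z => ((ang_is s).Lw2 i _).trans (by simp [X, ang])⟩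

theorem jet_nonneg (n : ℕ) (F : Fam s) (z : ℝ × ℝ) : 0 ≤ jet n F z := by
  induction n generalizing F with
  | zero => exact sq_nonneg _
  | succ n ih => exact add_nonneg (sq_nonneg _) (Finset.sum_nonneg fun _ _ => ih _)

theorem le_jet (n : ℕ) (F : Fam s) (z : ℝ × ℝ) : ‖F z‖ ^ 2 ≤ jet n F z := by
  cases n with
  | zero => exact le_rfl
  | succ n => exact le_add_of_nonneg_right (Finset.sum_nonneg fun _ _ => jet_nonneg _ _ _)

theorem jet_X (n : ℕ) (a : Fin 2 ⊕ Fin 3) (F : Fam s) (z : ℝ × ℝ) :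
    jet n (X a F) z ≤ jet (n + 1) F z :=
  (Finset.single_le_sum (f := fun a => jet n (X a F) z) (fun _ _ => jet_nonneg _ _ _)
    (Finset.mem_univ a)).trans (le_add_of_nonneg_left (sq_nonneg _))

theorem jet_mono (h : n ≤ n') (F : Fam s) (z : ℝ × ℝ) : jet n F z ≤ jet n' F z := by
  induction n generalizing F n' with
  | zero => exact le_jet _ _ _
  | succ n ih =>
    obtain ⟨m, rfl⟩ : ∃ m, n' = m + 1 := ⟨n' - 1, by omega⟩
    exact add_le_add le_rfl (Finset.sum_le_sum fun a _ => ih (by omega) _)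

theorem jet_cont (h : JS F) (n : ℕ) : Continuous (jet n F) := by
  induction n generalizing F with
  | zero => exact h.contDiff.continuous.norm.pow 2
  | succ n ih =>
    exact (h.contDiff.continuous.norm.pow 2).add (continuous_finsetSum _ fun a _ => ih (X_js h a))

theorem sq_add_le (u v : S s) : ‖u + v‖ ^ 2 ≤ 2 * ‖u‖ ^ 2 + 2 * ‖v‖ ^ 2 := by
  nlinarith [norm_add_le u v, norm_nonneg (u + v), norm_nonneg u, norm_nonneg v,
    sq_nonneg (‖u‖ - ‖v‖)]

theorem jet_add (h : JS F) (h' : JS G) (n : ℕ) (z : ℝ × ℝ) :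
    jet n (fun z => F z + G z) z ≤ 2 * jet n F z + 2 * jet n G z := by
  induction n generalizing F G with
  | zero => exact sq_add_le _ _
  | succ n ih =>
    have a := Finset.sum_le_sum fun a (_ : a ∈ Finset.univ) => ih (X_js h a) (X_js h' a)
    simp only [jet, X_add h h', Finset.sum_add_distrib, ← Finset.mul_sum] at a ⊢
    linarith [sq_add_le (F z) (G z)]

/-- All derivatives of the functions c p are bounded on Z by the root of g p. -/
def Sb (Z : Set (ℝ × ℝ)) (g : ι → ℝ × ℝ → ℝ) (c : ι → ℝ × ℝ → ℂ) : Prop :=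
  (∀ p, ContDiff ℝ ∞ (c p)) ∧ ∀ β, ∃ C, 0 ≤ C ∧ ∀ p, ∀ z ∈ Z, ‖sw β (c p) z‖ ^ 2 ≤ C * g p z

theorem Sb.d {c : ι → ℝ × ℝ → ℂ} (h : Sb Z g c) (k : Fin 2) :
    Sb Z g fun p z => fderiv ℝ (c p) z (ev k) :=
  ⟨fun p => ((h.1 p).fderiv_right (m := ∞) le_rfl).clm_apply contDiff_const, fun β => h.2 (k :: β)⟩

/-- The operators D p have the order n and the size root of g p on Z. -/
def Bnd (Z : Set (ℝ × ℝ)) (g : ι → ℝ × ℝ → ℝ) (n : ℕ) (D : ι → Fam s → Fam s) : Prop :=
  ∀ m, ∃ C, 0 ≤ C ∧ ∀ p F, JS F → ∀ z ∈ Z, jet m (D p F) z ≤ C * (g p z * jet (n + m) F z)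

theorem Bnd.congr (h : Bnd Z g n D) (e : ∀ p F, JS F → D' p F = D p F) : Bnd Z g n D' := fun m =>
  let ⟨C, a, b⟩ := h m
  ⟨C, a, fun p F hF z hz => by rw [e p F hF]; exact b p F hF z hz⟩

theorem Bnd.mono (h : Bnd Z g n D) (e : n ≤ n') (g0 : ∀ p z, 0 ≤ g p z) (g1 : ∀ p z, g p z ≤ g' p z) :
    Bnd Z g' n' D := fun m =>
  let ⟨C, a, b⟩ := h m
  ⟨C, a, fun p F hF z hz => (b p F hF z hz).trans (mul_le_mul_of_nonneg_left (mul_le_mul (g1 p z)
    (jet_mono (by omega) F z) (jet_nonneg _ _ _) ((g0 p z).trans (g1 p z))) a)⟩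

theorem Bnd.add (h : Bnd Z g n D) (h' : Bnd Z g n D') (j : ∀ p F, JS F → JS (D p F))
    (j' : ∀ p F, JS F → JS (D' p F)) : Bnd Z g n fun p F z => D p F z + D' p F z := fun m => by
  obtain ⟨C, a, b⟩ := h m
  obtain ⟨C', a', b'⟩ := h' m
  refine ⟨2 * C + 2 * C', by positivity, fun p F hF z hz => ?_⟩
  linarith [jet_add (j p F hF) (j' p F hF) m z, b p F hF z hz, b' p F hF z hz]

theorem Bnd.comp (h : Bnd Z g n D) (h' : Bnd Z g' n' D') (j' : ∀ p F, JS F → JS (D' p F))
    (g0 : ∀ p z, 0 ≤ g p z) :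
    Bnd Z (fun p z => g p z * g' p z) (n + n') fun p F => D p (D' p F) := fun m => by
  obtain ⟨C, a, b⟩ := h m
  obtain ⟨C', a', b'⟩ := h' (n + m)
  refine ⟨C * C', by positivity, fun p F hF z hz => (b p _ (j' p F hF) z hz).trans ?_⟩
  have := mul_le_mul_of_nonneg_left (mul_le_mul_of_nonneg_left (b' p F hF z hz) (g0 p z)) a
  rw [show n' + (n + m) = n + n' + m by omega] at this
  linarith

theorem bnd_X (a : Fin 2 ⊕ Fin 3) : Bnd Z (fun (_ : ι) _ => 1) 1 fun _ (F : Fam s) => X a F :=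
  fun m => ⟨1, zero_le_one, fun _ F _ z _ => by
    rw [one_mul, one_mul, add_comm]; exact jet_X m a F z⟩

theorem bnd_smul {c : ι → ℝ × ℝ → ℂ} (h : Sb Z g c) (g0 : ∀ p z, 0 ≤ g p z) :
    Bnd Z g 0 fun p (F : Fam s) z => c p z • F z := by
  intro m
  simp only [zero_add]
  induction m generalizing c with
  | zero =>
    obtain ⟨C, a, b⟩ := h.2 []
    refine ⟨C, a, fun p F _ z hz => ?_⟩
    rw [jet, jet, norm_smul, mul_pow, ← mul_assoc]
    exact mul_le_mul_of_nonneg_right (b p z hz) (sq_nonneg _)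
  | succ m ih =>
    obtain ⟨C, a, b⟩ := h.2 []
    obtain ⟨C1, a1, b1⟩ := ih h
    choose C2 a2 b2 using fun k => ih (h.d k)
    have s0 : 0 ≤ ∑ k, C2 k := Finset.sum_nonneg fun k _ => a2 k
    refine ⟨C + 5 * (2 * C1 + 2 * ∑ k, C2 k), by positivity, fun p F hF z hz => ?_⟩
    have q := mul_nonneg (g0 p z) (jet_nonneg (m + 1) F z)
    have e1 : ‖c p z • F z‖ ^ 2 ≤ C * (g p z * jet (m + 1) F z) := by
      rw [norm_smul, mul_pow, ← mul_assoc]
      exact mul_le_mul (b p z hz) (le_jet _ _ _) (sq_nonneg _) (mul_nonneg a (g0 p z))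
    have e2 : ∀ x, jet m (fun y => c p y • X x F y) z ≤ C1 * (g p z * jet (m + 1) F z) := fun x =>
      (b1 p _ (X_js hF x) z hz).trans (mul_le_mul_of_nonneg_left
        (mul_le_mul_of_nonneg_left (jet_X m x F z) (g0 p z)) a1)
    have e3 : ∀ x, jet m (X x fun y => c p y • F y) z ≤
        (2 * C1 + 2 * ∑ k, C2 k) * (g p z * jet (m + 1) F z) := by
      rintro (k | i)
      · rw [X_smul hF (h.1 p)]
        have u1 := jet_add ((X_js hF (.inl k)).smul (h.1 p)) (hF.smul ((h.d k).1 p)) m z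
        have u2 := (b2 k p F hF z hz).trans (mul_le_mul (Finset.single_le_sum (fun k _ => a2 k)
          (Finset.mem_univ k)) (mul_le_mul_of_nonneg_left (jet_mono (Nat.le_succ m) F z) (g0 p z))
          (mul_nonneg (g0 p z) (jet_nonneg _ _ _)) s0)
        linarith [e2 (.inl k)]
      · rw [X_smul']
        nlinarith [e2 (.inr i), mul_nonneg a1 q, mul_nonneg s0 q]
    have e4 := Finset.sum_le_sum fun x (_ : x ∈ Finset.univ) => e3 x
    simp only [Finset.sum_const, Finset.card_univ, Fintype.card_sum, Fintype.card_fin,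
      nsmul_eq_mul] at e4
    rw [jet]
    push_cast at e4
    linarith

theorem jet_w (m : ℕ) : ∃ C, 0 ≤ C ∧ ∀ (j : Fin 3) (c : ℂ) (F : Fam s), ‖c‖ ≤ 1 → JS F → ∀ z,
    jet m (fun y => c • w j (F y)) z ≤ C * jet m F z := by
  have e0 : ∀ (j : Fin 3) (c : ℂ) (u : S s), ‖c‖ ≤ 1 → ‖c • w j u‖ ^ 2 ≤ ‖u‖ ^ 2 := fun j c u h =>
    pow_le_pow_left₀ (norm_nonneg _) ((norm_smul c _).trans_le ((mul_le_of_le_one_left
      (norm_nonneg _) h).trans ((ang_is s).w_le j u))) 2
  induction m with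
  | zero => exact ⟨1, zero_le_one, fun j c F hc _ z => by rw [one_mul]; exact e0 j c _ hc⟩
  | succ m ih =>
    obtain ⟨C, a, b⟩ := ih
    refine ⟨1 + 5 * (4 * C), by positivity, fun j c F hc hF z => ?_⟩
    have e3 : ∀ x, jet m (X x fun y => c • w j (F y)) z ≤ 4 * C * jet (m + 1) F z := fun x => by
      obtain ⟨d, k, hd, e⟩ := X_w hF x j
      have e' : (X x fun y => c • w j (F y)) =
          fun y => c • w j (X x F y) + (c * d) • w k (F y) := by
        rcases x with k | i
        · rw [X_smul (hF.w j) contDiff_const, e]; simp [mul_smul]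
        · rw [X_smul', e]; simp [mul_smul]
      rw [e']
      have u1 := jet_add (((X_js hF x).w j).smul (contDiff_const (c := c)))
        ((hF.w k).smul (contDiff_const (c := c * d))) m z
      have u2 := (b j c _ hc (X_js hF x) z).trans (mul_le_mul_of_nonneg_left (jet_X m x F z) a)
      have u3 := (b k (c * d) F ((norm_mul_le _ _).trans (mul_le_one₀ hc (norm_nonneg _) hd)) hF
        z).trans (mul_le_mul_of_nonneg_left (jet_mono (Nat.le_succ m) F z) a)
      linarith
    have e4 := Finset.sum_le_sum fun x (_ : x ∈ Finset.univ) => e3 x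
    simp only [Finset.sum_const, Finset.card_univ, Fintype.card_sum, Fintype.card_fin,
      nsmul_eq_mul] at e4
    have e5 := (e0 j c (F z) hc).trans (le_jet (m + 1) F z)
    rw [jet]
    push_cast at e4
    linarith

theorem bnd_w (j : Fin 3) : Bnd Z (fun (_ : ι) _ => 1) 0 fun _ (F : Fam s) z => w j (F z) :=
  fun m => let ⟨C, a, b⟩ := jet_w (s := s) m
    ⟨C, a, fun _ F hF z _ => by simpa using b j 1 F (by simp) hF z⟩

/-- Cut off functions whose derivatives have the size root of g. -/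
structure Cut (Z : Set (ℝ × ℝ)) (θ : ι → ℝ × ℝ → ℂ) (g : ι → ℝ × ℝ → ℝ) : Prop where
  g0 : ∀ p z, 0 ≤ g p z
  bd : Sb Z (fun _ _ => 1) θ
  dv : ∀ k, Sb Z g fun p z => fderiv ℝ (θ p) z (ev k)

/-- The commutator with a function. -/
noncomputable def cm (θ : ι → ℝ × ℝ → ℂ) (D : ι → Fam s → Fam s) (p : ι) (F : Fam s) : Fam s :=
  fun z => D p (fun y => θ p y • F y) z - θ p z • D p F z

/-- Families of differential operators of order n. -/
structure Op (Z : Set (ℝ × ℝ)) (n : ℕ) (D : ι → Fam s → Fam s) : Prop where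
  js : ∀ p F, JS F → JS (D p F)
  sub : ∀ p F G, JS F → JS G → D p (fun z => F z - G z) = fun z => D p F z - D p G z
  bnd : Bnd Z (fun _ _ => 1) n D
  cm : ∀ θ g, Cut Z θ g → Bnd Z g n (cm θ D)

theorem Op.cm_js (h : Op Z n D) {θ : ι → ℝ × ℝ → ℂ} (hθ : ∀ p, ContDiff ℝ ∞ (θ p)) (p : ι)
    (F : Fam s) (hF : JS F) : JS (P354XL.cm θ D p F) :=
  (h.js p _ (hF.smul (hθ p))).sub ((h.js p F hF).smul (hθ p))

theorem bnd_zero (g0 : ∀ p z, 0 ≤ g p z) (e : ∀ p F, JS F → D p F = fun _ => 0) : Bnd Z g n D :=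
  ((bnd_smul (c := fun _ _ => 0) (g := g) ⟨fun _ => contDiff_const, fun β => ⟨0, le_rfl,
    fun _ z _ => by
      induction β with
      | nil => simp [sw]
      | cons k β ih => simpa [sw] using ih⟩⟩ g0).mono (Nat.zero_le n) g0 fun _ _ => le_rfl).congr
    fun p F hF => by simpa using e p F hF

theorem Op.mono (h : Op Z n D) (e : n ≤ n') : Op Z n' D :=
  ⟨h.js, h.sub, h.bnd.mono e (fun _ _ => zero_le_one) fun _ _ => le_rfl,
    fun θ g c => (h.cm θ g c).mono e c.g0 fun _ _ => le_rfl⟩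

theorem Op.add (h : Op Z n D) (h' : Op Z n D') : Op Z n fun p F z => D p F z + D' p F z where
  js p F hF := (h.js p F hF).add (h'.js p F hF)
  sub p F G hF hG := by
    simp only [h.sub p F G hF hG, h'.sub p F G hF hG]
    exact funext fun z => by abel
  bnd := h.bnd.add h'.bnd h.js h'.js
  cm θ g c := ((h.cm θ g c).add (h'.cm θ g c) (h.cm_js c.bd.1) (h'.cm_js c.bd.1)).congr
    fun p F _ => funext fun z => by simp only [P354XL.cm, smul_add]; abel

theorem Op.comp (h : Op Z n D) (h' : Op Z n' D') : Op Z (n + n') fun p F => D p (D' p F) where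
  js p F hF := h.js p _ (h'.js p F hF)
  sub p F G hF hG := by
    rw [h'.sub p F G hF hG, h.sub p _ _ (h'.js p F hF) (h'.js p G hG)]
  bnd := by simpa only [mul_one] using h.bnd.comp h'.bnd h'.js fun _ _ => zero_le_one
  cm θ g c := by
    have a := h.bnd.comp (h'.cm θ g c) (h'.cm_js c.bd.1) fun _ _ => zero_le_one
    have b := (h.cm θ g c).comp h'.bnd h'.js c.g0
    simp only [mul_one, one_mul] at a b
    refine (a.add b (fun p F hF => h.js p _ (h'.cm_js c.bd.1 p F hF))
      fun p F hF => h.cm_js c.bd.1 p _ (h'.js p F hF)).congr fun p F hF => funext fun z => ?_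
    have := congrFun (h.sub p _ _ (h'.js p _ (hF.smul (c.bd.1 p)))
      ((h'.js p F hF).smul (c.bd.1 p))) z
    unfold P354XL.cm
    rw [this]
    abel

theorem op_X (a : Fin 2 ⊕ Fin 3) : Op Z 1 fun (_ : ι) (F : Fam s) => X a F where
  js _ _ hF := X_js hF a
  sub _ _ _ hF hG := X_sub hF hG a
  bnd := bnd_X a
  cm θ g c := by
    rcases a with k | i
    · exact ((bnd_smul (c.dv k) c.g0).mono zero_le_one c.g0 fun _ _ => le_rfl).congr
        fun p F hF => funext fun z => by simp [P354XL.cm, X_smul hF (c.bd.1 p)]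
    · exact bnd_zero c.g0 fun p F _ => funext fun z => by simp [P354XL.cm, X_smul']

theorem op_smul {c : ι → ℝ × ℝ → ℂ} (h : Sb Z (fun _ _ => 1) c) :
    Op Z 0 fun p (F : Fam s) z => c p z • F z where
  js p _ hF := hF.smul (h.1 p)
  sub _ _ _ _ _ := funext fun _ => smul_sub _ _ _
  bnd := bnd_smul h fun _ _ => zero_le_one
  cm θ g c := bnd_zero c.g0 fun p F _ => funext fun z => by
    simp only [P354XL.cm, smul_comm (θ p z), sub_self]

theorem op_w (j : Fin 3) : Op Z 0 fun (_ : ι) (F : Fam s) z => w j (F z) where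
  js _ _ hF := hF.w j
  sub _ _ _ _ _ := funext fun _ => map_sub _ _ _
  bnd := bnd_w j
  cm θ g c := bnd_zero c.g0 fun p F _ => funext fun z => by simp [P354XL.cm]

end Vale.Agent.P354XL
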