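import Vale.Agent.P354XL.Ring
import Vale.Agent.P354BO.ParO
import Vale.Agent.P354YH.Intp

/-!
The estimate of low order with smooth weights, on any open set with the twisted chart.
-/

open scoped ContDiff
open Set Filter

noncomputable section

namespace Vale.Agent.P354XL

open Vale.Agent.P354BO Vale.Agent.P354XI Vale.Agent.P354BF Vale.Agent.P354XG Vale.Agent.P354XR
open Vale.Agent.P354XT (Fld Mj Slope sp bp)
open Vale.Agent.P354YH (Jw)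
open Vale.Agent.P354EF (fldO)

variable {A A2 : Type} [CommRing A] [Algebra ℂ A] [CommRing A2] [Algebra ℂ A2]

/-- The weight of the slab j. -/
def ej (t1 : ℝ) (j : ℕ) (t : ℝ) : ℝ := bp (t - (t1 + j))

theorem ej_sm (t1 : ℝ) (j : ℕ) : ContDiff ℝ ∞ (ej t1 j) := P354XT.sm_sh P354XT.bp_sm _

theorem ej_out {t1 t : ℝ} {j : ℕ} (h : t ∉ Icc (t1 + j) (t1 + j + 2)) : ej t1 j t = 0 :=
  P354XT.bp_out fun k => h ⟨by linarith [k.1], by linarith [k.2]⟩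

theorem ej_half {t1 t : ℝ} {j : ℕ} (h : t ∈ nar t1 j) : 1 ≤ 2 * ej t1 j t := by
  have e : Real.smoothTransition (1 / 2) = 1 / 2 := by
    have := (expNegInvGlue.pos_of_pos (show (0 : ℝ) < 1 / 2 by norm_num)).ne'
    rw [Real.smoothTransition, show (1 : ℝ) - 1 / 2 = 1 / 2 by norm_num]
    field_simp
    norm_num
  have m := Real.smoothTransition.monotone
  rw [ej, bp]
  rcases le_total (t - (t1 + j)) 1 with k | k
  · rw [Real.smoothTransition.zero_of_nonpos (x := _ - 1) (by linarith)]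
    linarith [m (show 1 / 2 ≤ t - (t1 + j) by linarith [h.1])]
  · rw [Real.smoothTransition.one_of_one_le k]
    linarith [m (show t - (t1 + j) - 1 ≤ 1 / 2 by linarith [h.2])]

/-- The weight c and the densities G j dominate q on the slabs over [a, b]. -/
structure Dm (Φ : Fld A) (t1 : ℝ) (K : ℕ) (x y : ℝ) (c : ℝ → ℝ) (G : ℕ → A) (a b : ℝ)
    (q : Φ.B.Pt → ℝ) : Prop where
  cs : P354YH.Cs x y c
  c0 : ∀ r, 0 ≤ c r
  G0 : ∀ j p, 0 ≤ Φ.B.val p (G j)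
  le : ∀ j ≤ K, ∀ p, Φ.pr p ∈ nar t1 j ×ˢ Icc a b → q p ≤ c (Φ.pr p).2 * Φ.B.val p (G j)

/-- The estimate of low order for the field Φ. -/
def LowJ (Φ : Fld A) (σ : Bool) (p M a r0 R2 R C0 δ1 δ C : ℝ) : Prop :=
  ∀ (t1 : ℝ) (K : ℕ) (x y : ℝ), Icc t1 (t1 + K + 2) ×ˢ Icc x y ⊆ Φ.Om → x ≤ r0 → 2 * R ≤ y →
  ∀ u ∈ Φ.Sp, ∀ (ci cb cl cp ce : ℝ → ℝ) (GB GF GP GE : ℕ → A), P354XT.Wl ci r0 R2 →
    Dm Φ t1 K x y cb GB r0 R2 (fun z => Φ.B.val z (Φ.jq 3 u)) →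
    Dm Φ t1 K x y cl GF R2 (2 * R) (fd Φ σ p M a u) →
    Dm Φ t1 K x y cp GP r0 (2 * R) (fun z => Φ.B.val z (Φ.jq 2 (Φ.P Φ.s Φ.s M a u))) →
    Dm Φ t1 K x y ce GE r0 (2 * R) (fun z => Φ.B.val z (Φ.jq 4 u)) →
    Low K (fun j => Jw Φ (ej t1 j) ce (GE j))
      (fun j => δ1 * Jw Φ (ej t1 j) cb (GB j) + δ * Jw Φ (ej t1 j) cl (GF j))
      (fun j => Jw Φ (ej t1 j) ci (Φ.sq u)) (fun j => Jw Φ (ej t1 j) cp (GP j)) C0 1 C

theorem low_congr {K : ℕ} {e b i f e' b' i' f' : ℕ → ℝ} {C0 δ C δ' C' : ℝ}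
    (h : Low K e b i f C0 δ C) (h0 : ∀ j ≤ K, i' j ≤ i j)
    (h1 : ∀ j ≤ K, δ * b j + C * f j ≤ δ' * b' j + C' * f' j) (h2 : ∀ j ≤ K, C * e j ≤ C' * e' j) :
    Low K e' b' i' f' C0 δ' C' := by
  intro ε e0 e1 p q l1 l2 u1 u2 u3 u4 u5
  have k : ∀ (a b : ℕ) {g g' : ℕ → ℝ}, b ≤ K + 1 → (∀ j ≤ K, g j ≤ g' j) →
      ∑ j ∈ Finset.Ico a b, Real.exp (-(2 * ε * j)) * g j ≤
        ∑ j ∈ Finset.Ico a b, Real.exp (-(2 * ε * j)) * g' j := fun a b g g' hb hg =>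
    Finset.sum_le_sum fun j hj => mul_le_mul_of_nonneg_left
      (hg j (by have := (Finset.mem_Ico.1 hj).2; omega)) (Real.exp_pos _).le
  have k2 : ∀ (a b : ℕ) (l : ℝ), b ≤ K + 1 →
      C / l ^ 2 * ∑ j ∈ Finset.Ico a b, Real.exp (-(2 * ε * j)) * e j ≤
        C' / l ^ 2 * ∑ j ∈ Finset.Ico a b, Real.exp (-(2 * ε * j)) * e' j := fun a b l hb => by
    have := mul_le_mul_of_nonneg_left (k a b hb h2) (show 0 ≤ 1 / l ^ 2 by positivity)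
    simp only [mul_left_comm _ C, mul_left_comm _ C', ← Finset.mul_sum] at this
    rw [div_eq_mul_one_div C, div_eq_mul_one_div C', mul_assoc, mul_assoc]
    exact this
  exact (k p q (by omega) h0).trans ((h ε e0 e1 p q l1 l2 u1 u2 u3 u4 u5).trans (add_le_add
    (add_le_add (k _ _ u5 h1) (k2 _ _ _ (by omega))) (k2 _ _ _ u5)))

theorem slab_sub {t1 : ℝ} {K j : ℕ} (hj : j ≤ K) : Icc (t1 + j) (t1 + j + 2) ⊆ Icc t1 (t1 + K + 2) :=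
  Icc_subset_Icc (le_add_of_nonneg_right j.cast_nonneg) (by linarith [Nat.cast_le (α := ℝ).2 hj])

theorem Dm.mj {Φ : Fld A} (i : Φ.Is) {t1 x y a b : ℝ} {K j : ℕ} {c : ℝ → ℝ} {G : ℕ → A}
    {q : Φ.B.Pt → ℝ} (h : Dm Φ t1 K x y c G a b q) (box : Icc t1 (t1 + K + 2) ×ˢ Icc x y ⊆ Φ.Om)
    (hj : j ≤ K) :
    Mj Φ (Ibp.rl A 2 * (Φ.tm (ej t1 j) * Φ.rad c * G j)) (nar t1 j ×ˢ Icc a b) q := by
  have e := fun p => (i.B.val_mul (i.B.re_rl 2) p _).trans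
    (congrArg₂ (· * ·) (i.B.val_rl p 2) (i.val_w (ej_sm t1 j) h.cs.sm p (G j)))
  refine ⟨Φ.B.K.mul_mem_left _ (Φ.B.K.mul_mem_right _ (i.memK (ej_sm t1 j) h.cs.sm
    ((Set.prod_mono (slab_sub hj) le_rfl).trans box) (fun _ => ej_out) h.cs.out)), fun p => ?_,
    fun p hp => ?_⟩ <;> rw [e]
  · exact mul_nonneg zero_le_two (mul_nonneg (mul_nonneg (P354XT.bp_nonneg _) (h.c0 _)) (h.G0 j p))
  · rw [mul_assoc, ← mul_assoc]
    exact (h.le j hj p hp).trans (le_mul_of_one_le_left (mul_nonneg (h.c0 _) (h.G0 j p))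
      (ej_half hp.1))

/-- A homomorphism of rings of fields. -/
structure Hom (π : A →ₐ[ℂ] A2) (Φ : Fld A) (Ψ : Fld A2) (pt : Ψ.B.Pt → Φ.B.Pt) : Prop where
  s : Ψ.s = Φ.s
  Om : Φ.Om ⊆ Ψ.Om
  X : ∀ a F, π (Φ.X a F) = Ψ.X a (π F)
  w : π (Φ.w 2) = Ψ.w 2
  fn : ∀ φ, ContDiff ℝ ∞ φ → π (Φ.fn φ) = Ψ.fn φ
  c : ∀ F, π (Φ.B.c F) = Ψ.B.c (π F)
  sp : ∀ u ∈ Φ.Sp, π u ∈ Ψ.Sp
  ev : ∀ x F, Ψ.B.ev x (π F) = Φ.B.ev (pt x) F
  pr : ∀ x, Φ.pr (pt x) = Ψ.pr x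
  J : ∀ e c ta tb x y F, ContDiff ℝ ∞ e → (∀ t, t ∉ Icc ta tb → e t = 0) → P354YH.Cs x y c →
    Icc ta tb ×ˢ Icc x y ⊆ Φ.Om → Jw Ψ e c (π F) = Jw Φ e c F

namespace Hom
variable {π : A →ₐ[ℂ] A2} {Φ : Fld A} {Ψ : Fld A2} {pt : Ψ.B.Pt → Φ.B.Pt} (h : Hom π Φ Ψ pt)
include h

theorem val (x : Ψ.B.Pt) (F : A) : Ψ.B.val x (π F) = Φ.B.val (pt x) F := congrArg _ (h.ev x F)
theorem md (x : Ψ.B.Pt) (F : A) : Ψ.B.md x (π F) = Φ.B.md (pt x) F := congrArg _ (h.ev x F)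

theorem rad {g : ℝ → ℝ} (hg : ContDiff ℝ ∞ g) : π (Φ.rad g) = Ψ.rad g :=
  h.fn _ (hg.comp contDiff_snd)

theorem wd (J : List (Fin 5)) (u : A) : π (Φ.wd J u) = Ψ.wd J (π u) := by
  induction J with
  | nil => rfl
  | cons a J ih => rw [Fld.wd, h.X, ih, Fld.wd]

theorem sq (u : A) : π (Φ.sq u) = Ψ.sq (π u) := by rw [Fld.sq, map_mul, h.c, Fld.sq]

theorem jq (m : ℕ) (u : A) : π (Φ.jq m u) = Ψ.jq m (π u) := by
  simp only [Fld.jq, Fld.lv, map_sum, h.sq, h.wd]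

theorem ph (M a : ℝ) (u : A) : ∀ e : P354XT.Op, e.Sm → π (e.ph Φ M a u) = e.ph Ψ M a (π u)
  | .one, _ => rfl
  | .T e, k => (h.X 0 _).trans (congrArg _ (ph M a u e k))
  | .R e, k => (h.X 1 _).trans (congrArg _ (ph M a u e k))
  | .F e, k => (h.X 4 _).trans (congrArg _ (ph M a u e k))
  | .mul _ e, k => (map_mul π _ _).trans
      (congrArg₂ (· * ·) (h.rad (P354XT.sm3 k.1 M a)) (ph M a u e k.2))
  | .add e e', k => (map_add π _ _).trans (congrArg₂ (· + ·) (ph M a u e k.1) (ph M a u e' k.2))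

theorem P (i : Φ.Is) (i' : Ψ.Is) (s k M a : ℝ) (u : A) :
    π (Φ.P s k M a u) = Ψ.P s k M a (π u) := by
  have T : ∀ F, π (Φ.T F) = Ψ.T (π F) := h.X 0
  simp only [i.P_eq, i'.P_eq, map_sub, map_add, map_mul, map_sum, h.ph M a u _ (P354XT.opP_sm s),
    Fld.XL, h.X, T, h.w, Ibp.rl, π.commutes]

theorem dm {t1 x y a b : ℝ} {K : ℕ} {c : ℝ → ℝ} {G : ℕ → A} {q : Φ.B.Pt → ℝ} {q' : Ψ.B.Pt → ℝ}
    (d : Dm Φ t1 K x y c G a b q) (e : ∀ p, q' p = q (pt p)) :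
    Dm Ψ t1 K x y c (fun j => π (G j)) a b q' :=
  ⟨d.cs, d.c0, fun j p => (d.G0 j _).trans (h.val p _).ge, fun j hj p hp => by
    rw [e, h.val, ← h.pr]; exact d.le j hj _ (by rwa [h.pr])⟩

theorem lowJ (i : Φ.Is) (i' : Ψ.Is) {σ : Bool} {p M a r0 R2 R C0 δ1 δ C : ℝ} (hR : R2 ≤ 2 * R)
    (k : LowJ Ψ σ p M a r0 R2 R C0 δ1 δ C) : LowJ Φ σ p M a r0 R2 R C0 δ1 δ C := by
  intro t1 K x y box hx hy u hu ci cb cl cp ce GB GF GP GE wi dB dL dP dE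
  have J := fun j (hj : j ≤ K) {c} (hc : P354YH.Cs x y c) F => h.J _ c _ _ x y F (ej_sm t1 j)
    (fun _ => ej_out) hc ((Set.prod_mono (slab_sub hj) le_rfl).trans box)
  refine low_congr (k t1 K x y (box.trans h.Om) hx hy _ (h.sp u hu) ci cb cl cp ce _ _ _ _ wi
    (h.dm dB fun z => by rw [← h.jq, h.val]) (h.dm dL fun z => ?_)
    (h.dm dP fun z => by rw [h.s, ← h.P i i', ← h.jq, h.val])
    (h.dm dE fun z => by rw [← h.jq, h.val])) (fun j hj => ?_) (fun j hj => ?_) fun j hj => ?_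
  · simp only [fd, ← h.ph M a u _ opC_sm, ← h.ph M a u _ (opD_sm (e := .one) trivial), h.md, h.pr]
  · rw [← h.sq, J j hj ⟨wi.sm, fun r k => wi.out r fun k' =>
      k ⟨hx.trans k'.1, k'.2.trans (hR.trans hy)⟩⟩]
  · simp only [J j hj dB.cs, J j hj dL.cs, J j hj dP.cs, le_refl]
  · rw [J j hj dE.cs]

end Hom

theorem hom_pb {O : Set E6} (hO : IsOpen O) (hr : ∀ x ∈ O, x.2.1 ≠ 0 ∧ x.2.2 ≠ 0)
    {U : Set (ℝ × ℝ)} (hU : IsOpen U) (sU : cyl U ⊆ O) (s : ℤ) {f j : ℝ → ℝ} (hf : ContDiff ℝ ∞ f)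
    (hj : ContDiff ℝ ∞ j) : ∃ π pt, Hom π (fldO hO U s f j) (fld hU s f) pt := by
  have h := mq_cyl hO hU sU hj
  have m := h.hm hr (fun x hx => hr x (sU hx)) hj
  have hf' : ContDiff ℝ ∞ fun p : ℝ × ℝ => f p.2 := hf.comp contDiff_snd
  refine ⟨h.pb, fun x => ⟨⟨_, h.mp x.1.2⟩, (P354EF.fv_bO (h.mp x.1.2)).trans_ne (by
    rw [tm_chi]; exact (ev_be x.1).symm.trans_ne x.2)⟩, rfl, le_rfl, fun a F => ?_, (m.w 2).1,
    fun φ a => pb_fO h a, h.pb_cj, fun u a => ⟨?_, ?_⟩, fun x F => h.fv_pb F x.1.2, fun _ => rfl,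
    fun e c ta tb x y F he e0 hc b => ?_⟩
  · fin_cases a
    exacts [m.d 0 F, by simp [Fld.X, fldO, fld, m.d, pb_fO h hf'], m.Om 0 F, m.Om 1 F, m.Om 2 F]
  · rw [← m.H, a.1, map_smul]
  · rw [← m.B, a.2, map_neg, map_smul]
  · have he' : ContDiff ℝ ∞ fun p : ℝ × ℝ => e p.1 := he.comp contDiff_fst
    have hc' : ContDiff ℝ ∞ fun p : ℝ × ℝ => c p.2 := hc.sm.comp contDiff_snd
    have := (J_pb h hU hj sU s f (isCompact_Icc.prod isCompact_Icc) b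
      (F := P354EF.fO O (fun p => e p.1) * P354EF.fO O (fun p => c p.2) * F) fun z u _ w => by
        rw [fv_mul, fv_mul, P354EF.fv_fO he' u, P354EF.fv_fO hc' u]
        rcases not_and_or.1 w with d | d
        · simp [e0 _ d]
        · simp [hc.out _ d]).2.2
    rw [map_mul, map_mul, pb_fO h he', pb_fO h hc'] at this
    exact this

/-- The estimate of low order on open sets with the twisted chart. -/
def LOWO (σ : Bool) : Prop :=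
  ∀ (M0 a0 rm r0 p R2 C0 δ1 : ℝ) (f : ℝ × ℝ × ℝ → ℝ), |a0| < M0 → Slope M0 a0 rm f → rm ≤ r0 →
    r0 < rp M0 a0 → 0 < p → r0 ≤ R2 → 0 < δ1 → ∀ δ, 0 < δ → ∀ᶠ R in atTop,
    ∃ C dl, 0 ≤ C ∧ 0 < dl ∧ ∀ M a, |M - M0| < dl → |a - a0| < dl →
      ∀ (O : Set E6) (hO : IsOpen O) (U : Set (ℝ × ℝ)) (s : ℤ) (j : ℝ → ℝ),
      (∀ x ∈ O, x.2.1 ≠ 0 ∧ x.2.2 ≠ 0) → IsOpen U → cyl U ⊆ O → ContDiff ℝ ∞ j → (s : ℝ) = sp σ →
      LowJ (fldO hO U s (fun r => f (M, a, r)) j) σ p M a r0 R2 R C0 δ1 δ C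

theorem lowo {σ : Bool} (h : LOWR σ) : LOWO σ := by
  intro M0 a0 rm r0 p R2 C0 δ1 f ha sl h0 h1 hp hR hδ1 δ hδ
  filter_upwards [h M0 a0 rm r0 p R2 C0 (δ1 / 2) f ha sl h0 h1 hp hR (by positivity) (δ / 2)
    (by positivity), eventually_ge_atTop |R2|] with R ⟨C, dl, C0', d0, k⟩ hRR
  have R2R : R2 ≤ 2 * R := by linarith [le_abs_self R2, abs_nonneg R2]
  refine ⟨2 * C, dl, by positivity, d0, fun M a hM hA O hO U s j hr hU sU hj hs => ?_⟩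
  have cf := P354XT.sm3 sl.sm M a
  have hr' : ∀ z ∈ U, z.2 ≠ 0 := fun z hz => (hr (z.1, z.2, 1, 0) (sU ⟨hz, by simp⟩)).1
  have i := fld_is hU hr' s cf
  obtain ⟨π, pt, m⟩ := hom_pb hO hr hU sU s cf hj
  refine m.lowJ (P354EF.fldO_is hO hr sU s cf hj) i R2R ?_
  intro t1 K x y box hx hy u hu ci cb cl cp ce GB GF GP GE wi dB dL dP dE
  refine low_congr (k M a hM hA U hU s hr' hs t1 K ((Set.prod_mono (Icc_subset_Icc (by linarith)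
    (by linarith)) (Icc_subset_Icc hx hy)).trans box) u hu
    (fun j => (fld hU s fun r => f (M, a, r)).tm (ej t1 j) * (fld hU s fun r => f (M, a, r)).rad ci *
      (fld hU s fun r => f (M, a, r)).sq u) _ _ _ _ ⟨fun j _ hj => ⟨?_, fun z _ => ?_, fun z hz => ?_⟩,
    fun _ => dB.mj i box, fun _ => dL.mj i box, fun _ => dP.mj i box, fun _ => dE.mj i box⟩)
    (fun _ _ => le_rfl) (fun j _ => ?_) fun j _ => ?_
  · exact Ideal.mul_mem_right _ _ (i.memK (ej_sm t1 j) wi.sm ((Set.prod_mono (slab_sub hj.le)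
      (Icc_subset_Icc hx (R2R.trans hy))).trans box) (fun _ => ej_out) wi.out)
  · rw [i.val_w (ej_sm t1 j) wi.sm, i.val_sq]
    exact mul_le_of_le_one_left (sq_nonneg _) (mul_le_one₀ (P354XT.bp_le _) (wi.pos _) (wi.one _))
  · rw [i.val_w (ej_sm t1 j) wi.sm]
    rcases not_and_or.1 hz with d | d
    · simp [ej_out d]
    · simp [wi.out _ d]
  · simp only [Ibp.J_rl, Jw]
    linarith
  · simp only [Ibp.J_rl, Jw]
    linarith

end Vale.Agent.P354XL
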