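import Vale.Agent.P354XL.Fq
import Vale.Agent.P354BF.BF

/-!
The identity of Parseval for the densities, and the densities of cut off functions.
-/

open scoped ContDiff
open Complex (I)
open Set Filter Topology MeasureTheory intervalIntegral

noncomputable section

namespace Vale.Agent.P354XL

open Vale.Agent.P354BO Vale.Agent.P354BF

variable {s : ℤ} {g g' : ℝ → ℝ} {G : Fam s} {x y : ℝ}

theorem ex_ext (hxy : x ≤ y) (hg : ContinuousOn g (Icc x y)) :
    ∃ g', Continuous g' ∧ EqOn g g' (Icc x y) :=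
  ⟨IccExtend hxy ((Icc x y).domRestrict g), hg.domRestrict.Icc_extend', fun _ hr =>
    (IccExtend_of_mem hxy ((Icc x y).domRestrict g) hr).symm⟩

theorem qd_congr (hxy : x ≤ y) (e : EqOn g g' (Icc x y)) (G : Fam s) : qd g G x y = qd g' G x y :=
  funext fun _ => integral_congr fun r hr => by
    rw [uIcc_of_le hxy] at hr
    simp only [e hr]

theorem sq_cont (h : JS G) : Continuous fun z => ‖G z‖ ^ 2 := h.contDiff.continuous.norm.pow 2

theorem qd_cont (h : JS G) (hxy : x ≤ y) (hg : ContinuousOn g (Icc x y)) :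
    Continuous (qd g G x y) := by
  obtain ⟨g', c, e⟩ := ex_ext hxy hg
  rw [qd_congr hxy e]
  exact continuous_parametric_intervalIntegral_of_continuous'
    (f := fun t r => g' r * ‖G (t, r)‖ ^ 2) (show Continuous fun z : ℝ × ℝ => g' z.2 * ‖G z‖ ^ 2
      from (c.comp continuous_snd).mul (sq_cont h)) x y

theorem Jt_cont (h : JS G) (n : ℕ) (x y : ℝ) : Continuous (Jt n G x y) :=
  continuous_parametric_intervalIntegral_of_continuous' (f := fun t r => jet n G (t, r))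
    (jet_cont h n) x y

theorem qd_ii (h : JS G) (hxy : x ≤ y) (hg : ContinuousOn g (Icc x y)) (t : ℝ) :
    IntervalIntegrable (fun r => g r * ‖G (t, r)‖ ^ 2) volume x y :=
  (hg.mul ((sq_cont h).comp (Continuous.prodMk_right t)).continuousOn).intervalIntegrable_of_Icc hxy

theorem qd_nonneg (hxy : x ≤ y) (h0 : ∀ r ∈ Icc x y, 0 ≤ g r) (G : Fam s) (t : ℝ) :
    0 ≤ qd g G x y t := integral_nonneg hxy fun r hr => mul_nonneg (h0 r hr) (sq_nonneg _)

theorem Jt_nonneg (hxy : x ≤ y) (n : ℕ) (G : Fam s) (t : ℝ) : 0 ≤ Jt n G x y t :=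
  integral_nonneg hxy fun _ _ => jet_nonneg _ _ _

theorem qd_le (h : JS G) (hxy : x ≤ y) (hg : ContinuousOn g (Icc x y))
    (hg' : ContinuousOn g' (Icc x y)) {E : ℝ} (e : ∀ r ∈ Icc x y, g r ≤ E * g' r) (t : ℝ) :
    qd g G x y t ≤ E * qd g' G x y t := by
  rw [qd, qd, ← intervalIntegral.integral_const_mul]
  refine integral_mono_on hxy (qd_ii h hxy hg t) ((qd_ii h hxy hg' t).const_mul E) fun r hr => ?_
  rw [← mul_assoc]
  exact mul_le_mul_of_nonneg_right (e r hr) (sq_nonneg _)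

theorem qd_mono (h : JS G) {x' : ℝ} (h1 : x ≤ x') (h2 : x' ≤ y) (hg : ContinuousOn g (Icc x y))
    (h0 : ∀ r ∈ Icc x y, 0 ≤ g r) (t : ℝ) : qd g G x' y t ≤ qd g G x y t :=
  integral_mono_interval h1 h2 le_rfl ((ae_restrict_iff' measurableSet_Ioc).2
    (Eventually.of_forall fun r hr => mul_nonneg (h0 r (Ioc_subset_Icc_self hr)) (sq_nonneg _)))
    (qd_ii h (h1.trans h2) hg t)

namespace Fq
variable {f : Fq} {c : Ch} {E : ℝ} {Q Q' : ℤ × ℤ → ℝ} {q q' : ℝ → ℝ}

/-- The weighted integral over the window. -/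
def In (f : Fq) (q : ℝ → ℝ) : ℝ := ∫ t in (0 : ℝ)..f.τ, Real.exp (-(2 * f.ε * t)) * q (f.t0 + t)

theorem In_ii (h : Continuous q) :
    IntervalIntegrable (fun t => Real.exp (-(2 * f.ε * t)) * q (f.t0 + t)) volume 0 f.τ :=
  Continuous.intervalIntegrable (by fun_prop) _ _

theorem In_add (h : Continuous q) (h' : Continuous q') :
    f.In (fun t => q t + q' t) = f.In q + f.In q' := by
  simp only [In, mul_add]
  exact integral_add (In_ii h) (In_ii h')

theorem In_mul (E : ℝ) (q : ℝ → ℝ) : f.In (fun t => E * q t) = E * f.In q := by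
  simp only [In, mul_left_comm _ E, intervalIntegral.integral_const_mul]

theorem In_le (h : Continuous q) (h' : Continuous q') (e : ∀ t, q t ≤ q' t) : f.In q ≤ f.In q' :=
  integral_mono_on f.h3.le (In_ii h) (In_ii h') fun _ _ =>
    mul_le_mul_of_nonneg_left (e _) (Real.exp_pos _).le

theorem In_eq (q : ℝ → ℝ) : f.In q = Real.exp (2 * f.ε * f.t0) *
    ∫ t in f.t0..(f.t0 + f.τ), Real.exp (-(2 * f.ε * t)) * q t := by
  have := integral_comp_add_left (a := 0) (b := f.τ)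
    (fun t => Real.exp (-(2 * f.ε * t)) * q t) f.t0
  rw [add_zero] at this
  rw [← this, ← intervalIntegral.integral_const_mul]
  refine integral_congr fun t _ => ?_
  simp only [← mul_assoc, ← Real.exp_add]
  exact congrArg (fun x => Real.exp x * _) (by ring)

theorem wf_sq (G : Fam s) (t r : ℝ) :
    ‖f.wf G (t, r)‖ ^ 2 = Real.exp (-(2 * f.ε * t)) * ‖G (f.t0 + t, r)‖ ^ 2 := by
  rw [wf, norm_smul, mul_pow, Complex.norm_exp, ← Real.exp_nat_mul]
  exact congrArg (fun x => Real.exp x * _) (by simp; ring)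

theorem par (hH : Continuous c.H) (h : JS G) (hxy : x ≤ y) (hg : ContinuousOn g (Icc x y))
    (h0 : ∀ r ∈ Icc x y, 0 ≤ g r) : HasSum (fun k => ∫ r in x..y, g r * ‖f.hh c k G r‖ ^ 2)
      (f.τ⁻¹ * f.In (qd (fun r => g r * Real.exp (-(2 * f.ε * c.H r))) G x y)) := by
  have hw : ContinuousOn (fun r => g r * Real.exp (-(2 * f.ε * c.H r))) (Icc x y) :=
    hg.mul (Continuous.continuousOn (by fun_prop))
  have a := (wf_js (f := f) h).hasSum_wt f.h3 0 hxy hw
    fun r hr => mul_nonneg (h0 r hr) (Real.exp_pos _).le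
  simp only [nw] at a
  simp only [hh, norm_smul, mul_pow, ph_sq, ← mul_assoc]
  refine (congrArg (HasSum _ <| f.τ⁻¹ * ·) ?_).mp a
  obtain ⟨w, cw, e⟩ := ex_ext hxy hw
  rw [qd_congr hxy e, integral_congr (g := fun r => ∫ t in (0 : ℝ)..f.τ,
    Real.exp (-(2 * f.ε * t)) * (w r * ‖G (f.t0 + t, r)‖ ^ 2)) fun r hr => by
      rw [uIcc_of_le hxy] at hr
      simp only [e hr, wf_sq, ← intervalIntegral.integral_const_mul, mul_left_comm (w r)]]
  simp only [In, qd, ← intervalIntegral.integral_const_mul]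
  refine intervalIntegral_intervalIntegral_swap ((ContinuousOn.integrableOn_compact
    (isCompact_uIcc.prod isCompact_uIcc) (Continuous.continuousOn ?_)).mono_set
    (prod_mono uIoc_subset_uIcc uIoc_subset_uIcc))
  exact Continuous.mul (by fun_prop) ((cw.comp continuous_fst).mul
    ((sq_cont h).comp (f := fun z : ℝ × ℝ => (f.t0 + z.2, z.1)) (by fun_prop)))

/-- The sum over the frequencies bounds the integral, and conversely. -/
def Lo (f : Fq) (E : ℝ) (Q : ℤ × ℤ → ℝ) (q : ℝ → ℝ) : Prop :=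
  Continuous q ∧ ∃ S, HasSum Q (f.τ⁻¹ * S) ∧ f.In q ≤ E * S
def Hi (f : Fq) (E : ℝ) (Q : ℤ × ℤ → ℝ) (q : ℝ → ℝ) : Prop :=
  Continuous q ∧ ∃ S, HasSum Q (f.τ⁻¹ * S) ∧ S ≤ E * f.In q

theorem Lo.add (h : f.Lo E Q q) (h' : f.Lo E Q' q') :
    f.Lo E (fun k => Q k + Q' k) fun t => q t + q' t := by
  obtain ⟨c1, S, a, b⟩ := h
  obtain ⟨c2, S', a', b'⟩ := h'
  exact ⟨c1.add c2, S + S', by rw [mul_add]; exact a.add a', by rw [In_add c1 c2]; linarith⟩

theorem Hi.add (h : f.Hi E Q q) (h' : f.Hi E Q' q') :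
    f.Hi E (fun k => Q k + Q' k) fun t => q t + q' t := by
  obtain ⟨c1, S, a, b⟩ := h
  obtain ⟨c2, S', a', b'⟩ := h'
  exact ⟨c1.add c2, S + S', by rw [mul_add]; exact a.add a', by rw [In_add c1 c2]; linarith⟩

theorem Hi.mul (h : f.Hi E Q q) {κ : ℝ} (hκ : 0 ≤ κ) :
    f.Hi E (fun k => κ * Q k) fun t => κ * q t := by
  obtain ⟨c1, S, a, b⟩ := h
  refine ⟨continuous_const.mul c1, κ * S, by rw [mul_left_comm]; exact a.mul_left κ, ?_⟩
  rw [In_mul, mul_left_comm]
  exact mul_le_mul_of_nonneg_left b hκ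

theorem Lo.le (h : f.Lo E Q q) (h' : f.Hi E Q' q') (hE : 0 ≤ E) (e : ∀ k, Q k ≤ Q' k) :
    f.In q ≤ E ^ 2 * f.In q' := by
  obtain ⟨-, S, a, b⟩ := h
  obtain ⟨-, S', a', b'⟩ := h'
  have := le_of_mul_le_mul_left (hasSum_le e a a') (inv_pos.2 f.h3)
  nlinarith [mul_le_mul_of_nonneg_left (this.trans b') hE]

variable {U : Set ℝ} {D : Fam s → Fam s} {Dh : ℤ × ℤ → (ℝ → S s) → ℝ → S s}
  (hH : Continuous c.H) (hD : ∀ k, Fr f c k U D (Dh k)) (h : JS G) (hc : f.Cs G) (hxy : x ≤ y)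
  (hU : Icc x y ⊆ U) (hg : ContinuousOn g (Icc x y)) (h0 : ∀ r ∈ Icc x y, 0 ≤ g r)
include hH hD h hc hxy hU hg h0

theorem par' : HasSum (fun k => ∫ r in x..y, g r * ‖Dh k (f.hh c k G) r‖ ^ 2)
    (f.τ⁻¹ * f.In (qd (fun r => g r * Real.exp (-(2 * f.ε * c.H r))) (D G) x y)) := by
  refine (congrArg (HasSum · _) (funext fun k => integral_congr fun r hr => ?_)).mp
    (par hH ((hD 0).js G h) hxy hg h0)
  rw [uIcc_of_le hxy] at hr
  simp only [(hD k).eq G h hc (hU hr)]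

theorem lo (e : ∀ r ∈ Icc x y, Real.exp (2 * f.ε * c.H r) ≤ E) :
    f.Lo E (fun k => ∫ r in x..y, g r * ‖Dh k (f.hh c k G) r‖ ^ 2) (qd g (D G) x y) := by
  have j := (hD 0).js G h
  have hw : ContinuousOn (fun r => g r * Real.exp (-(2 * f.ε * c.H r))) (Icc x y) :=
    hg.mul (Continuous.continuousOn (by fun_prop))
  refine ⟨qd_cont j hxy hg, _, par' hH hD h hc hxy hU hg h0, ?_⟩
  rw [← In_mul]
  refine In_le (qd_cont j hxy hg) (continuous_const.mul (qd_cont j hxy hw))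
    (qd_le j hxy hg hw fun r hr => ?_)
  have := mul_le_mul_of_nonneg_right (e r hr) (Real.exp_pos (-(2 * f.ε * c.H r))).le
  rw [← Real.exp_add, add_neg_cancel, Real.exp_zero] at this
  nlinarith [h0 r hr]

theorem hi (e : ∀ r ∈ Icc x y, Real.exp (-(2 * f.ε * c.H r)) ≤ E) :
    f.Hi E (fun k => ∫ r in x..y, g r * ‖Dh k (f.hh c k G) r‖ ^ 2) (qd g (D G) x y) := by
  have j := (hD 0).js G h
  have hw : ContinuousOn (fun r => g r * Real.exp (-(2 * f.ε * c.H r))) (Icc x y) :=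
    hg.mul (Continuous.continuousOn (by fun_prop))
  refine ⟨qd_cont j hxy hg, _, par' hH hD h hc hxy hU hg h0, ?_⟩
  rw [← In_mul]
  refine In_le (qd_cont j hxy hw) (continuous_const.mul (qd_cont j hxy hg))
    (qd_le j hxy hw hg fun r hr => ?_)
  rw [mul_comm E]
  exact mul_le_mul_of_nonneg_left (e r hr) (h0 r hr)

end Fq

variable {ι : Type} {θ γ : ι → ℝ → ℝ} {q q' : ι → Fam s → ℝ → ℝ} {e : Fam s → ℝ → ℝ}

/-- The product with a function of the time. -/
def cut (θ : ℝ → ℝ) (F : Fam s) : Fam s := fun z => ((θ z.1 : ℝ) : ℂ) • F z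

/-- The density q of the cut off function is the cut off density up to γ e. -/
def Ct (θ γ : ι → ℝ → ℝ) (q : ι → Fam s → ℝ → ℝ) (e : Fam s → ℝ → ℝ) : Prop :=
  ∃ C, 0 ≤ C ∧ ∀ p F, JS F → ∀ t,
    q p (cut (θ p) F) t ≤ 2 * (θ p t ^ 2 * q p F t) + C * (γ p t * e F t) ∧
    θ p t ^ 2 * q p F t ≤ 2 * q p (cut (θ p) F) t + C * (γ p t * e F t)

theorem Ct.add (h : Ct θ γ q e) (h' : Ct θ γ q' e) : Ct θ γ (fun p F t => q p F t + q' p F t) e := by
  obtain ⟨C, a, b⟩ := h
  obtain ⟨C', a', b'⟩ := h'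
  exact ⟨C + C', add_nonneg a a', fun p F hF t => ⟨by
    linarith [(b p F hF t).1, (b' p F hF t).1], by linarith [(b p F hF t).2, (b' p F hF t).2]⟩⟩

theorem Ct.mul (h : Ct θ γ q e) {κ : ℝ} (hκ : 0 ≤ κ) : Ct θ γ (fun p F t => κ * q p F t) e := by
  obtain ⟨C, a, b⟩ := h
  exact ⟨κ * C, mul_nonneg hκ a, fun p F hF t => ⟨by
    linarith [mul_le_mul_of_nonneg_left (b p F hF t).1 hκ], by
    linarith [mul_le_mul_of_nonneg_left (b p F hF t).2 hκ]⟩⟩

theorem ct_qd {n : ℕ} {D : ι → Fam s → Fam s} {x' y' : ℝ} (js : ∀ p F, JS F → JS (D p F))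
    (hθ : ∀ p, ContDiff ℝ ∞ fun z : ℝ × ℝ => (θ p z.1 : ℂ)) (γ0 : ∀ p t, 0 ≤ γ p t)
    (h : Bnd (st x' y') (fun p z => γ p z.1) n (cm (fun p z => (θ p z.1 : ℂ)) D))
    (h1 : x' ≤ x) (hxy : x ≤ y) (h2 : y ≤ y') (hg : ContinuousOn g (Icc x y))
    (h0 : ∀ r ∈ Icc x y, 0 ≤ g r) :
    Ct θ γ (fun p F => qd g (D p F) x y) fun F => Jt n F x' y' := by
  obtain ⟨C, C0, hC⟩ := h 0
  obtain ⟨B, hB⟩ := isCompact_Icc.exists_bound_of_continuousOn hg
  have B0 : 0 ≤ B := (norm_nonneg _).trans (hB x (left_mem_Icc.2 hxy))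
  refine ⟨2 * B * C, by positivity, fun p F hF t => ?_⟩
  have i1 := qd_ii (js p _ (hF.smul (hθ p))) hxy hg t
  have i2 := qd_ii (js p F hF) hxy hg t
  have c3 : Continuous fun r => jet n F (t, r) := (jet_cont hF n).comp (Continuous.prodMk_right t)
  have i3 := (c3.intervalIntegrable (μ := volume) x y).const_mul (2 * B * C * γ p t)
  have m : 2 * B * C * γ p t * ∫ r in x..y, jet n F (t, r) ≤
      2 * B * C * (γ p t * Jt n F x' y' t) := by
    rw [← mul_assoc]
    exact mul_le_mul_of_nonneg_left (integral_mono_interval h1 hxy h2 (Eventually.of_forall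
      fun _ => jet_nonneg _ _ _) (c3.intervalIntegrable _ _)) (by have := γ0 p t; positivity)
  have k : ∀ r ∈ Icc x y, g r * ‖cm (fun p z => (θ p z.1 : ℂ)) D p F (t, r)‖ ^ 2 ≤
      B * C * γ p t * jet n F (t, r) := fun r hr => by
    have := mul_le_mul ((le_abs_self _).trans (hB r hr))
      (hC p F hF (t, r) ⟨h1.trans hr.1, hr.2.trans h2⟩) (sq_nonneg _) B0
    simpa only [mul_assoc, add_zero, jet] using this
  have n1 : ∀ u : S s, ‖(θ p t : ℂ) • u‖ ^ 2 = θ p t ^ 2 * ‖u‖ ^ 2 := fun u => by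
    rw [norm_smul, mul_pow, Complex.norm_real, Real.norm_eq_abs, sq_abs]
  constructor
  · have := integral_mono_on hxy i1 (((i2.const_mul (θ p t ^ 2)).const_mul 2).add i3) fun r hr => by
      have a := mul_le_mul_of_nonneg_left (sq_add_le ((θ p t : ℂ) • D p F (t, r))
        (cm (fun p z => (θ p z.1 : ℂ)) D p F (t, r))) (h0 r hr)
      have b := k r hr
      simp only [cm, add_sub_cancel, n1] at a b
      linarith
    rw [integral_add ((i2.const_mul _).const_mul 2) i3] at this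
    simp only [intervalIntegral.integral_const_mul] at this
    exact this.trans (add_le_add le_rfl m)
  · have := integral_mono_on hxy (i2.const_mul (θ p t ^ 2)) ((i1.const_mul 2).add i3) fun r hr => by
      have a := mul_le_mul_of_nonneg_left (sq_add_le (D p (fun y => (θ p y.1 : ℂ) • F y) (t, r))
        (-cm (fun p z => (θ p z.1 : ℂ)) D p F (t, r))) (h0 r hr)
      have b := k r hr
      simp only [cm, neg_sub, add_sub_cancel, n1, norm_sub_rev ((θ p t : ℂ) • _)] at a b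
      linarith
    rw [integral_add (i1.const_mul 2) i3] at this
    simp only [intervalIntegral.integral_const_mul] at this
    exact this.trans (add_le_add le_rfl m)

end Vale.Agent.P354XL
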