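import Vale.Agent.P354XL.Slab
import Vale.Agent.P354BO.FPar
import Vale.Agent.P354XT.CoreD
import Vale.Agent.P354XT.Ops

/-!
Families of sections which represent elements of the ring of fields, and fibre integrals.
-/

open scoped ContDiff
open Complex (I)
open Set Filter MeasureTheory

noncomputable section

namespace Vale.Agent.P354XL

open Vale.Agent.P354BO Vale.Agent.P354XI Vale.Agent.P354XG Vale.Agent.P354XR
open Vale.Agent.P354XT (Fld Mj)

variable {U W Z : Set (ℝ × ℝ)} {s : ℤ} {f : ℝ → ℝ} {G G' : Fam s} {v v' H : Rg U}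

/-- The family G represents v over W. -/
structure Rp (W : Set (ℝ × ℝ)) (G : Fam s) (v : Rg U) : Prop where
  js : JS G
  mem : v ∈ Sec U s
  eq : ∀ z ∈ W, G z = sec s v z

/-- The open sets and the slope. -/
structure St (U W : Set (ℝ × ℝ)) (f : ℝ → ℝ) : Prop where
  hU : IsOpen U
  hW : IsOpen W
  sub : W ⊆ U
  hr : ∀ z ∈ U, z.2 ≠ 0
  hf : ContDiff ℝ ∞ f

theorem St.is (S : St U W f) (s : ℤ) : (fld S.hU s f).Is := fld_is S.hU S.hr s S.hf

namespace Rp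
variable (S : St U W f) (h : Rp W G v)
include S h

theorem add (h' : Rp W G' v') : Rp W (fun z => G z + G' z) (v + v') :=
  ⟨h.js.add h'.js, add_mem h.mem h'.mem, fun z hz => by
    rw [sec_add S.hU h.mem h'.mem, h.eq z hz, h'.eq z hz]⟩

theorem cs (c : ℂ) : Rp W (fun z => c • G z) (algebraMap ℂ _ c * v) := by
  rw [← Algebra.smul_def]
  exact ⟨h.js.smul contDiff_const, Submodule.smul_mem _ c h.mem, fun z hz => by
    rw [sec_smul S.hU c h.mem, h.eq z hz]⟩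

theorem rad {g : ℝ → ℝ} (hg : ContDiff ℝ ∞ g) :
    Rp W (fun z => (g z.2 : ℂ) • G z) ((fld S.hU s f).rad g * v) := by
  have a : ContDiff ℝ ∞ fun z : ℝ × ℝ => g z.2 := hg.comp contDiff_snd
  rw [show (fld S.hU s f).rad g = fz U fun z => g z.2 from rfl]
  exact ⟨h.js.smul (Complex.ofRealCLM.contDiff.comp a), fz_mem S.hU a h.mem, fun z hz => by
    rw [sec_fz S.hU a h.mem, h.eq z hz]⟩

theorem L (i : Fin 3) : Rp W (X (.inr i) G) ((fld S.hU s f).L i v) :=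
  ⟨h.js.L i, Om_mem S.hU S.hr i h.mem, fun z hz =>
    (congrArg _ (h.eq z hz)).trans (sec_L S.hU S.hr i h.mem z).symm⟩

theorem w (i : Fin 3) : Rp W (fun z => P354BO.w i (G z)) ((fld S.hU s f).w i * v) :=
  ⟨h.js.w i, ww_mem S.hU S.hr i h.mem, fun z hz =>
    (congrArg _ (h.eq z hz)).trans (sec_w S.hU S.hr i h.mem z).symm⟩

theorem dir (hv : v' ∈ Sec U s) {z e : ℝ × ℝ} (hz : z ∈ W)
    (he : ∀ x : cyl U, tr x = z → evO x v' = fderiv ℝ (fv v) x (e.1, e.2, 0)) :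
    fderiv ℝ G z e = sec s v' z := P354BO.S.ext fun ξ a => by
  rw [h.js.fderiv_app, sec_app S.hU hv, EventuallyEq.fderiv_eq (f := fun q => fv v (q.1, q.2, ξ))
    ((S.hW.eventually_mem hz).mono fun q hq => by simp only [h.eq q hq, sec_app S.hU h.mem])]
  exact ((he ⟨(z.1, z.2, ξ), S.sub hz, a⟩ rfl).trans (congrArg (· e) (((fv_sm (cyl_open S.hU) v
    (x := (z.1, z.2, ξ)) ⟨S.sub hz, a⟩).differentiableAt (by simp)).hasFDerivAt.comp z
      (f := fun q : ℝ × ℝ => (q.1, q.2, ξ)) (hasFDerivAt_fst.prodMk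
        (hasFDerivAt_snd.prodMk (hasFDerivAt_const ξ z)))).fderiv).symm).symm

theorem T : Rp W (T G) ((fld S.hU s f).T v) :=
  ⟨X_js h.js _, (S.is s).spX 0 v h.mem, fun _ hz => h.dir S ((S.is s).spX 0 v h.mem) hz
    fun x _ => ev_X S.hU s S.hf 0 v x⟩

theorem dR {z : ℝ × ℝ} (hz : z ∈ W) :
    X (.inl 1) G z + ((-f z.2 : ℝ) : ℂ) • P354XL.T G z = sec s ((fld S.hU s f).R v) z := by
  refine Eq.trans ?_ (h.dir S (e := (-f z.2, 1)) ((S.is s).spX 1 v h.mem) hz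
    fun x e => e ▸ ev_X S.hU s S.hf 1 v x)
  rw [Complex.coe_smul]
  simp only [X, P354XL.T, ← map_smul, ← map_add]
  simp [ev]

theorem R {c : Ch} (e : deriv c.H = f) (e' : deriv c.J = fun _ => 0) :
    Rp W (c.R G) ((fld S.hU s f).R v) := by
  refine ⟨?_, (S.is s).spX 1 v h.mem, fun z hz => ?_⟩ <;> unfold Ch.R <;> rw [e, e']
  · exact ((X_js h.js _).add ((h.T S).rad S S.hf.neg).js).add ((X_js h.js _).smul contDiff_const)
  · simp only [h.dR S hz, neg_zero, Complex.ofReal_zero, zero_smul, add_zero]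

theorem dr : Rp W (X (.inl 1) G)
    ((fld S.hU s f).R v + (fld S.hU s f).rad f * (fld S.hU s f).T v) := by
  have a := (h.T S).rad S S.hf
  have b : (fld S.hU s f).R v ∈ Sec U s := (S.is s).spX 1 v h.mem
  refine ⟨X_js h.js _, add_mem b a.mem, fun z hz => ?_⟩
  rw [sec_add S.hU b a.mem, ← a.eq z hz]
  refine Eq.trans ?_ (congrArg (· + _) (h.dR S hz))
  simp

end Rp

/-- The operators in T, R and the axial field on families. -/
def fm (c : Ch) : P354XT.Op → Fam s → Fam s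
  | .one, F => F
  | .T e, F => T (fm c e F)
  | .R e, F => c.R (fm c e F)
  | .F e, F => Φ (fm c e F)
  | .mul g e, F => fun z => (g (c.M, c.a, z.2) : ℂ) • fm c e F z
  | .add e e', F => fun z => fm c e F z + fm c e' F z

theorem Rp.op (S : St U W f) (h : Rp W G v) {c : Ch} (e1 : deriv c.H = f)
    (e2 : deriv c.J = fun _ => 0) : ∀ e : P354XT.Op, e.Sm →
      Rp W (fm c e G) (e.ph (fld S.hU s f) c.M c.a v)
  | .one, _ => h
  | .T e, k => (h.op S e1 e2 e k).T S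
  | .R e, k => (h.op S e1 e2 e k).R S e1 e2
  | .F e, k => (h.op S e1 e2 e k).L S 2
  | .mul _ e, k => (h.op S e1 e2 e k.2).rad S (P354XT.sm3 k.1 c.M c.a)
  | .add e e', k => (h.op S e1 e2 e k.1).add S (h.op S e1 e2 e' k.2)

theorem Rp.P (S : St U W f) (h : Rp W G v) {c : Ch} (e1 : deriv c.H = f)
    (e2 : deriv c.J = fun _ => 0) (σ k : ℝ) :
    Rp W (c.P σ k G) ((fld S.hU s f).P σ k c.M c.a v) := by
  have a := ((((h.op S e1 e2 _ (P354XT.opP_sm σ)).add S ((((h.L S 0).L S 0).add S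
    ((h.L S 1).L S 1)).add S ((h.L S 2).L S 2))).add S
    (((((h.T S).T S).w S 2).w S 2).cs S (-(c.a ^ 2 : ℝ)))).add S
    (((h.T S).w S 2).cs S (-(2 * k * c.a * I))))
  rw [(S.is s).P_eq, Fin.sum_univ_three, sub_eq_add_neg, sub_eq_add_neg, ← neg_mul, ← neg_mul,
    Ibp.rl, ← map_neg, ← map_neg]
  refine (congrArg (Rp W · _) (funext fun z => ?_)).mpr a
  simp only [Ch.P, Ch.Y, Ch.nl, P354XT.opP, fm]
  push_cast
  module

/-- A representative near a compact set. -/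
theorem ex_rp (hU : IsOpen U) (hZ : IsCompact Z) (sZ : Z ⊆ U) (hv : v ∈ Sec U s) :
    ∃ W, IsOpen W ∧ Z ⊆ W ∧ W ⊆ U ∧ ∃ G : Fam s, Rp W G v := by
  obtain ⟨θ, C, hθ, hC, sC, θ0, θ1⟩ := ex_cut hU hZ sZ
  refine ⟨interior {z | θ z = 1} ∩ U, isOpen_interior.inter hU, fun z hz =>
    ⟨mem_interior_iff_mem_nhds.2 (θ1 z hz), sZ hz⟩, inter_subset_right, _,
    sec_js hU (fz_mem hU hθ hv) (cs_fz hθ hC.isClosed sC θ0 v), hv, fun z hz => ?_⟩
  rw [sec_fz hU hθ hv, show θ z = 1 from interior_subset (s := {z | θ z = 1}) hz.1, Complex.ofReal_one, one_smul]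

section
variable (hU : IsOpen U) (s f)

/-- The density of the integral. -/
def dy (H : Rg U) (y : (ℝ × ℝ) × V) : ℝ := (fv (be U * H) (y.1.1, y.1.2, y.2)).re

theorem dy_int (h : H ∈ (fld hU s f).B.K) :
    Integrable (dy H) ∧ (fld hU s f).B.J H = ∫ y, dy H y := by
  have p := volume_preserving_prodAssoc (α₁ := ℝ) (β₁ := ℝ) (γ₁ := V)
  have i := p.integrable_comp_of_integrable (cs_int volume (cyl_open hU) h)
  exact ⟨i.re, (congrArg Complex.re ((box_I volume (cyl_open hU) h).trans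
    (p.integral_comp' _).symm)).trans (integral_re i).symm⟩

theorem dy_cases (H : Rg U) (y : (ℝ × ℝ) × V) :
    (∃ x : (fld hU s f).B.Pt, (fld hU s f).pr x = y.1 ∧ x.1.1.2.2 = y.2 ∧
      dy H y = χ y.2 ^ 2 * (fld hU s f).B.val x H) ∨ (dy H y = 0 ∧ (y.1 ∈ U → χ y.2 = 0)) := by
  by_cases a : (y.1.1, y.1.2, y.2) ∈ cyl U
  · have e : fv (be U) (y.1.1, y.1.2, y.2) = (χ y.2 ^ 2 : ℝ) := by
      rw [Complex.ofReal_pow]; exact ev_be ⟨_, a⟩
    by_cases b : χ y.2 = 0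
    · exact Or.inr ⟨by simp [dy, fv_mul, e, b], fun _ => b⟩
    · exact Or.inl ⟨⟨⟨_, a⟩, e.trans_ne (by simpa using b)⟩, rfl, rfl,
        (congrArg Complex.re ((fv_mul _ _ _).trans (congrArg (· * _) e))).trans
          (Complex.re_ofReal_mul _ _)⟩
  · exact Or.inr ⟨by rw [dy, fv_out _ a, Complex.zero_re], fun b =>
      χ_out fun c => a ⟨b, K_ne c⟩⟩

/-- The function φ is at most the fibre integral of q over Z. -/
def Up (Z : Set (ℝ × ℝ)) (φ : ℝ × ℝ → ℝ) (q : (fld hU s f).B.Pt → ℝ) : Prop :=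
  Continuous φ ∧ ∃ ψ : (ℝ × ℝ) × V → ℝ, Continuous ψ ∧ (∀ y, χ y.2 = 0 → ψ y = 0) ∧
    (∀ z ∈ Z, φ z ≤ ∫ ξ, ψ (z, ξ)) ∧
    ∀ x, (fld hU s f).pr x ∈ Z → ψ ((fld hU s f).pr x, x.1.1.2.2) ≤ χ x.1.1.2.2 ^ 2 * q x

end

theorem box_eq {φ : ℝ × ℝ → ℝ} (h : Continuous φ) {a b x y : ℝ} (hab : a ≤ b) (hxy : x ≤ y) :
    ∫ t in a..b, ∫ r in x..y, φ (t, r) = ∫ z in Icc a b ×ˢ Icc x y, φ z := by
  simp only [intervalIntegral.integral_of_le hab, intervalIntegral.integral_of_le hxy,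
    ← integral_Icc_eq_integral_Ioc]
  exact (setIntegral_prod φ
    (h.continuousOn.integrableOn_compact (isCompact_Icc.prod isCompact_Icc))).symm

theorem fib_int {ψ : (ℝ × ℝ) × V → ℝ} (h : Continuous ψ) (h0 : ∀ y, χ y.2 = 0 → ψ y = 0)
    (hZ : IsCompact Z) : IntegrableOn ψ (Z ×ˢ univ) ∧ IntegrableOn (fun z => ∫ ξ, ψ (z, ξ)) Z ∧
      ∫ y in Z ×ˢ univ, ψ y = ∫ z in Z, ∫ ξ, ψ (z, ξ) := by
  have a : IntegrableOn ψ (Z ×ˢ univ) :=
    (h.continuousOn.integrableOn_compact (hZ.prod K_cpt)).of_forall_sdiff_eq_zero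
      (hZ.measurableSet.prod .univ) fun y hy => h0 y (χ_out fun c => hy.2 ⟨hy.1.1, c⟩)
  have b := a
  rw [IntegrableOn, Measure.volume_eq_prod, ← Measure.prod_restrict, Measure.restrict_univ] at b
  exact ⟨a, b.integral_prod_left, (setIntegral_prod ψ a).trans (by simp)⟩

theorem fib_ξ {ψ : (ℝ × ℝ) × V → ℝ} (h : Continuous ψ) (h0 : ∀ y, χ y.2 = 0 → ψ y = 0) (z : ℝ × ℝ) :
    Integrable fun ξ => ψ (z, ξ) :=
  int_K (h.comp (Continuous.prodMk_right z)) fun _ a => h0 _ (χ_out a)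

namespace Up
variable {hU : IsOpen U} {φ φ' : ℝ × ℝ → ℝ} {q q' : (fld hU s f).B.Pt → ℝ}

theorem add (h : Up s f hU Z φ q) (h' : Up s f hU Z φ' q') :
    Up s f hU Z (fun z => φ z + φ' z) fun x => q x + q' x := by
  obtain ⟨c, ψ, a1, a2, a3, a4⟩ := h
  obtain ⟨c', ψ', b1, b2, b3, b4⟩ := h'
  refine ⟨c.add c', fun y => ψ y + ψ' y, a1.add b1, fun y e => by simp [a2 y e, b2 y e],
    fun z hz => ?_, fun x hx => (add_le_add (a4 x hx) (b4 x hx)).trans_eq (mul_add _ _ _).symm⟩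
  rw [integral_add (fib_ξ a1 a2 z) (fib_ξ b1 b2 z)]
  exact add_le_add (a3 z hz) (b3 z hz)

theorem mul (h : Up s f hU Z φ q) {g : ℝ → ℝ} (hg : Continuous g) (g0 : ∀ z ∈ Z, 0 ≤ g z.2) :
    Up s f hU Z (fun z => g z.2 * φ z) fun x => g ((fld hU s f).pr x).2 * q x := by
  obtain ⟨c, ψ, a1, a2, a3, a4⟩ := h
  refine ⟨(hg.comp continuous_snd).mul c, fun y => g y.1.2 * ψ y,
    (hg.comp continuous_fst.snd).mul a1, fun y e => by simp [a2 y e], fun z hz => ?_,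
    fun x hx => (mul_le_mul_of_nonneg_left (a4 x hx) (g0 _ hx)).trans_eq (mul_left_comm _ _ _)⟩
  simp only [integral_const_mul]
  exact mul_le_mul_of_nonneg_left (a3 z hz) (g0 z hz)

theorem mono (h : Up s f hU Z φ q) (e : ∀ x, (fld hU s f).pr x ∈ Z → q x ≤ q' x) :
    Up s f hU Z φ q' :=
  let ⟨c, ψ, a1, a2, a3, a4⟩ := h
  ⟨c, ψ, a1, a2, a3, fun x hx => (a4 x hx).trans (mul_le_mul_of_nonneg_left (e x hx) (sq_nonneg _))⟩

theorem int {a b x y : ℝ} (h : Up s f hU (Icc a b ×ˢ Icc x y) φ q) (hab : a ≤ b) (hxy : x ≤ y)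
    (sZ : Icc a b ×ˢ Icc x y ⊆ U) (m : Mj (fld hU s f) H (Icc a b ×ˢ Icc x y) q) :
    ∫ t in a..b, ∫ r in x..y, φ (t, r) ≤ (fld hU s f).B.J H := by
  obtain ⟨c, ψ, a1, a2, a3, a4⟩ := h
  have hZ := (isCompact_Icc (a := a) (b := b)).prod (isCompact_Icc (a := x) (b := y))
  obtain ⟨b1, b2, b3⟩ := fib_int a1 a2 hZ
  obtain ⟨c1, c2⟩ := dy_int s f hU m.K
  rw [box_eq c hab hxy, c2]
  refine (setIntegral_mono_on (c.continuousOn.integrableOn_compact hZ) b2 hZ.measurableSet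
    a3).trans (b3.symm.trans_le ((setIntegral_mono_on b1 c1.integrableOn
      (hZ.measurableSet.prod .univ) fun y hy => ?_).trans
        (setIntegral_le_integral c1 (Eventually.of_forall fun y => ?_))))
  · rcases dy_cases s f hU H y with ⟨x, e1, e2, e3⟩ | ⟨e1, e2⟩
    · have k := a4 x (e1 ▸ hy.1)
      rw [e1, e2] at k
      exact k.trans ((mul_le_mul_of_nonneg_left (m.ge x (e1 ▸ hy.1)) (sq_nonneg _)).trans e3.ge)
    · rw [e1, a2 y (e2 (sZ hy.1))]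
  · rcases dy_cases s f hU H y with ⟨x, -, -, e3⟩ | ⟨e1, -⟩
    · exact (mul_nonneg (sq_nonneg _) (m.pos x)).trans e3.ge
    · exact e1.ge

end Up

theorem Rp.gl_eq (S : St U W f) (h : Rp W G v) (x : (fld S.hU s f).B.Pt)
    (hx : (fld S.hU s f).pr x ∈ W) : ‖gl (G ((fld S.hU s f).pr x)) x.1.1.2.2‖ ^ 2 =
      χ x.1.1.2.2 ^ 2 * (fld S.hU s f).B.md x v ^ 2 := by
  rw [gl, h.eq _ hx, sec_app S.hU h.mem, norm_mul, mul_pow, Complex.norm_real, Real.norm_eq_abs,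
    sq_abs]
  rfl

theorem Rp.up (S : St U W f) (h : Rp W G v) (sZ : Z ⊆ W) :
    Up s f S.hU Z (fun z => ‖G z‖ ^ 2) fun x => (fld S.hU s f).B.md x v ^ 2 :=
  ⟨sq_cont h.js, fun y => ‖gl (G y.1) y.2‖ ^ 2, h.js.gl.continuous.norm.pow 2,
    fun y e => by simp [gl, e], fun _ _ => (norm_sq _).le, fun x hx => (h.gl_eq S x (sZ hx)).le⟩

/-- H is an integrable minorant of q on Z and of zero off Z. -/
structure Mn {A : Type} [CommRing A] [Algebra ℂ A] (Φ : Fld A) (H : A) (Z : Set (ℝ × ℝ))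
    (q : Φ.B.Pt → ℝ) : Prop where
  K : H ∈ Φ.B.K
  le : ∀ x, Φ.pr x ∈ Z → Φ.B.val x H ≤ q x
  out : ∀ x, Φ.pr x ∉ Z → Φ.B.val x H ≤ 0

theorem Rp.lo (S : St U W f) (h : Rp W G v) {a b x y : ℝ} (hab : a ≤ b) (hxy : x ≤ y)
    (sZ : Icc a b ×ˢ Icc x y ⊆ W)
    (m : Mn (fld S.hU s f) H (Icc a b ×ˢ Icc x y) fun x => (fld S.hU s f).B.md x v ^ 2) :
    (fld S.hU s f).B.J H ≤ ∫ t in a..b, ∫ r in x..y, ‖G (t, r)‖ ^ 2 := by
  have hZ := (isCompact_Icc (a := a) (b := b)).prod (isCompact_Icc (a := x) (b := y))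
  obtain ⟨b1, -, b3⟩ := fib_int (ψ := fun y => ‖gl (G y.1) y.2‖ ^ 2)
    (h.js.gl.continuous.norm.pow 2) (fun y e => by simp [gl, e]) hZ
  obtain ⟨c1, c2⟩ := dy_int s f S.hU m.K
  have mZ : MeasurableSet ((Icc a b ×ˢ Icc x y) ×ˢ (univ : Set V)) :=
    hZ.measurableSet.prod .univ
  rw [box_eq (sq_cont h.js) hab hxy, c2]
  simp only [norm_sq]
  rw [← b3, ← integral_indicator mZ]
  refine integral_mono c1 (b1.integrable_indicator mZ) fun η => ?_
  rcases dy_cases s f S.hU H η with ⟨p, e1, e2, e3⟩ | ⟨e1, -⟩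
  · rw [e3]
    by_cases k : η.1 ∈ Icc a b ×ˢ Icc x y
    · rw [indicator_of_mem (mk_mem_prod k (mem_univ η.2)), ← e1, ← e2,
        h.gl_eq S p (sZ (e1 ▸ k))]
      exact mul_le_mul_of_nonneg_left (m.le p (e1 ▸ k)) (sq_nonneg _)
    · rw [indicator_of_notMem fun c => k c.1]
      exact mul_nonpos_of_nonneg_of_nonpos (sq_nonneg _) (m.out p (e1 ▸ k))
  · exact e1.trans_le (indicator_nonneg (fun _ _ => sq_nonneg _) η)

end Vale.Agent.P354XL
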