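import Vale.Agent.P354XL.Rep

/-!
The estimate of low order in the ring of fields, with majorants on slabs.
-/

open scoped ContDiff
open Set Filter Topology MeasureTheory intervalIntegral

noncomputable section

namespace Vale.Agent.P354XL

open Vale.Agent.P354BO Vale.Agent.P354XI Vale.Agent.P354BF
open Vale.Agent.P354XT (Fld Mj Slope sp)

/-- The outgoing derivative, and the last member of the chain of spin -2. -/
def opD (e : P354XT.Op) : P354XT.Op :=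
  .add (.R e) (.mul (fun p => sinv (De p.1 p.2.1 p.2.2))
    (.add (.mul (fun p => 2 * (p.2.2 ^ 2 + p.2.1 ^ 2)) (.T e)) (.mul (fun p => 2 * p.2.1) (.F e))))
def opC : P354XT.Op := opD (.mul (fun p => p.2.2 ^ 2) (opD (.mul (fun p => p.2.2 ^ 2)
  (opD (.mul (fun p => De p.1 p.2.1 p.2.2 ^ 2 * sinv p.2.2 ^ 3) .one)))))

theorem opD_sm {e : P354XT.Op} (h : e.Sm) : (opD e).Sm :=
  ⟨h, sinv_sm.comp (by unfold De; fun_prop), ⟨by fun_prop, h⟩, by fun_prop, h⟩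

theorem opC_sm : opC.Sm := opD_sm ⟨by fun_prop, opD_sm ⟨by fun_prop, opD_sm
  ⟨(ContDiff.pow (by unfold De; fun_prop) 2).mul ((sinv_sm.comp contDiff_snd.snd).pow 3), trivial⟩⟩⟩

section defs
variable {A : Type} [CommRing A] [Algebra ℂ A] (Φ : Fld A)

/-- The far density. -/
def fd (σ : Bool) (p M a : ℝ) (u : A) (x : Φ.B.Pt) : ℝ :=
  cond σ ((Φ.pr x).2 ^ p * (Φ.pr x).2 ^ 2 / (Φ.pr x).2 ^ 7 * Φ.B.md x ((opD .one).ph Φ M a u) ^ 2 +
      (Φ.pr x).2 ^ p / (Φ.pr x).2 ^ 7 * Φ.B.md x u ^ 2)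
    ((Φ.pr x).2 ^ p / (Φ.pr x).2 * Φ.B.md x (opC.ph Φ M a u) ^ 2)

/-- The middle part of the slab j. -/
def nar (t1 : ℝ) (j : ℕ) : Set ℝ := Icc (t1 + j + 1 / 2) (t1 + j + 3 / 2)

/-- The minorants of the term of low order; the majorants of the bulk, the far density, the
source and the energy. -/
structure Lw (σ : Bool) (p M a r0 R2 R t1 : ℝ) (K : ℕ) (u : A) (HI HB HL HP HE : ℕ → A) : Prop where
  I : ∀ j : ℕ, 1 ≤ j → j < K →
    Mn Φ (HI j) (Icc (t1 + j) (t1 + j + 2) ×ˢ Icc r0 R2) fun x => Φ.B.md x u ^ 2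
  B : ∀ j ≤ K, Mj Φ (HB j) (nar t1 j ×ˢ Icc r0 R2) fun x => Φ.B.val x (Φ.jq 3 u)
  L : ∀ j ≤ K, Mj Φ (HL j) (nar t1 j ×ˢ Icc R2 (2 * R)) (fd Φ σ p M a u)
  P : ∀ j ≤ K, Mj Φ (HP j) (nar t1 j ×ˢ Icc r0 (2 * R))
    fun x => Φ.B.val x (Φ.jq 2 (Φ.P Φ.s Φ.s M a u))
  E : ∀ j ≤ K, Mj Φ (HE j) (nar t1 j ×ˢ Icc r0 (2 * R)) fun x => Φ.B.val x (Φ.jq 4 u)

end defs

/-- The estimate of low order on slabs. -/
def LOWR (σ : Bool) : Prop :=
  ∀ (M0 a0 rm r0 p R2 C0 δ1 : ℝ) (f : ℝ × ℝ × ℝ → ℝ), |a0| < M0 → Slope M0 a0 rm f → rm ≤ r0 →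
    r0 < rp M0 a0 → 0 < p → r0 ≤ R2 → 0 < δ1 → ∀ δ, 0 < δ → ∀ᶠ R in atTop,
    ∃ C dl, 0 ≤ C ∧ 0 < dl ∧ ∀ M a, |M - M0| < dl → |a - a0| < dl →
      ∀ (U : Set (ℝ × ℝ)) (hU : IsOpen U) (s : ℤ), (∀ z ∈ U, z.2 ≠ 0) → (s : ℝ) = sp σ →
      ∀ (t1 : ℝ) (K : ℕ), Icc (t1 + 1 / 2) (t1 + K + 3 / 2) ×ˢ Icc r0 (2 * R) ⊆ U →
      ∀ u ∈ Sec U s, ∀ HI HB HL HP HE : ℕ → Rg U,
      Lw (fld hU s fun r => f (M, a, r)) σ p M a r0 R2 R t1 K u HI HB HL HP HE →
      Low K (fun j => (fld hU s fun r => f (M, a, r)).B.J (HE j))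
        (fun j => δ1 * (fld hU s fun r => f (M, a, r)).B.J (HB j) +
          δ * (fld hU s fun r => f (M, a, r)).B.J (HL j))
        (fun j => (fld hU s fun r => f (M, a, r)).B.J (HI j))
        (fun j => (fld hU s fun r => f (M, a, r)).B.J (HP j)) C0 1 C

variable {U W Z : Set (ℝ × ℝ)} {s : ℤ} {f : ℝ → ℝ} {G : Fam s} {v H : Rg U} {a b x y : ℝ}

theorem mj_smul {A : Type} [CommRing A] [Algebra ℂ A] {Φ : Fld A} (h : Φ.Is) {H : A}
    {q : Φ.B.Pt → ℝ} (m : Mj Φ H Z q) {C : ℝ} (hC : 0 ≤ C) :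
    Mj Φ (Ibp.rl A C * H) Z fun x => C * q x := by
  have e := fun x => (h.B.val_mul (h.B.re_rl C) x H).trans (congrArg (· * _) (h.B.val_rl x C))
  exact ⟨Φ.B.K.mul_mem_left _ m.K, fun x => (mul_nonneg hC (m.pos x)).trans (e x).ge,
    fun x hx => (mul_le_mul_of_nonneg_left (m.ge x hx) hC).trans (e x).ge⟩

theorem mj_nonneg {A : Type} [CommRing A] [Algebra ℂ A] {Φ : Fld A} (h : Φ.Is) {H : A}
    {q : Φ.B.Pt → ℝ} (m : Mj Φ H Z q) : 0 ≤ Φ.B.J H := h.B.mono H m.K m.pos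

section
variable (S : St U W f) (h : Rp W G v) (hab : a ≤ b) (hxy : x ≤ y) (sZ : Icc a b ×ˢ Icc x y ⊆ W)
  {q : (fld S.hU s f).B.Pt → ℝ} (m : Mj (fld S.hU s f) H (Icc a b ×ˢ Icc x y) q)
include h hab hxy sZ m

theorem Rp.qd {g : ℝ → ℝ} (hg : ContinuousOn g (Icc x y)) (g0 : ∀ r ∈ Icc x y, 0 ≤ g r)
    (hq : ∀ p, (fld S.hU s f).pr p ∈ Icc a b ×ˢ Icc x y →
      g ((fld S.hU s f).pr p).2 * (fld S.hU s f).B.md p v ^ 2 ≤ q p) :
    ∫ t in a..b, qd g G x y t ≤ (fld S.hU s f).B.J H := by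
  obtain ⟨g', c, e⟩ := ex_ext hxy hg
  rw [qd_congr hxy e]
  exact (((h.up S sZ).mul c fun z hz => e hz.2 ▸ g0 _ hz.2).mono fun p hp => by
    rw [← e hp.2]; exact hq p hp).int hab hxy (sZ.trans S.sub) m

theorem Rp.W2 {c : Ch} (e1 : deriv c.H = f) (e2 : deriv c.J = fun _ => 0)
    (hq : ∀ p, (fld S.hU s f).pr p ∈ Icc a b ×ˢ Icc x y →
      ∃ e, (fld S.hU s f).Bd p 2 v e ∧ e ^ 2 ≤ q p) :
    Continuous (c.W2 G x y) ∧ ∫ t in a..b, c.W2 G x y t ≤ 3 * (fld S.hU s f).B.J H := by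
  have k : ∀ {G' : Fam s} (J : List (Fin 5)), J.length ≤ 2 → Rp W G' ((fld S.hU s f).wd J v) →
      Continuous (P354XL.qd (fun _ => 1) G' x y) ∧
      ∫ t in a..b, P354XL.qd (fun _ => 1) G' x y t ≤ (fld S.hU s f).B.J H := fun J l r =>
    ⟨qd_cont r.js hxy continuousOn_const, r.qd S hab hxy sZ m continuousOn_const
      (fun _ _ => zero_le_one) fun p hp => by
        obtain ⟨e, k1, k2⟩ := hq p hp
        rw [one_mul]
        exact (pow_le_pow_left₀ (Ibp.md_nonneg _ _) (k1 J l) 2).trans k2⟩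
  have k0 := k [] (by simp) h
  have k1 := k [1] (by simp) (h.R S e1 e2)
  have k2 := k [1, 1] (by simp) ((h.R S e1 e2).R S e1 e2)
  rw [W2_eq]
  refine ⟨(k0.1.add k1.1).add k2.1, ?_⟩
  refine ((integral_add ((k0.1.add k1.1).intervalIntegrable _ _)
    (k2.1.intervalIntegrable _ _)).trans (congrArg (· + _) (integral_add
      (k0.1.intervalIntegrable _ _) (k1.1.intervalIntegrable _ _)))).trans_le ?_
  exact (add_le_add (add_le_add k0.2 k1.2) k2.2).trans_eq (by ring)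

end

theorem up_jet (M0 a0 x y : ℝ) {f : ℝ × ℝ × ℝ → ℝ} (hf : ContDiff ℝ ∞ f) (n : ℕ) : ∃ C, 0 ≤ C ∧
    ∀ M a, |M - M0| ≤ 1 → |a - a0| ≤ 1 → ∀ U W (S : St U W fun r => f (M, a, r)) Z, Z ⊆ W →
      (∀ z ∈ Z, z.2 ∈ Icc x y) → ∀ (s : ℤ) (G : Fam s) v, Rp W G v →
      Up s _ S.hU Z (jet n G) fun p => C * (fld S.hU s fun r => f (M, a, r)).nq p n v ^ 2 := by
  induction n with
  | zero =>
    exact ⟨1, zero_le_one, fun M a _ _ U W S Z sZ _ s G v h => (h.up S sZ).mono fun p _ => by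
      rw [one_mul]
      exact pow_le_pow_left₀ (Ibp.md_nonneg _ _) ((S.is s).bd_nq p 0 v).md 2⟩
  | succ n ih =>
    obtain ⟨C, C0, hC⟩ := ih
    obtain ⟨F, F1, hF⟩ := P354XT.rad_bd M0 a0 x y n f hf
    have n1 := P354XT.nw_pos n
    refine ⟨1 + 5 * (C * (P354XT.nw n * (1 + 2 ^ n * F) ^ 2)), by positivity,
      fun M a h1 h2 U W S Z sZ hZ s G v h => ?_⟩
    have k := hC M a h1 h2 U W S Z sZ hZ s
    have := (h.up S sZ).add (((k _ _ (h.T S)).add (k _ _ (h.dr S))).add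
      (((k _ _ (h.L S 0)).add (k _ _ (h.L S 1))).add (k _ _ (h.L S 2))))
    refine (congrArg (Up s _ S.hU Z · _) (funext fun z => ?_)).mpr (this.mono fun p hp => ?_)
    · rw [jet, Fintype.sum_sum_type, Fin.sum_univ_two, Fin.sum_univ_three]
      rfl
    · have i := S.is s
      have b := i.bd_nq p (n + 1) v
      have bF := hF _ _ i M a h1 h2 p (hZ _ hp)
      generalize (fld S.hU s fun r => f (M, a, r)).nq p (n + 1) v = N at b ⊢
      have N0 := b.nonneg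
      have le : N ≤ (1 + 2 ^ n * F) * N := le_mul_of_one_le_left N0 (le_add_of_nonneg_right
        (by positivity))
      have e : ∀ {w}, (fld S.hU s fun r => f (M, a, r)).Bd p n w ((1 + 2 ^ n * F) * N) →
          C * (fld S.hU s fun r => f (M, a, r)).nq p n w ^ 2 ≤
            C * (P354XT.nw n * (1 + 2 ^ n * F) ^ 2) * N ^ 2 := fun k => by
        rw [i.nq_sq, mul_assoc, mul_assoc, ← mul_pow]
        exact mul_le_mul_of_nonneg_left (k.jq i) C0
      have e0 := pow_le_pow_left₀ (Ibp.md_nonneg _ _) b.md 2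
      have e1 := e (b.T.le le)
      have e2 := e ((b.R.add (bF.mul b.T)).le (by linarith))
      have e3 := fun j => e ((b.L j).le le)
      linarith [e3 0, e3 1, e3 2]

theorem ex_prim {f : ℝ × ℝ × ℝ → ℝ} (hf : ContDiff ℝ ∞ f) (r0 : ℝ) : ∃ H : (ℝ × ℝ) × ℝ → ℝ,
    ContDiff ℝ ∞ H ∧ ∀ q r, H (q, r) = ∫ x in r0..r, f (q.1, q.2, x) :=
  ⟨fun p => (p.2 - r0) * ∫ τ in (0 : ℝ)..1, f (p.1.1, p.1.2, (p.2 - r0) * τ + r0),
    (contDiff_snd.sub contDiff_const).mul (sm_int (g := fun z : ℝ × (ℝ × ℝ) × ℝ =>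
      f (z.2.1.1, z.2.1.2, (z.2.2 - r0) * z.1 + r0)) (by fun_prop) 0 1), fun q r => by
    simpa using mul_integral_comp_mul_add (f := fun x => f (q.1, q.2, x)) (a := 0) (b := 1)
      (r - r0) r0⟩

theorem comb {w1 w2 l p : ℝ → ℝ} {E δ1 δ C Cj B L P : ℝ}
    (h1 : Continuous w1 ∧ ∫ t in a..b, w1 t ≤ 3 * B) (h2 : Continuous w2 ∧ ∫ t in a..b, w2 t ≤ 3 * B)
    (c3 : Continuous l) (h3 : ∫ t in a..b, l t ≤ 2 * L)
    (h4 : Continuous p ∧ ∫ t in a..b, p t ≤ 3 * P) (E0 : 0 < E) (d1 : 0 < δ1) (d2 : 0 < δ)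
    (C0 : 0 ≤ C) (j0 : 0 ≤ Cj) (P0 : 0 ≤ P) :
    2 * E * ∫ t in a..b, (δ1 / (12 * E) * (w1 t + w2 t) + δ / (4 * E) * l t + C * p t) ≤
      1 * (δ1 * B + δ * L) + E * C * (6 + 8 * Cj) * P := by
  have i : ∀ {g : ℝ → ℝ}, Continuous g → IntervalIntegrable g volume a b :=
    fun h => h.intervalIntegrable _ _
  rw [integral_add (i (by have := h1.1; have := h2.1; fun_prop)) (i (by have := h4.1; fun_prop)),
    integral_add (i (by have := h1.1; have := h2.1; fun_prop)) (i (by fun_prop)),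
    intervalIntegral.integral_const_mul, intervalIntegral.integral_const_mul,
    intervalIntegral.integral_const_mul, integral_add (i h1.1) (i h2.1), mul_add, mul_add,
    ← mul_assoc, ← mul_assoc, show 2 * E * (δ1 / (12 * E)) = δ1 / 6 by field_simp; ring,
    show 2 * E * (δ / (4 * E)) = δ / 2 by field_simp; ring]
  have a2 := mul_le_mul_of_nonneg_left (add_le_add h1.2 h2.2) d1.le
  have a3 := mul_le_mul_of_nonneg_left h3 d2.le
  have a4 := mul_le_mul_of_nonneg_left h4.2 (mul_nonneg E0.le C0)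
  have a5 := mul_nonneg (mul_nonneg (mul_nonneg E0.le C0) j0) P0
  linarith

theorem lowr_gen {σ : Bool} {La : Ch → ℝ → ∀ {s}, Fam s → ℝ → ℝ → ℝ → ℝ}
    (h : ∀ s : ℤ, (s : ℝ) = sp σ → LOW s (sp σ) fun c p => La c p)
    (hL : ∀ U W f (S : St U W f) (s : ℤ) (G : Fam s) v (c : Ch) p a b x y H, Rp W G v →
      deriv c.H = f → (deriv c.J = fun _ => 0) → a ≤ b → 0 < x → x ≤ y → Icc a b ×ˢ Icc x y ⊆ W →
      Mj (fld S.hU s f) H (Icc a b ×ˢ Icc x y) (fd (fld S.hU s f) σ p c.M c.a v) →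
      Continuous (La c p G x y) ∧ (∀ t, 0 ≤ La c p G x y t) ∧
        ∫ t in a..b, La c p G x y t ≤ 2 * (fld S.hU s f).B.J H) : LOWR σ := by
  intro M0 a0 rm r0 p R2 C0 δ1 f ha sl h0 h1 hp hR hδ1 δ hδ
  obtain ⟨s0, hs0⟩ : ∃ s : ℤ, (s : ℝ) = sp σ := by
    cases σ
    exacts [⟨-2, by simp [sp]⟩, ⟨2, by simp [sp]⟩]
  obtain ⟨H, hH, eH⟩ := ex_prim sl.sm r0
  have E0 := Real.exp_pos (4 * C0)
  have r0p : 0 < r0 := by linarith [sl.lo, abs_nonneg a0]
  obtain ⟨ρ, ρ0, hρ⟩ := h s0 hs0 M0 a0 r0 s0 p R2 0 C0 (δ1 / (12 * Real.exp (4 * C0))) H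
    (fun _ => 0) ha (sl.lo.trans_le h0) h1 hp hR hH contDiff_const (by positivity)
  filter_upwards [hρ (δ / (4 * Real.exp (4 * C0))) (by positivity), eventually_ge_atTop R2]
    with R ⟨C, C0', hC⟩ hRR
  have R2R : R2 ≤ 2 * R := by linarith
  have r0R := hR.trans R2R
  obtain ⟨Cj, j0, hj⟩ := up_jet M0 a0 r0 (2 * R) sl.sm 4
  obtain ⟨d, d0, hd⟩ := Metric.eventually_nhds_iff.1
    ((isCompact_Icc (a := r0) (b := 2 * R)).eventually_forall_of_forall_eventually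
      (x₀ := (M0, a0)) (P := fun q r => 0 < f (q.1, q.2, r)) fun r hr =>
      (show Continuous fun z : (ℝ × ℝ) × ℝ => f (z.1.1, z.1.2, z.2) from
        sl.sm.continuous.comp (by fun_prop)).continuousAt.eventually
          (lt_mem_nhds (sl.adm r (h0.trans hr.1)).1))
  refine ⟨Real.exp (4 * C0) * C * (6 + 8 * Cj), min d (min ρ 1), by positivity, by positivity,
    fun M a hM hA U hU s hr hs t1 K box u hu HI HB HL HP HE w => ?_⟩
  obtain rfl : s = s0 := Int.cast_injective (hs.trans hs0.symm)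
  simp only [lt_min_iff] at hM hA
  have cf : ContDiff ℝ ∞ fun r => f (M, a, r) := P354XT.sm3 sl.sm M a
  obtain ⟨W, hW, sW, WU, G, rG⟩ := ex_rp hU (isCompact_Icc.prod isCompact_Icc) box hu
  have S : St U W fun r => f (M, a, r) := ⟨hU, hW, WU, hr, cf⟩
  have i := S.is s
  have e1 : deriv (ch H (fun _ => 0) (M, a)).H = fun r => f (M, a, r) := funext fun r => by
    simp only [ch, eH]
    exact (cf.continuous.integral_hasStrictDerivAt r0 r).hasDerivAt.deriv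
  have e2 : deriv (ch H (fun _ => 0) (M, a)).J = fun _ => 0 := funext fun r => deriv_const _ _
  have L := hC (M, a) hM.2.1.le hA.2.1.le (fun r k => by
    rw [neg_zero, eH]
    exact integral_nonneg k.1 fun x hx => (hd (y := (M, a)) (by
      rw [Prod.dist_eq]; exact max_lt hM.1 hA.1) x ⟨hx.1, hx.2.trans k.2⟩).le) G rG.js
  rw [← hs] at L
  have sub : ∀ j ≤ K, ∀ {x y}, r0 ≤ x → y ≤ 2 * R → nar t1 j ×ˢ Icc x y ⊆ W := fun j hj x y k k' =>
    (Set.prod_mono (Icc_subset_Icc (by linarith [j.cast_nonneg (α := ℝ)])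
      (by linarith [Nat.cast_le (α := ℝ).2 hj])) (Icc_subset_Icc k k')).trans sW
  have le : ∀ j : ℕ, t1 + j + 1 / 2 ≤ t1 + j + 3 / 2 := fun j => by linarith
  have kT := fun j hj => (rG.T S).W2 S (le j) hR (sub j hj le_rfl R2R) (w.B j hj) e1 e2
    fun p _ => ⟨_, (i.bd_nq p 3 u).T, i.nq_sq.le⟩
  have kF := fun j hj => (rG.L S 2).W2 S (le j) hR (sub j hj le_rfl R2R) (w.B j hj) e1 e2
    fun p _ => ⟨_, (i.bd_nq p 3 u).L 2, i.nq_sq.le⟩
  have kP := fun j hj => (rG.P S e1 e2 s s).W2 S (le j) r0R (sub j hj le_rfl le_rfl) (w.P j hj)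
    e1 e2 fun p _ => ⟨_, i.bd_nq p 2 _, i.nq_sq.le⟩
  have kL := fun j hj => hL U W _ S s G u _ p _ _ _ _ _ rG e1 e2 (le j) (r0p.trans_le hR) R2R
    (sub j hj hR le_rfl) (w.L j hj)
  have kE := fun j hj' => (hj M a hM.2.2.le hA.2.2.le U W S _ (sub j hj' le_rfl le_rfl)
    (fun _ k => k.2) s G u rG).int (le j) r0R ((sub j hj' le_rfl le_rfl).trans WU)
    (by simp only [i.nq_sq]; exact mj_smul i (w.E j hj') j0)
  have c1 := (kT 0 K.zero_le).1.add (kF 0 K.zero_le).1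
  have c2 := (kL 0 K.zero_le).1
  have c3 := (kP 0 K.zero_le).1
  have cW := fun a b => (rG.W2 S (le 0) hR (sub 0 K.zero_le le_rfl R2R) (w.B 0 K.zero_le) e1 e2
    fun p _ => ⟨_, (i.bd_nq p 3 u).mono (by norm_num), i.nq_sq.le⟩).1.intervalIntegrable
      (μ := volume) a b
  refine L.slab C0' (rG.W2 S (le 0) hR (sub 0 K.zero_le le_rfl R2R) (w.B 0 K.zero_le) e1 e2
    fun p _ => ⟨_, (i.bd_nq p 3 u).mono (by norm_num), i.nq_sq.le⟩).1
    (((continuous_const.mul c1).add (continuous_const.mul c2)).add (continuous_const.mul c3))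
    (Jt_cont rG.js 4 _ _) (W2_nonneg _ _ hR) (fun t => add_nonneg (add_nonneg (mul_nonneg
      (by positivity) (add_nonneg (W2_nonneg _ _ hR t) (W2_nonneg _ _ hR t))) (mul_nonneg
      (by positivity) ((kL 0 K.zero_le).2.1 t))) (mul_nonneg C0' (W2_nonneg _ _ r0R t)))
    (Jt_nonneg r0R 4 G) (t1 := t1) (fun j j1 j2 => ?_) (fun j hj => ?_) fun j hj => ?_
  · have a1 : (1 : ℝ) ≤ j := Nat.one_le_cast.2 j1
    have a2 : (j : ℝ) + 1 ≤ K := by exact_mod_cast j2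
    refine (rG.lo S (by linarith) hR ((Set.prod_mono (Icc_subset_Icc (by linarith) (by linarith))
      (Icc_subset_Icc le_rfl R2R)).trans sW) (w.I j j1 j2)).trans (integral_mono_on (by linarith)
      ((Jt_cont rG.js 0 _ _).intervalIntegrable _ _) (cW _ _) fun t _ => ?_)
    refine le_trans (le_of_eq ?_) (Finset.single_le_sum (fun j _ => qd_nonneg hR
      (fun _ _ => zero_le_one) _ t) (Finset.mem_range.2 three_pos))
    simp only [qd, one_mul, Function.iterate_zero, id]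
  · exact comb (kT j hj) (kF j hj) c2 (kL j hj).2.2 (kP j hj) E0 hδ1 hδ C0' j0
      (mj_nonneg i (w.P j hj))
  · have a1 := mul_le_mul_of_nonneg_left (kE j hj) (mul_nonneg E0.le C0')
    have a2 := mul_nonneg (mul_nonneg E0.le C0') (mj_nonneg i (w.E j hj))
    rw [Ibp.J_rl] at a1
    unfold Jt
    linarith

/-- The estimate of low order on slabs, for both spins. -/
theorem lowr (hp : BFP) (hm : BFM) (σ : Bool) : LOWR σ := by
  cases σ
  · refine lowr_gen (La := fun c p => c.Lm p) (fun s hs => lowM hm (by simp [hs, sp]))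
      fun U W f S s G v c p a b x y H h e1 e2 hab x0 hxy sZ m => ?_
    have r := h.op S e1 e2 _ opC_sm
    have g1 : ContinuousOn (fun r : ℝ => r ^ p / r) (Icc x y) := fun r hr =>
      ContinuousAt.continuousWithinAt (by
        have : r ≠ 0 := (x0.trans_le hr.1).ne'
        fun_prop (disch := simp [this]))
    have g0 : ∀ r ∈ Icc x y, 0 ≤ r ^ p / r := fun r hr => by
      have := x0.trans_le hr.1
      positivity
    exact ⟨qd_cont r.js hxy g1, qd_nonneg hxy g0 _, (r.qd S hab hxy sZ m g1 g0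
      fun _ _ => le_rfl).trans (le_mul_of_one_le_left (mj_nonneg (S.is s) m) one_le_two)⟩
  · refine lowr_gen (La := fun c p => c.Lp p) (fun s hs => lowP hp (by simp [hs, sp]))
      fun U W f S s G v c p a b x y H h e1 e2 hab x0 hxy sZ m => ?_
    have r := h.op S e1 e2 _ (opD_sm (e := .one) trivial)
    have g1 : ContinuousOn (fun r : ℝ => r ^ p * r ^ 2 / r ^ 7) (Icc x y) := fun r hr =>
      ContinuousAt.continuousWithinAt (by
        have : r ≠ 0 := (x0.trans_le hr.1).ne'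
        fun_prop (disch := simp [this]))
    have g2 : ContinuousOn (fun r : ℝ => r ^ p / r ^ 7) (Icc x y) := fun r hr =>
      ContinuousAt.continuousWithinAt (by
        have : r ≠ 0 := (x0.trans_le hr.1).ne'
        fun_prop (disch := simp [this]))
    have g0 : ∀ r ∈ Icc x y, 0 ≤ r ^ p * r ^ 2 / r ^ 7 ∧ 0 ≤ r ^ p / r ^ 7 := fun r hr => by
      have := x0.trans_le hr.1
      exact ⟨by positivity, by positivity⟩
    have c1 := qd_cont r.js hxy g1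
    have c2 := qd_cont h.js hxy g2
    refine ⟨c1.add c2, fun t => add_nonneg (qd_nonneg hxy (fun r k => (g0 r k).1) _ t)
      (qd_nonneg hxy (fun r k => (g0 r k).2) _ t), (integral_add (c1.intervalIntegrable _ _)
        (c2.intervalIntegrable _ _)).trans_le ((add_le_add ?_ ?_).trans_eq (two_mul _).symm)⟩
    · exact r.qd S hab hxy sZ m g1 (fun r k => (g0 r k).1) fun _ k =>
        le_add_of_nonneg_right (mul_nonneg (g0 _ k.2).2 (sq_nonneg _))
    · exact h.qd S hab hxy sZ m g2 (fun r k => (g0 r k).2) fun _ k =>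
        le_add_of_nonneg_left (mul_nonneg (g0 _ k.2).1 (sq_nonneg _))

end Vale.Agent.P354XL
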