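import Vale.Agent.P354XL.Ord

/-!
The estimate of low order for all jets of one field: interpolation, the inequality of Hardy at the
inner end, and the sum over the time derivatives.
-/

open scoped ContDiff
open Set Filter

noncomputable section

namespace Vale.Agent.P354XL

open Vale.Agent.P354XI Vale.Agent.P354XI.Ibp Vale.Agent.P354XG
open Vale.Agent.P354XT (Fld up dn bp nw Wl)
open Vale.Agent.P354YH (Jw Bx Inn Wb Zd)

section low
variable {K : ℕ} {e b i f b' i' g : ℕ → ℝ} {C0 C C' c : ℝ}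

theorem low_add (h : Low K e b i f C0 1 C) (h' : Low K e b' i' f C0 1 C') :
    Low K e (fun j => b j + b' j) (fun j => i j + i' j) f C0 1 (C + C') := by
  intro ε e0 e1 p q l1 l2 u1 u2 u3 u4 u5
  have a := h ε e0 e1 p q l1 l2 u1 u2 u3 u4 u5
  have a' := h' ε e0 e1 p q l1 l2 u1 u2 u3 u4 u5
  simp only [mul_add, add_mul, add_div, Finset.sum_add_distrib] at a a' ⊢
  linarith

theorem low_smul (h : Low K e b i f C0 1 C) (hc : 0 ≤ c) :
    Low K e (fun j => c * b j) (fun j => c * i j) f C0 1 (c * C) := by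
  intro ε e0 e1 p q l1 l2 u1 u2 u3 u4 u5
  have a := mul_le_mul_of_nonneg_left (h ε e0 e1 p q l1 l2 u1 u2 u3 u4 u5) hc
  simp only [one_mul, mul_add, mul_assoc, mul_left_comm _ c, mul_div_assoc, Finset.sum_add_distrib,
    ← Finset.mul_sum] at a ⊢
  exact a

theorem low_self (h : ∀ j ≤ K, 0 ≤ g j) : Low K e g g f C0 1 0 := by
  intro ε _ _ p q l1 l2 _ _ _ _ _
  simp only [one_mul, zero_mul, zero_div, add_zero]
  exact Finset.sum_le_sum_of_subset_of_nonneg (Finset.Ico_subset_Ico (by omega) (by omega))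
    fun j hj _ => mul_nonneg (Real.exp_pos _).le (h j (by have := Finset.mem_Ico.1 hj; omega))

theorem low_sum {ι : Type} (s : Finset ι) {b i : ι → ℕ → ℝ}
    (h : ∀ k ∈ s, Low K e (b k) (i k) f C0 1 C) :
    Low K e (fun j => ∑ k ∈ s, b k j) (fun j => ∑ k ∈ s, i k j) f C0 1 (s.card * C) := by
  classical
  induction s using Finset.induction_on with
  | empty => simpa using low_self (g := fun _ => 0) fun _ _ => le_rfl
  | insert a s ha ih =>
    simp only [Finset.sum_insert ha, Finset.card_insert_of_notMem ha, Nat.cast_succ, add_mul,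
      one_mul, add_comm _ C]
    exact low_add (h a (Finset.mem_insert_self _ _)) (ih fun k hk => h k (Finset.mem_insert_of_mem hk))

end low

variable {A : Type} [CommRing A] [Algebra ℂ A] {Φ : Fld A} {e c c1 ch : ℝ → ℝ} {r0 rb F b : ℝ}

theorem Jw_rl (e c : ℝ → ℝ) (κ : ℝ) (G : A) : Jw Φ e c (rl A κ * G) = κ * Jw Φ e c G := by
  rw [Jw, mul_left_comm, J_rl, Jw]

theorem jw_le (h : Bx Φ e r0 rb F) (hc : P354YH.Cs r0 rb c) (h1 : P354YH.Cs r0 rb c1) {G G1 : A}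
    {α : ℝ} (k : ∀ x, e (Φ.pr x).1 ≠ 0 → (Φ.pr x).2 ∈ Icc r0 rb →
      c (Φ.pr x).2 * Φ.B.val x G ≤ α * (c1 (Φ.pr x).2 * Φ.B.val x G1)) :
    Jw Φ e c G ≤ α * Jw Φ e c1 G1 := by
  have B := h.is.B
  rw [Jw, Jw, ← J_rl]
  refine B.J_le (Φ.B.K.mul_mem_right _ (h.K hc))
    (Φ.B.K.mul_mem_left _ (Φ.B.K.mul_mem_right _ (h.K h1))) fun x => ?_
  rw [B.val_mul (B.re_rl _), B.val_rl, h.is.val_w h.sm hc.sm, h.is.val_w h.sm h1.sm]
  by_cases z : (Φ.pr x).2 ∈ Icc r0 rb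
  · by_cases t : e (Φ.pr x).1 = 0
    · simp [t]
    · linarith [mul_le_mul_of_nonneg_left (k x t z) (h.pos (Φ.pr x).1)]
  · rw [hc.out _ z, h1.out _ z]; simp

theorem bx_ex (i : Φ.Is) {t1 x y : ℝ} {K j : ℕ} (box : Icc t1 (t1 + K + 2) ×ˢ Icc x y ⊆ Φ.Om)
    (hj : j ≤ K) (f0 : ∀ r ∈ Icc x y, |Φ.f r| ≤ F ∧ |deriv Φ.f r| ≤ F) : Bx Φ (ej t1 j) x y F :=
  ⟨i, ej_sm t1 j, fun _ => P354XT.bp_nonneg _, ⟨_, _, (Set.prod_mono (slab_sub hj) le_rfl).trans box,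
    fun _ => ej_out⟩, f0⟩

theorem T_P (i : Φ.Is) (s k M a : ℝ) (u : A) : Φ.T (Φ.P s k M a u) = Φ.P s k M a (Φ.T u) := by
  simp only [Fld.P, Fld.De, Fld.Kh, map_add, map_sub, map_sum, D_mul, D_rl, D_alg, D_num, D_one,
    i.T_r, i.Tw, i.TR, i.TL, mul_zero, add_zero, sub_self]

theorem wd_P (i : Φ.Is) (s k M a : ℝ) (u : A) (n : ℕ) :
    Φ.P s k M a (Φ.wd (List.replicate n 0) u) = Φ.wd (List.replicate n 0) (Φ.P s k M a u) := by
  induction n with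
  | zero => rfl
  | succ n ih => exact (T_P i s k M a _).symm.trans (congrArg Φ.T ih)

/-- The inequality of Hardy at the inner end. -/
theorem hardy (hch : Inn r0 ch) (hb : r0 + 3 ≤ b) {η : ℝ} (η0 : 0 < η) (η1 : η ≤ 1) : ∃ κ, 0 ≤ κ ∧
    ∀ (A : Type) [CommRing A] [Algebra ℂ A] (Φ : Fld A) e rb F, Bx Φ e r0 rb F → b + 1 ≤ rb → ∀ y,
    Jw Φ e (Wb ch b) (Φ.sq y) ≤ 36 * η ^ 2 * Jw Φ e (Wb ch b) (Φ.sq (Zd Φ y)) +
      κ * Jw Φ e (fun r => up (r0 + η) (r0 + 2 * η) r * dn b (b + 1) r) (Φ.sq y) := by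
  obtain ⟨ζ, hζ⟩ : ∃ ζ, ζ = dn (r0 + 2 * η) (r0 + 3 * η) := ⟨_, rfl⟩
  obtain ⟨c, hc⟩ : ∃ c : ℝ → ℝ, c = fun r => up (r0 + η) (r0 + 2 * η) r * dn b (b + 1) r := ⟨_, rfl⟩
  have z1 : ∀ r, r ≤ r0 + 2 * η → ζ r = 1 := fun r k => hζ ▸ P354XT.dn_one (by linarith) k
  have z0 : ∀ r, r0 + 3 * η ≤ r → ζ r = 0 := fun r k => hζ ▸ P354XT.dn_zero (by linarith) k
  have zs : ContDiff ℝ ∞ ζ := hζ ▸ P354XT.dn_sm _ _
  have zn : ∀ r, 0 ≤ ζ r ∧ ζ r ≤ 1 := fun r => hζ ▸ ⟨P354XT.dn_nonneg .., P354XT.dn_le ..⟩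
  have cn : ∀ r, 0 ≤ c r := fun r => hc ▸ mul_nonneg (P354XT.up_nonneg ..) (P354XT.dn_nonneg ..)
  have m0 := hch.nn (b + 1)
  obtain ⟨κ1, k1, hk1⟩ := P354YH.dom (g := fun r => (r - r0) * (ch r * deriv ζ r)) (c := c)
    (x := r0 + 2 * η) (y := r0 + 3 * η) ((continuous_id.sub continuous_const).mul
      (hch.sm.continuous.mul (Fld.sm_der zs).continuous))
    (fun r k => by rw [P354XT.der_out z1 z0 r k, mul_zero, mul_zero]) cn one_pos fun r k => by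
      rw [hc]; simp only []
      rw [P354XT.up_one (by linarith) k.1, P354XT.dn_one (by linarith) (by linarith [k.2]), mul_one]
  rw [← hc]
  refine ⟨2 * κ1 + ch (b + 1), by positivity, fun A _ _ Φ e rb F h hr y => ?_⟩
  have s1 : P354YH.Cs r0 rb fun r => ch r * ζ r := hch.cs zs fun r k => z0 r (by linarith)
  have s2 : P354YH.Cs r0 rb c := hc ▸ ⟨(P354XT.up_sm _ _).mul (P354XT.dn_sm _ _), fun r k => by
    rcases not_and_or.1 k with k | k
    · rw [P354XT.up_zero (by linarith) (by linarith [not_le.1 k]), zero_mul]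
    · rw [P354XT.dn_zero (by linarith) (by linarith [not_le.1 k]), mul_zero]⟩
  have s3 : P354YH.Cs r0 rb fun r => (r - r0) * (ch r * ζ r) :=
    ⟨(contDiff_id.sub contDiff_const).mul s1.sm, fun r k => by rw [s1.out r k, mul_zero]⟩
  have s4 := hch.wcs (b := b) hr
  have n1 : ∀ r, 0 ≤ ch r * ζ r := fun r => mul_nonneg (hch.nn r) (zn r).1
  have q0 : ∀ (x : Φ.B.Pt) y, 0 ≤ Φ.B.val x (Φ.sq y) := fun x y => by
    rw [h.is.val_sq]; exact sq_nonneg _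
  have a2 := h.skZ.self h.is.B (h.K s3) (h.re s3) y
  rw [h.Z_w s3] at a2
  have a3 := h.yg s3 s1 n1 (κ := 3 * η) (α := 9 * η ^ 2) (β := 1 / 4) (by positivity) (by norm_num)
    (fun r => by
      rw [abs_mul, abs_of_nonneg (n1 r)]
      rcases le_or_gt r r0 with k | k
      · rw [hch.zero r k]; simp
      rcases le_or_gt (r0 + 3 * η) r with k' | k'
      · rw [z0 r k']; simp
      exact mul_le_mul_of_nonneg_right (abs_le.2 ⟨by linarith, by linarith⟩) (n1 r))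
    (by linarith) (Zd Φ y) y
  have a4 := h.le3 s1 s3.der s2 s2 (G := Φ.sq y) (G1 := Φ.sq y) (G2 := Φ.sq y) (G3 := Φ.sq y)
    (α := 1) (β := κ1) (γ := 0) fun x k => by
      have d1 := (((hasDerivAt_id (Φ.pr x).2).sub_const r0).mul
        ((hch.sm.differentiable (by simp) _).hasDerivAt.mul
          (zs.differentiable (by simp) _).hasDerivAt)).deriv
      have d2 := mul_nonneg (sub_nonneg.2 k.1)
        (mul_nonneg (hch.mono.deriv_nonneg (x := (Φ.pr x).2)) (zn (Φ.pr x).2).1)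
      have d3 : ch (Φ.pr x).2 * ζ (Φ.pr x).2 ≤
          deriv (fun r => (r - r0) * (ch r * ζ r)) (Φ.pr x).2 + κ1 * c (Φ.pr x).2 := by
        refine le_trans ?_ (add_le_add_left d1.ge _)
        simp only [id, Pi.mul_apply]
        linarith [(abs_le.1 (hk1 (Φ.pr x).2)).1]
      linarith [mul_le_mul_of_nonneg_right d3 (q0 x y)]
  have a5 := h.le3 s4 s1 s2 s2 (G := Φ.sq y) (G1 := Φ.sq y) (G2 := Φ.sq y) (G3 := Φ.sq y) (α := 1)
    (β := ch (b + 1)) (γ := 0) fun x _ => by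
      have d1 : Wb ch b (Φ.pr x).2 ≤ ch (Φ.pr x).2 * ζ (Φ.pr x).2 + ch (b + 1) * c (Φ.pr x).2 := by
        rcases le_total (Φ.pr x).2 (r0 + 2 * η) with k | k
        · rw [z1 _ k, Inn.weq (by linarith)]; linarith [mul_nonneg m0 (cn (Φ.pr x).2)]
        · refine le_add_of_nonneg_of_le (n1 _) ?_
          rw [hc, Wb]; simp only []
          rw [P354XT.up_one (by linarith) k, one_mul]
          rcases le_total (Φ.pr x).2 (b + 1) with k' | k'
          · exact mul_le_mul_of_nonneg_right (hch.mono k') (P354XT.dn_nonneg ..)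
          · rw [P354XT.dn_zero (by linarith) k', mul_zero, mul_zero]
      linarith [mul_le_mul_of_nonneg_right d1 (q0 x y)]
  have a6 := h.le1 s1 s4 (G := Φ.sq (Zd Φ y)) (G1 := Φ.sq (Zd Φ y)) (α := 1) fun x _ => by
    rw [one_mul]
    refine mul_le_mul_of_nonneg_right ?_ (q0 x _)
    rcases le_total (Φ.pr x).2 b with k | k
    · rw [Inn.weq k]; exact mul_le_of_le_one_right (hch.nn _) (zn _).2
    · rw [z0 _ (by linarith), mul_zero]; exact hch.wnn _ _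
  have a7 : Φ.B.nsq (Φ.tm e * Φ.rad (deriv fun r => (r - r0) * (ch r * ζ r))) y =
    Jw Φ e (deriv fun r => (r - r0) * (ch r * ζ r)) (Φ.sq y) := rfl
  have b4 := mul_le_mul_of_nonneg_left a6 (by positivity : 0 ≤ 36 * η ^ 2)
  linarith [(abs_le.1 a3).1]

/-- The pointwise hypotheses on the field u, with the density Y and the far densities La. -/
structure Rw (Φ : Fld A) (σ : Bool) (p M a r0 R2 R y t1 F C1 C3 : ℝ) (K m : ℕ) (u Y : A)
    (La : ℕ → A) (h : ℕ → ℝ) (cl : ℝ → ℝ) : Prop where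
  is : Φ.Is
  box : Icc t1 (t1 + K + 2) ×ˢ Icc r0 y ⊆ Φ.Om
  RR : R2 ≤ 2 * R
  hy : 2 * R + 1 ≤ y
  f0 : ∀ r ∈ Icc r0 (R2 + 1), |Φ.f r| ≤ F ∧ |deriv Φ.f r| ≤ F
  sp : u ∈ Φ.Sp
  Y0 : ∀ z, 0 ≤ Φ.B.val z Y
  L0 : ∀ i z, 0 ≤ Φ.B.val z (La i)
  h0 : ∀ j, 0 ≤ h j
  cs : P354YH.Cs r0 y cl
  c0 : ∀ r, 0 ≤ cl r
  B : ∀ j ≤ K, ∀ z, Φ.pr z ∈ Icc (t1 + j) (t1 + j + 2) ×ˢ Icc r0 R2 →
    Φ.Bd z (m + 4) u √(C1 * Φ.B.val z Y)
  E : ∀ j ≤ K, ∀ z, Φ.pr z ∈ Icc (t1 + j) (t1 + j + 2) ×ˢ Icc r0 (2 * R) →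
    Φ.Bd z (m + 4) u √(C3 * Φ.B.val z Y) ∧
    Φ.Bd z (m + 2) (Φ.P Φ.s Φ.s M a u) √(C3 * (h j * Φ.B.val z Y))
  L : ∀ i ≤ m, ∀ z, (Φ.pr z).2 ∈ Icc R2 (2 * R) →
    fd Φ σ p M a (Φ.wd (List.replicate i 0) u) z ≤ cl (Φ.pr z).2 * Φ.B.val z (La i)

theorem row (hch : Inn r0 ch) (F0 : 0 ≤ F) (m : ℕ) {R2 C1 δs η0 : ℝ} (hb : r0 + 3 ≤ b)
    (hR : b + m + 1 ≤ R2) (c1 : 0 ≤ C1) (hδ : 0 < δs) (hη : 0 < η0) :
    ∃ r δ1 CA, r0 < r ∧ r ≤ r0 + η0 ∧ 0 < δ1 ∧ 0 < CA ∧ ∀ δ C C3, 0 < δ → 0 ≤ C → 0 ≤ C3 →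
    ∃ C2, 0 ≤ C2 ∧ ∀ (A : Type) [CommRing A] [Algebra ℂ A] (Φ : Fld A) σ p M a R C0 y t1 K u Y La h
      cl, LowJ Φ σ p M a r R2 R C0 δ1 (δ / CA) C → Rw Φ σ p M a r0 R2 R y t1 F C1 C3 K m u Y La h cl →
      Low K (fun j => Jw Φ (ej t1 j) (Wb ch (2 * R)) Y)
        (fun j => δs * Jw Φ (ej t1 j) (Wb ch R2) Y +
          δ * ∑ i ∈ Finset.range (m + 1), Jw Φ (ej t1 j) cl (La i))
        (fun j => Jw Φ (ej t1 j) (Wb ch b) (Φ.jq m u))
        (fun j => h j * Jw Φ (ej t1 j) (Wb ch (2 * R)) Y) C0 1 C2 := by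
  have m0 : (0 : ℝ) ≤ m := m.cast_nonneg
  obtain ⟨W, w, hw⟩ : ∃ W : ℕ → ℝ, (∀ n, 0 ≤ W n) ∧ W = nw :=
    ⟨_, fun n => zero_le_one.trans (P354XT.nw_pos n), rfl⟩
  have w1 := w (m + 1)
  have w2 := w 2
  have w3 := w 3
  have w4 := w 4
  obtain ⟨Ca, a0, ha⟩ := P354YH.intp hch F0 m b hb (δs / (4 * (W (m + 1) * C1 + 1))) (by positivity)
  obtain ⟨η, η1, η2, η3, η4⟩ : ∃ η : ℝ, 0 < η ∧ η ≤ 1 ∧ η ≤ η0 ∧
      Ca * ((m + 1) * (36 * η ^ 2 * ((1 + 2 * F) ^ 2 * C1))) ≤ δs / 4 := by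
    set N := Ca * ((m + 1) * (36 * ((1 + 2 * F) ^ 2 * C1))) with hN
    have N0 : 0 ≤ N := by positivity
    refine ⟨min (min 1 η0) (δs / (4 * (N + 1))), by positivity, (min_le_left _ _).trans
      (min_le_left _ _), (min_le_left _ _).trans (min_le_right _ _), ?_⟩
    have e1 := (min_le_left _ _).trans (min_le_left 1 η0) (a := min _ (δs / (4 * (N + 1))))
    have e2 := (le_div_iff₀ (by positivity)).1 (min_le_right (min 1 η0) (δs / (4 * (N + 1))))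
    have e0 : 0 < min (min 1 η0) (δs / (4 * (N + 1))) := by positivity
    generalize min (min 1 η0) (δs / (4 * (N + 1))) = η at e0 e1 e2
    have : Ca * ((m + 1) * (36 * η ^ 2 * ((1 + 2 * F) ^ 2 * C1))) = N * η * η := by rw [hN]; ring
    nlinarith [mul_nonneg N0 e0.le]
  obtain ⟨κ, κ0, hκ⟩ := hardy hch (b := b + m) (by linarith) η1 η2
  have p0 := hch.pos (r0 + η) (by linarith)
  set N := Ca * κ * ((m + 1) * (W 3 * C1 / ch (r0 + η))) with hN
  have N0 : 0 ≤ N := by positivity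
  refine ⟨r0 + η, δs / (2 * (N + 1)), Ca * κ + 1, by linarith, by linarith, by positivity,
    by positivity, fun δ C C3 δ0 hC c3 => ⟨Ca * κ * ((m + 1) * C) * ((W 2 + W 4) * C3 / ch (r0 + η)),
      by positivity, fun A _ _ Φ σ p M a R C0 y t1 K u Y La h cl L H => ?_⟩⟩
  have i := H.is
  have RR := H.RR
  have hy := H.hy
  have bx := fun j (hj : j ≤ K) => bx_ex i ((Set.prod_mono le_rfl (Icc_subset_Icc le_rfl
    (show R2 + 1 ≤ y by linarith))).trans H.box) hj H.f0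
  have dm : ∀ {β κ' : ℝ} {g : ℕ → ℝ} {n : ℕ} {v : A}, β + 1 ≤ y → (∀ j, 0 ≤ g j) → 0 ≤ κ' →
      (∀ j ≤ K, ∀ z, Φ.pr z ∈ Icc (t1 + j) (t1 + j + 2) ×ˢ Icc r0 β →
        Φ.Bd z n v √(κ' * (g j * Φ.B.val z Y))) → Dm Φ t1 K r0 y (Wb ch β)
      (fun j => rl A (W n * κ' / ch (r0 + η) * g j) * Y) (r0 + η) β
      fun z => Φ.B.val z (Φ.jq n v) := fun {β κ' g n v} h1 g0 k0 k => by
    have e := fun t z => (i.B.val_mul (i.B.re_rl t) z Y).trans (congrArg (· * _) (i.B.val_rl z t))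
    have n0 := w n
    refine ⟨hch.wcs h1, hch.wnn _, fun j z => by
      rw [e]; exact mul_nonneg (mul_nonneg (by positivity) (g0 j)) (H.Y0 z), fun j hj z hz => ?_⟩
    have p1 := mul_nonneg k0 (mul_nonneg (g0 j) (H.Y0 z))
    refine ((k j hj z ⟨⟨by linarith [hz.1.1], by linarith [hz.1.2]⟩, by linarith [hz.2.1],
      hz.2.2⟩).jq i).trans ?_
    rw [Real.sq_sqrt p1, e, Inn.weq hz.2.2, ← hw]
    refine le_trans (le_of_eq ?_) (mul_le_mul_of_nonneg_right (hch.mono hz.2.1)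
      (mul_nonneg (mul_nonneg (by positivity) (g0 j)) (H.Y0 z)))
    field_simp
  have wi : Wl (fun r => up (r0 + η) (r0 + 2 * η) r * dn (b + m) (b + m + 1) r) (r0 + η) R2 :=
    ⟨(P354XT.up_sm _ _).mul (P354XT.dn_sm _ _), fun _ => mul_nonneg (P354XT.up_nonneg ..)
      (P354XT.dn_nonneg ..), fun _ => mul_le_one₀ (P354XT.up_le ..) (P354XT.dn_nonneg ..)
      (P354XT.dn_le ..), fun r k => by
        rcases not_and_or.1 k with k | k
        · rw [P354XT.up_zero (by linarith) (not_le.1 k).le, zero_mul]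
        · rw [P354XT.dn_zero (by linarith) (by linarith [not_le.1 k]), mul_zero]⟩
  have L1 := low_sum (Finset.range (m + 1)) fun n hn => L t1 K r0 y H.box (by linarith)
    (by linarith) _ (i.wd_sp (List.replicate n 0) H.sp) _ _ _ _ _ _ (fun _ => La n) _ _ wi
    (dm (g := fun _ => 1) (by linarith) (fun _ => zero_le_one) c1 fun j hj z hz => by
      simpa using (H.B j hj z hz).wd (by simp at hn ⊢; omega))
    ⟨H.cs, H.c0, fun _ => H.L0 n, fun _ _ z hz => H.L n (by simp at hn; omega) z hz.2⟩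
    (dm hy H.h0 c3 fun j hj z hz => by
      rw [wd_P i]; exact (H.E j hj z hz).2.wd (by simp at hn ⊢; omega))
    (dm (g := fun _ => 1) hy (fun _ => zero_le_one) c3 fun j hj z hz => by
      simpa using (H.E j hj z hz).1.wd (by simp at hn ⊢; omega))
  have q0 : ∀ (z : Φ.B.Pt) y, 0 ≤ Φ.B.val z (Φ.sq y) := fun z y => by
    rw [i.val_sq]; exact sq_nonneg _
  have y0 : ∀ j ≤ K, 0 ≤ Jw Φ (ej t1 j) (Wb ch R2) Y := fun j hj =>
    (bx j hj).nn (hch.wcs le_rfl) (hch.wnn _) H.Y0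
  obtain ⟨F', hF⟩ : ∃ F', ∀ r ∈ Icc r0 y, |Φ.f r| ≤ F' ∧ |deriv Φ.f r| ≤ F' := by
    obtain ⟨a, ha⟩ := (isCompact_Icc (a := r0) (b := y)).exists_bound_of_continuousOn
      (i.sf.continuous.prodMk (Fld.sm_der i.sf).continuous).continuousOn
    exact ⟨a, fun r k => max_le_iff.1 (ha r k)⟩
  have bx' := fun j (hj : j ≤ K) => bx_ex i H.box hj hF
  have e0 : ∀ j ≤ K, 0 ≤ Jw Φ (ej t1 j) (Wb ch (2 * R)) Y := fun j hj =>
    (bx' j hj).nn (hch.wcs hy) (hch.wnn _) H.Y0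
  have cmp : ∀ j ≤ K, ∀ {G : A} {α : ℝ}, 0 ≤ α → (∀ z, 0 ≤ Φ.B.val z G) →
      (∀ z, (Φ.pr z).2 ∈ Icc r0 (R2 + 1) → Φ.Bd z (m + 4) u √(C1 * Φ.B.val z Y) →
        Φ.B.val z G ≤ α * Φ.B.val z Y) →
      Jw Φ (ej t1 j) (Wb ch (b + m)) G ≤ α * Jw Φ (ej t1 j) (Wb ch R2) Y :=
    fun j hj G α α0 G0 k => jw_le (bx j hj) (hch.wcs (by linarith)) (hch.wcs le_rfl) fun z t r => by
      have p1 := mul_nonneg α0 (H.Y0 z)
      rw [mul_left_comm]
      rcases le_total (Φ.pr z).2 R2 with k' | k'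
      · exact mul_le_mul (hch.wmono (by linarith) _) (k z r (H.B j hj z
          ⟨by_contra fun c => t (ej_out c), r.1, k'⟩)) (G0 z) (hch.wnn _ _)
      · rw [Wb, P354XT.dn_zero (by linarith) (by linarith), mul_zero, zero_mul]
        exact mul_nonneg (hch.wnn _ _) p1
  refine low_congr (low_add (low_self (g := fun j => δs / 2 * Jw Φ (ej t1 j) (Wb ch R2) Y)
    fun j hj => mul_nonneg (by positivity) (y0 j hj)) (low_smul L1 (mul_nonneg a0 κ0)))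
    (fun j hj => ?_) (fun j hj => ?_) fun j hj => ?_
  · have b1 := ha A Φ _ _ (bx j hj) (by linarith) u
    have b2 := cmp j hj (G := Φ.jq (m + 1) u) (mul_nonneg w1 c1) (fun _ => i.jq_nonneg)
      fun z _ k => ((k.mono (by omega)).jq i).trans_eq (by
        rw [Real.sq_sqrt (mul_nonneg c1 (H.Y0 z)), hw, mul_assoc])
    have b3 := Finset.sum_le_sum (s := Finset.range (m + 1)) fun n hn =>
      (hκ A Φ _ _ _ (bx j hj) (by linarith) (Φ.wd (List.replicate n 0) u)).trans (add_le_add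
        (mul_le_mul_of_nonneg_left (cmp j hj (α := (1 + 2 * F) ^ 2 * C1) (by positivity)
          (fun z => q0 z _) fun z r k => by
            rw [i.val_sq, mul_assoc, ← Real.sq_sqrt (mul_nonneg c1 (H.Y0 z)), ← mul_pow]
            exact pow_le_pow_left₀ (md_nonneg _ _) ((bx j hj).bZ r zero_le_one
              (k.wd (by simp at hn ⊢; omega))).md 2) (by positivity)) le_rfl)
    rw [Finset.sum_add_distrib, Finset.sum_const, Finset.card_range, nsmul_eq_mul,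
      ← Finset.mul_sum, Nat.cast_succ] at b3
    have b4 := mul_le_mul_of_nonneg_left b3 a0
    have b5 := mul_le_mul_of_nonneg_right η4 (y0 j hj)
    have b6 := mul_le_mul_of_nonneg_left b2
      (show 0 ≤ δs / (4 * (W (m + 1) * C1 + 1)) by positivity)
    have b7 : δs / (4 * (W (m + 1) * C1 + 1)) * (W (m + 1) * C1) ≤ δs / 4 := by
      rw [div_mul_eq_mul_div, div_le_div_iff₀ (by positivity) (by positivity)]
      linarith
    have b8 := mul_le_mul_of_nonneg_right b7 (y0 j hj)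
    linarith
  · have b1 : δs / (2 * (N + 1)) * N ≤ δs / 2 := by
      rw [div_mul_eq_mul_div, div_le_div_iff₀ (by positivity) (by positivity)]
      linarith
    have b2 : Ca * κ * (δ / (Ca * κ + 1)) ≤ δ := by
      rw [← mul_div_assoc, div_le_iff₀ (by positivity)]
      linarith
    have b3 := mul_le_mul_of_nonneg_right b1 (y0 j hj)
    have b4 := mul_le_mul_of_nonneg_right b2 (Finset.sum_nonneg (s := Finset.range (m + 1))
      fun n _ => (bx' j hj).nn H.cs H.c0 (H.L0 n))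
    have b5 : 0 ≤ Ca * κ * ((m + 1) * C) * (W 4 * C3 / ch (r0 + η)) *
        (h j * Jw Φ (ej t1 j) (Wb ch (2 * R)) Y) :=
      mul_nonneg (by positivity) (mul_nonneg (H.h0 j) (e0 j hj))
    simp only [Jw_rl, Finset.sum_add_distrib, Finset.sum_const, Finset.card_range, nsmul_eq_mul,
      ← Finset.mul_sum, Nat.cast_succ, add_mul, add_div]
    rw [hN] at b3
    linarith
  · have b5 : 0 ≤ Ca * κ * ((m + 1) * C) * (W 2 * C3 / ch (r0 + η)) *
        Jw Φ (ej t1 j) (Wb ch (2 * R)) Y := mul_nonneg (by positivity) (e0 j hj)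
    simp only [Jw_rl, Finset.card_range, Nat.cast_succ, add_mul, add_div]
    linarith

end Vale.Agent.P354XL
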