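import Vale.Agent.P354SI.Defs

/-!
The pointwise inequalities which enter the estimate of low order.
-/

open Filter

namespace Vale.Agent.P354XL

open Vale.Agent.P354XI Vale.Agent.P354Z Vale.Agent.P354SI
open Vale.Agent.P354XF (wd spn)

/-- The jets of the curvature against the words of the two fields, and the equation. -/
def PW (P : Pr) : Prop := ∀ ρ : ℝ, ∃ C, 0 ≤ C ∧ ∀ᶠ σ in F0 P (P.n0 + 4),
  |σ.E.M - P.c.M| + |σ.E.a - P.c.a| ≤ C * σ.eps ∧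
  ∀ (x : σ.E.O1) (j : ℕ), An x → x.1.2.1 ≤ ρ → |x.1.1 - P.c.t1 - j| ≤ 2 →
    σ.E.eta (P.n0 - 1) x ≤ C * (∑ b, ∑ J ∈ P354XT.words (P.n0 - 1),
      ‖fv (wd σ.X J (σ.f b [])) x.1‖ ^ 2 + fh P σ j * σ.E.eta (P.n0 + 4) x) ∧
    ∀ (b : Bool) (J : List (Fin 5)),
      (J.length ≤ P.n0 + 4 → ‖fv (wd σ.X J (σ.f b [])) x.1‖ ^ 2 ≤ C * σ.E.eta (P.n0 + 4) x) ∧
      (J.length ≤ P.n0 + 1 → ‖fv (wd σ.X J (σ.R.brg.P (spn b) (spn b) (σ.f b []))) x.1‖ ^ 2 ≤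
        C * (fh P σ j * σ.E.eta (P.n0 + 4) x))

end Vale.Agent.P354XL
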