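import Mathlib

/-!
Causality without an existence theorem. On unit slabs j = 0, …, K the numbers e j (energy),
b j (bulk), i j (term of low order), f j (sources) satisfy the estimate of top order and, for the
exponential weights of rate at most C0, the estimate of low order for cut off solutions. Then the
sum of the terms of low order is bounded by the data.
-/

open Finset Real

namespace Vale.Agent.P354XL

/-- The estimate of low order for all plateaus [p, q) and ramps of lengths l1, l2. -/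
def Low (K : ℕ) (e b i f : ℕ → ℝ) (C0 δ C2 : ℝ) : Prop :=
  ∀ ε : ℝ, 0 ≤ ε → ε ≤ C0 → ∀ p q l1 l2 : ℕ, 1 ≤ l1 → 1 ≤ l2 → l1 ≤ p → p ≤ q → q + l2 ≤ K + 1 →
    ∑ j ∈ Ico p q, exp (-(2 * ε * j)) * i j ≤
      ∑ j ∈ Ico (p - l1) (q + l2), exp (-(2 * ε * j)) * (δ * b j + C2 * f j) +
      C2 / (l1 : ℝ) ^ 2 * ∑ j ∈ Ico (p - l1) p, exp (-(2 * ε * j)) * e j +
      C2 / (l2 : ℝ) ^ 2 * ∑ j ∈ Ico q (q + l2), exp (-(2 * ε * j)) * e j

/-- The estimate of top order, the estimate in unit time, and the size of data and sources. -/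
structure Top (K : ℕ) (e b i f : ℕ → ℝ) (C1 D : ℝ) : Prop where
  e0 : ∀ j, 0 ≤ e j
  b0 : ∀ j, 0 ≤ b j
  i0 : ∀ j, 0 ≤ i j
  f0 : ∀ j, 0 ≤ f j
  top : ∀ k ≤ K, e k + ∑ j ∈ range (k + 1), b j ≤ C1 * ∑ j ∈ range (k + 1), i j + D
  unit : ∀ k < K, i (k + 1) ≤ C1 * e k + D
  iD : i 0 ≤ D
  eD : e 0 ≤ D
  fD : ∑ j ∈ range (K + 1), f j ≤ D

theorem abel (W g : ℕ → ℝ) (K : ℕ) :
    ∑ k ∈ range (K + 1), (W k - W (k + 1)) * ∑ j ∈ range (k + 1), g j +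
      W (K + 1) * ∑ j ∈ range (K + 1), g j = ∑ j ∈ range (K + 1), W j * g j := by
  induction K with
  | zero => simp; ring
  | succ n ih =>
    rw [sum_range_succ _ (n + 1), sum_range_succ (fun j => W j * g j) (n + 1), ← ih,
      sum_range_succ g (n + 1)]
    ring

variable {K : ℕ} {e b i f : ℕ → ℝ} {C0 C1 C2 δ D : ℝ}

theorem Top.D0 (h : Top K e b i f C1 D) : 0 ≤ D := (h.i0 0).trans h.iD

theorem Top.wt (h : Top K e b i f C1 D) (W : ℕ → ℝ) (h0 : ∀ j, 0 ≤ W j)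
    (hm : ∀ j, W (j + 1) ≤ W j) (h1 : W 0 ≤ 1) :
    ∑ k ∈ range (K + 1), (W k - W (k + 1)) * e k + ∑ j ∈ range (K + 1), W j * b j ≤
      C1 * ∑ j ∈ range (K + 1), W j * i j + D := by
  have hs : ∑ k ∈ range (K + 1), (W k - W (k + 1)) = W 0 - W (K + 1) := sum_range_sub' W (K + 1)
  have h2 : ∑ k ∈ range (K + 1), (W k - W (k + 1)) * (e k + ∑ j ∈ range (k + 1), b j) ≤
      ∑ k ∈ range (K + 1), (W k - W (k + 1)) * (C1 * ∑ j ∈ range (k + 1), i j + D) :=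
    sum_le_sum fun k hk => mul_le_mul_of_nonneg_left
      (h.top k (Nat.lt_succ_iff.mp (mem_range.mp hk))) (sub_nonneg.mpr (hm k))
  have h3 := mul_le_mul_of_nonneg_left (h.top K le_rfl) (h0 (K + 1))
  have h4 := mul_nonneg (h0 (K + 1)) (h.e0 K)
  have h5 : ∑ k ∈ range (K + 1), (W k - W (k + 1)) * (C1 * ∑ j ∈ range (k + 1), i j + D) =
      C1 * ∑ k ∈ range (K + 1), (W k - W (k + 1)) * ∑ j ∈ range (k + 1), i j +
        (W 0 - W (K + 1)) * D := by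
    rw [← hs, mul_sum, sum_mul, ← sum_add_distrib]
    exact sum_congr rfl fun k _ => by ring
  have h6 : ∑ k ∈ range (K + 1), (W k - W (k + 1)) * (e k + ∑ j ∈ range (k + 1), b j) =
      ∑ k ∈ range (K + 1), (W k - W (k + 1)) * e k +
        ∑ k ∈ range (K + 1), (W k - W (k + 1)) * ∑ j ∈ range (k + 1), b j := by
    rw [← sum_add_distrib]
    exact sum_congr rfl fun k _ => by ring
  have h7 := mul_le_mul_of_nonneg_right h1 h.D0
  rw [← abel W b K, ← abel W i K]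
  nlinarith

theorem Top.short (h : Top K e b i f C1 D) (h1 : 0 ≤ C1) (k : ℕ) (hk : k ≤ K) :
    ∑ j ∈ range (k + 1), i j ≤ (C1 ^ 2 + C1 + 2) ^ k * D := by
  induction k with
  | zero => simpa using h.iD
  | succ n ih =>
    have a1 := ih (by omega)
    have a2 := h.unit n (by omega)
    have a3 := h.top n (by omega)
    have a4 : 0 ≤ ∑ j ∈ range (n + 1), b j := sum_nonneg fun j _ => h.b0 j
    have a5 : D ≤ (C1 ^ 2 + C1 + 2) ^ n * D :=
      le_mul_of_one_le_left h.D0 (one_le_pow₀ (by nlinarith))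
    have a6 : e n ≤ C1 * ((C1 ^ 2 + C1 + 2) ^ n * D) + (C1 ^ 2 + C1 + 2) ^ n * D := by
      have := mul_le_mul_of_nonneg_left a1 h1
      linarith
    have a7 := mul_le_mul_of_nonneg_left a6 h1
    rw [sum_range_succ, pow_succ]
    nlinarith

theorem sum_blocks (g : ℕ → ℝ) (a l N : ℕ) :
    ∑ n ∈ range N, ∑ j ∈ Ico (a + n * l) (a + n * l + l), g j = ∑ j ∈ Ico a (a + N * l), g j := by
  induction N with
  | zero => simp
  | succ n ih =>
    rw [sum_range_succ, ih, sum_Ico_consecutive _ (by omega) (by omega), add_mul, one_mul,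
      add_assoc]

theorem sum_cmp {s : Finset ℕ} {w W g : ℕ → ℝ} {c : ℝ} (hg : ∀ j, 0 ≤ g j)
    (h : ∀ j ∈ s, w j ≤ c * W j) : ∑ j ∈ s, w j * g j ≤ c * ∑ j ∈ s, W j * g j := by
  rw [mul_sum]
  exact sum_le_sum fun j hj => by
    have := mul_le_mul_of_nonneg_right (h j hj) (hg j)
    linarith

/-- The estimate of low order for a weight which is comparable with an exponential. -/
theorem Low.cmp (h : Low K e b i f C0 δ C2) (ht : Top K e b i f C1 D) (hδ : 0 ≤ δ) (h2 : 0 ≤ C2)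
    {ε c E : ℝ} (hc : 0 < c) (e0 : 0 ≤ ε) (e1 : ε ≤ C0) {p q l1 l2 : ℕ} (a1 : 1 ≤ l1) (a2 : 1 ≤ l2)
    (a3 : l1 ≤ p) (a4 : p ≤ q) (a5 : q + l2 ≤ K + 1) (W : ℕ → ℝ)
    (lo : ∀ j ∈ Ico (p - l1) (q + l2), W j ≤ c⁻¹ * exp (-(2 * ε * j)))
    (hi : ∀ j ∈ Ico (p - l1) (q + l2), exp (-(2 * ε * j)) ≤ c * E * W j) :
    ∑ j ∈ Ico p q, W j * i j ≤ E * (∑ j ∈ Ico (p - l1) (q + l2), W j * (δ * b j + C2 * f j) +
      C2 / (l1 : ℝ) ^ 2 * ∑ j ∈ Ico (p - l1) p, W j * e j +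
      C2 / (l2 : ℝ) ^ 2 * ∑ j ∈ Ico q (q + l2), W j * e j) := by
  have b1 := h ε e0 e1 p q l1 l2 a1 a2 a3 a4 a5
  have b2 := sum_cmp (s := Ico p q) ht.i0 fun j hj => lo j (by
    rw [mem_Ico] at hj ⊢; omega)
  have b3 := sum_cmp (g := fun j => δ * b j + C2 * f j)
    (fun j => add_nonneg (mul_nonneg hδ (ht.b0 j)) (mul_nonneg h2 (ht.f0 j))) hi
  have b4 := sum_cmp (s := Ico (p - l1) p) ht.e0 fun j hj => hi j (by
    rw [mem_Ico] at hj ⊢; omega)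
  have b5 := sum_cmp (s := Ico q (q + l2)) ht.e0 fun j hj => hi j (by
    rw [mem_Ico] at hj ⊢; omega)
  have b6 := mul_le_mul_of_nonneg_left b4 (by positivity : 0 ≤ C2 / (l1 : ℝ) ^ 2)
  have b7 := mul_le_mul_of_nonneg_left b5 (by positivity : 0 ≤ C2 / (l2 : ℝ) ^ 2)
  have b8 := mul_le_mul_of_nonneg_left (b1.trans (add_le_add (add_le_add b3 b6) b7))
    (inv_pos.mpr hc).le
  refine b2.trans (b8.trans (le_of_eq ?_))
  field_simp

/-- The weight: equal to one up to K0, then Gaussian of width l. -/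
noncomputable def Wt (K0 l j : ℕ) : ℝ := exp (-((max ((j : ℝ) - K0) 0) ^ 2 / (l : ℝ) ^ 2))

theorem Wt_pos (K0 l j : ℕ) : 0 < Wt K0 l j := exp_pos _

theorem Wt_ge {K0 l j n : ℕ} (hl : 1 ≤ l) (h : j ≤ K0 + n * l) :
    exp (-(n : ℝ) ^ 2) ≤ Wt K0 l j := by
  have h1 : (0 : ℝ) < l := by exact_mod_cast hl
  have h2 : (j : ℝ) ≤ K0 + n * l := by exact_mod_cast h
  refine exp_le_exp.mpr (neg_le_neg ?_)
  rw [div_le_iff₀ (by positivity), ← mul_pow]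
  exact pow_le_pow_left₀ (le_max_right _ _) (max_le (by linarith) (by positivity)) 2

theorem Wt_le (K0 l j : ℕ) : Wt K0 l j ≤ 1 := exp_le_one_iff.mpr (neg_nonpos.mpr (by positivity))

theorem Wt_anti (K0 l j : ℕ) : Wt K0 l (j + 1) ≤ Wt K0 l j := by
  refine exp_le_exp.mpr (neg_le_neg (div_le_div_of_nonneg_right ?_ (by positivity)))
  exact pow_le_pow_left₀ (le_max_right _ _) (max_le_max (by push_cast; linarith) le_rfl) 2

theorem Wt_eq {K0 l j : ℕ} (h : K0 ≤ j) :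
    Wt K0 l j = exp (-(((j : ℝ) - K0) ^ 2 / (l : ℝ) ^ 2)) := by
  have h2 : (K0 : ℝ) ≤ j := by exact_mod_cast h
  rw [Wt, max_eq_left (by linarith)]

theorem Wt_rate {K0 l j : ℕ} {c : ℝ} (hl : 1 ≤ l) (h : K0 ≤ j)
    (hc : c * (l : ℝ) ^ 2 ≤ (j : ℝ) - K0) : (1 + 2 * c) * Wt K0 l (j + 1) ≤ Wt K0 l j := by
  have h1 : (0 : ℝ) < l := by exact_mod_cast hl
  rw [Wt_eq h, Wt_eq (h.trans (Nat.le_succ j))]
  have h2 : 1 + 2 * c ≤ exp (2 * c) := by linarith [add_one_le_exp (2 * c)]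
  refine (mul_le_mul_of_nonneg_right h2 (exp_pos _).le).trans ?_
  rw [← exp_add]
  refine exp_le_exp.mpr ?_
  have h3 : 2 * c ≤ (2 * ((j : ℝ) - K0) + 1) / (l : ℝ) ^ 2 := by
    rw [le_div_iff₀ (by positivity)]; linarith
  have h4 : (((j + 1 : ℕ) : ℝ) - K0) ^ 2 / (l : ℝ) ^ 2 =
      ((j : ℝ) - K0) ^ 2 / (l : ℝ) ^ 2 + (2 * ((j : ℝ) - K0) + 1) / (l : ℝ) ^ 2 := by
    push_cast; ring
  linarith

theorem Wt_ramp {K0 l j : ℕ} (hl : 1 ≤ l) (h : K0 + l ≤ j) :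
    Wt K0 l j ≤ 2 * l * (Wt K0 l j - Wt K0 l (j + 1)) := by
  have h1 : (1 : ℝ) ≤ l := by exact_mod_cast hl
  have h2 : (K0 : ℝ) + l ≤ j := by exact_mod_cast h
  have h3 := Wt_rate (c := 1 / l) (K0 := K0) (j := j) hl (by omega) (by
    rw [show 1 / (l : ℝ) * (l : ℝ) ^ 2 = l by field_simp]; linarith)
  have h4 := mul_le_mul_of_nonneg_left h3 (by linarith : (0 : ℝ) ≤ l)
  rw [show (l : ℝ) * ((1 + 2 * (1 / l)) * Wt K0 l (j + 1)) = (l + 2) * Wt K0 l (j + 1) by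
    field_simp] at h4
  have h5 := Wt_anti K0 l j
  have h6 := Wt_pos K0 l (j + 1)
  nlinarith

theorem sub_le {s t : Finset ℕ} {g : ℕ → ℝ} (h : s ⊆ t) (hg : ∀ j, 0 ≤ g j) :
    ∑ j ∈ s, g j ≤ ∑ j ∈ t, g j := sum_le_sum_of_subset_of_nonneg h fun j _ _ => hg j

/-- One block in the middle. -/
theorem Low.mid (h : Low K e b i f C0 δ C2) (ht : Top K e b i f C1 D) (hδ : 0 ≤ δ) (h2 : 0 ≤ C2)
    {K0 l n : ℕ} (hl : 1 ≤ l) (hn : ((n : ℝ) + 2) / l ≤ C0) (hK : K0 + (n + 4) * l ≤ K + 1) :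
    ∑ j ∈ Ico (K0 + 2 * l + n * l) (K0 + 2 * l + n * l + l), Wt K0 l j * i j ≤ exp 9 *
      (∑ j ∈ Ico (K0 + l + n * l) (K0 + l + n * l + l), Wt K0 l j * (δ * b j + C2 * f j) +
      ∑ j ∈ Ico (K0 + 2 * l + n * l) (K0 + 2 * l + n * l + l), Wt K0 l j * (δ * b j + C2 * f j) +
      ∑ j ∈ Ico (K0 + 3 * l + n * l) (K0 + 3 * l + n * l + l), Wt K0 l j * (δ * b j + C2 * f j) +
      C2 / (l : ℝ) ^ 2 * ∑ j ∈ Ico (K0 + l + n * l) (K0 + l + n * l + l), Wt K0 l j * e j +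
      C2 / (l : ℝ) ^ 2 * ∑ j ∈ Ico (K0 + 3 * l + n * l) (K0 + 3 * l + n * l + l),
        Wt K0 l j * e j) := by
  have h1 : (0 : ℝ) < l := by exact_mod_cast hl
  have key : ∀ j ∈ Ico (K0 + 2 * l + n * l - l) (K0 + 2 * l + n * l + l + l),
      ∃ y : ℝ, 0 ≤ y ∧ y ≤ 9 ∧ exp (-(2 * ((n + 2) / l : ℝ) * j)) =
        exp (-(((n : ℝ) + 2) ^ 2 + 2 * ((n + 2) / l) * K0)) * exp y * Wt K0 l j := by
    intro j hj
    rw [mem_Ico] at hj
    have a1 : K0 + l + n * l ≤ j := by omega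
    have a2 : (K0 : ℝ) + l + n * l ≤ j := by exact_mod_cast a1
    have a3 : (j : ℝ) ≤ K0 + 2 * l + n * l + l + l := by exact_mod_cast hj.2.le
    refine ⟨((j : ℝ) - K0 - (n + 2) * l) ^ 2 / (l : ℝ) ^ 2, by positivity, ?_, ?_⟩
    · rw [div_le_iff₀ (by positivity)]; nlinarith
    · rw [Wt_eq (by omega), ← exp_add, ← exp_add]
      refine congrArg exp ?_
      field_simp
      ring
  have := h.cmp ht hδ h2 (c := exp (-(((n : ℝ) + 2) ^ 2 + 2 * ((n + 2) / l) * K0))) (E := exp 9)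
    (exp_pos _) (by positivity) hn hl hl (p := K0 + 2 * l + n * l) (q := K0 + 2 * l + n * l + l)
    (by omega) (by omega) (by nlinarith) (Wt K0 l) (fun j hj => by
      obtain ⟨y, y0, -, hy⟩ := key j hj
      rw [hy, mul_assoc _ (exp y), inv_mul_cancel_left₀ (exp_pos _).ne']
      exact le_mul_of_one_le_left (Wt_pos _ _ _).le (one_le_exp y0)) (fun j hj => by
      obtain ⟨y, -, y1, hy⟩ := key j hj
      rw [hy]
      exact mul_le_mul_of_nonneg_right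
        (mul_le_mul_of_nonneg_left (exp_le_exp.mpr y1) (exp_pos _).le) (Wt_pos _ _ _).le)
  rw [show K0 + 2 * l + n * l - l = K0 + l + n * l by omega,
    ← sum_Ico_consecutive (m := K0 + l + n * l) (n := K0 + 2 * l + n * l)
      (k := K0 + 2 * l + n * l + l + l) _ (by omega) (by omega),
    ← sum_Ico_consecutive (m := K0 + 2 * l + n * l) (n := K0 + 2 * l + n * l + l)
      (k := K0 + 2 * l + n * l + l + l) _ (by omega) (by omega)] at this
  rw [show K0 + l + n * l + l = K0 + 2 * l + n * l by omega,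
    show K0 + 3 * l + n * l = K0 + 2 * l + n * l + l by omega]
  linarith

/-- The good term of the weighted estimate. -/
noncomputable def Xs (K K0 l : ℕ) (e : ℕ → ℝ) : ℝ :=
  ∑ k ∈ range (K + 1), (Wt K0 l k - Wt K0 l (k + 1)) * e k

/-- A weighted sum. -/
noncomputable def Ws (K K0 l : ℕ) (b : ℕ → ℝ) : ℝ := ∑ k ∈ range (K + 1), Wt K0 l k * b k

variable {K0 l M : ℕ}

theorem Top.X0 (ht : Top K e b i f C1 D) (k : ℕ) : 0 ≤ (Wt K0 l k - Wt K0 l (k + 1)) * e k :=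
  mul_nonneg (sub_nonneg.mpr (Wt_anti K0 l k)) (ht.e0 k)

theorem Top.hG (ht : Top K e b i f C1 D) (δ0 : 0 ≤ δ) (h2 : 0 ≤ C2) (x y : ℕ) (hy : y ≤ K + 1) :
    ∑ j ∈ Ico x y, Wt K0 l j * (δ * b j + C2 * f j) ≤ δ * Ws K K0 l b + C2 * D := by
  refine (sub_le (t := range (K + 1)) (fun j hj => by
    rw [mem_Ico] at hj; rw [mem_range]; omega) fun j => mul_nonneg (Wt_pos _ _ _).le
      (add_nonneg (mul_nonneg δ0 (ht.b0 j)) (mul_nonneg h2 (ht.f0 j)))).trans ?_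
  have a1 : ∑ j ∈ range (K + 1), Wt K0 l j * f j ≤ D :=
    le_trans (sum_le_sum fun j _ => mul_le_of_le_one_left (ht.f0 j) (Wt_le _ _ _)) ht.fD
  have a2 : ∑ j ∈ range (K + 1), Wt K0 l j * (δ * b j + C2 * f j) =
      δ * Ws K K0 l b + C2 * ∑ j ∈ range (K + 1), Wt K0 l j * f j := by
    rw [Ws, mul_sum, mul_sum, ← sum_add_distrib]
    exact sum_congr rfl fun j _ => by ring
  have := mul_le_mul_of_nonneg_left a1 h2
  linarith

theorem Top.hX (ht : Top K e b i f C1 D) (x y : ℕ) (hy : y ≤ K + 1) :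
    ∑ j ∈ Ico x y, (Wt K0 l j - Wt K0 l (j + 1)) * e j ≤ Xs K K0 l e :=
  sub_le (fun j hj => by rw [mem_Ico] at hj; rw [mem_range]; omega) ht.X0

theorem Top.hT (ht : Top K e b i f C1 D) (h2 : 0 ≤ C2) (hl : 1 ≤ l) (x y : ℕ) (hx : K0 + l ≤ x)
    (hy : y ≤ K + 1) :
    C2 / (l : ℝ) ^ 2 * ∑ j ∈ Ico x y, Wt K0 l j * e j ≤ 2 * C2 / l * Xs K K0 l e := by
  have l1 : (0 : ℝ) < l := by exact_mod_cast hl
  have a1 : ∑ j ∈ Ico x y, Wt K0 l j * e j ≤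
      2 * l * ∑ j ∈ Ico x y, (Wt K0 l j - Wt K0 l (j + 1)) * e j :=
    sum_cmp (W := fun j => Wt K0 l j - Wt K0 l (j + 1)) ht.e0 fun j hj =>
      Wt_ramp hl (hx.trans (mem_Ico.mp hj).1)
  have a3 := mul_le_mul_of_nonneg_left
    (a1.trans (mul_le_mul_of_nonneg_left (ht.hX x y hy) (by positivity)))
    (by positivity : 0 ≤ C2 / (l : ℝ) ^ 2)
  refine a3.trans (le_of_eq ?_)
  field_simp

theorem Low.first (h : Low K e b i f C0 δ C2) (ht : Top K e b i f C1 D) (δ0 : 0 ≤ δ) (h2 : 0 ≤ C2)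
    (c0 : 0 ≤ C0) (hl : 1 ≤ l) (hK : K0 + 3 * l ≤ K + 1) :
    ∑ j ∈ Ico 1 (K0 + 2 * l), Wt K0 l j * i j ≤
      exp 9 * (δ * Ws K K0 l b + C2 * D + C2 * D + 2 * C2 / l * Xs K K0 l e) := by
  have E0 := exp_pos (9 : ℝ)
  have := h.cmp ht δ0 h2 (c := 1) (E := exp 9) (ε := 0) one_pos le_rfl c0
    (p := 1) (q := K0 + 2 * l) le_rfl hl le_rfl (by omega) (by omega) (Wt K0 l)
    (fun j _ => by simpa using Wt_le K0 l j) (fun j hj => by
      have a1 := Wt_ge (K0 := K0) (j := j) (n := 3) hl (by rw [mem_Ico] at hj; omega)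
      have a2 := mul_le_mul_of_nonneg_left a1 E0.le
      rw [← exp_add] at a2
      norm_num at a2 ⊢
      exact a2)
  refine this.trans (mul_le_mul_of_nonneg_left (add_le_add (add_le_add
    (ht.hG δ0 h2 _ _ (by omega)) ?_) (ht.hT h2 hl _ _ (by omega) (by omega))) E0.le)
  simpa using mul_le_mul_of_nonneg_left
    ((mul_le_of_le_one_left (ht.e0 0) (Wt_le K0 l 0)).trans ht.eD) h2

theorem Low.mids (h : Low K e b i f C0 δ C2) (ht : Top K e b i f C1 D) (δ0 : 0 ≤ δ) (h2 : 0 ≤ C2)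
    (hl : 1 ≤ l) (hM : (M : ℝ) + 1 ≤ C0 * l) (hK : K + 1 = K0 + 3 * l + M * l) :
    ∑ j ∈ Ico (K0 + 2 * l) (K0 + 2 * l + M * l), Wt K0 l j * i j ≤
      exp 9 * (3 * (δ * Ws K K0 l b + C2 * D) + 2 * (2 * C2 / l * Xs K K0 l e)) := by
  have l1 : (0 : ℝ) < l := by exact_mod_cast hl
  rw [← sum_blocks]
  refine (sum_le_sum fun n hn => h.mid ht δ0 h2 hl (n := n) ?_ ?_).trans ?_
  · have : (n : ℝ) + 1 ≤ M := by exact_mod_cast mem_range.mp hn
    rw [div_le_iff₀ l1]; linarith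
  · have := Nat.mul_le_mul_right l (show n + 4 ≤ M + 3 by have := mem_range.mp hn; omega)
    rw [add_mul M 3 l] at this
    omega
  rw [← mul_sum]
  simp only [sum_add_distrib, ← mul_sum, sum_blocks]
  have a1 := ht.hG (K0 := K0) (l := l) δ0 h2 (K0 + l) (K0 + l + M * l) (by omega)
  have a2 := ht.hG (K0 := K0) (l := l) δ0 h2 (K0 + 2 * l) (K0 + 2 * l + M * l) (by omega)
  have a3 := ht.hG (K0 := K0) (l := l) δ0 h2 (K0 + 3 * l) (K0 + 3 * l + M * l) (by omega)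
  have a4 := ht.hT h2 hl (K0 + l) (K0 + l + M * l) le_rfl (by omega)
  have a5 := ht.hT (K0 := K0) h2 hl (K0 + 3 * l) (K0 + 3 * l + M * l) (by omega) (by omega)
  exact mul_le_mul_of_nonneg_left (by linarith) (exp_pos _).le

theorem Top.last (ht : Top K e b i f C1 D) (h1 : 0 ≤ C1) {c : ℝ} (hc : 2 * C1 ^ 2 ≤ c)
    (hl : 1 ≤ l) (hM : c * l ≤ M + 1) (hK : K + 1 = K0 + 3 * l + M * l) :
    C1 * ∑ j ∈ Ico (K0 + 2 * l + M * l) (K + 1), Wt K0 l j * i j ≤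
      Xs K K0 l e / 4 + C1 * l * D := by
  have l1 : (1 : ℝ) ≤ l := by exact_mod_cast hl
  obtain ⟨x, hx⟩ : ∃ x, K0 + 2 * l + M * l = x + 1 := ⟨K0 + 2 * l + M * l - 1, by omega⟩
  have hx' : (K0 : ℝ) + 2 * l + M * l = x + 1 := by exact_mod_cast hx
  rw [hx, ← sum_Ico_add' (fun j => Wt K0 l j * i j) x K 1, mul_sum]
  have a1 : ∀ k ∈ Ico x K, C1 * (Wt K0 l (k + 1) * i (k + 1)) ≤
      1 / 4 * ((Wt K0 l k - Wt K0 l (k + 1)) * e k) + C1 * D := by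
    intro k hk
    rw [mem_Ico] at hk
    have W0 := (Wt_pos K0 l (k + 1)).le
    have b0 : (x : ℝ) ≤ k := by exact_mod_cast hk.1
    have b1 := Wt_rate (c := c) (K0 := K0) (j := k) hl (by omega) (by
      have := mul_le_mul_of_nonneg_right hM (by linarith : (0 : ℝ) ≤ l)
      nlinarith)
    have b2 := mul_le_mul_of_nonneg_left (mul_le_mul_of_nonneg_left (ht.unit k hk.2) W0) h1
    have b3 := mul_le_mul_of_nonneg_left (mul_le_of_le_one_left ht.D0 (Wt_le K0 l (k + 1))) h1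
    have b4 : C1 ^ 2 * Wt K0 l (k + 1) ≤ 1 / 4 * (Wt K0 l k - Wt K0 l (k + 1)) := by
      have := mul_le_mul_of_nonneg_right hc W0
      linarith
    have b5 := mul_le_mul_of_nonneg_right b4 (ht.e0 k)
    linarith
  refine (sum_le_sum a1).trans ?_
  rw [sum_add_distrib, ← mul_sum, sum_const, Nat.card_Ico, show K - x = l by omega, nsmul_eq_mul]
  have a2 := ht.hX (K0 := K0) (l := l) x K (by omega)
  linarith

/-- The sum of the terms of low order is bounded by the data. -/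
theorem step {C1 : ℝ} (h1 : 1 ≤ C1) : ∃ C0 δ : ℝ, 0 < C0 ∧ 0 < δ ∧ ∀ C2, 0 ≤ C2 → ∃ C4 : ℝ,
    ∀ (K : ℕ) (e b i f : ℕ → ℝ) (D : ℝ), Top K e b i f C1 D → Low K e b i f C0 δ C2 →
      ∑ j ∈ range (K + 1), i j ≤ C4 * D := by
  obtain ⟨c, hc⟩ := exists_nat_ge (2 * C1 ^ 2)
  have c1 : (1 : ℝ) ≤ c := by nlinarith
  have c2 : 1 ≤ c := by exact_mod_cast c1
  have E0 := exp_pos (9 : ℝ)
  refine ⟨c, 1 / (8 * exp 9 * C1), by linarith, by positivity, fun C2 h2 => ?_⟩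
  obtain ⟨l, hl'⟩ := exists_nat_ge (24 * exp 9 * C1 * C2 + 1)
  have l1 : (1 : ℝ) ≤ l := le_trans (le_add_of_nonneg_left (by positivity)) hl'
  have hl : 1 ≤ l := by exact_mod_cast l1
  obtain ⟨M, hM⟩ : ∃ M, c * l = M + 1 := ⟨c * l - 1, by have := Nat.mul_le_mul c2 hl; omega⟩
  have hM' : (c : ℝ) * l = M + 1 := by exact_mod_cast hM
  refine ⟨(C1 ^ 2 + C1 + 2) ^ ((M + 3) * l) + exp (((M + 3 : ℕ) : ℝ) ^ 2) *
    (2 * (C1 + 5 * C1 * exp 9 * C2 + C1 * l) + 1), fun K e b i f D ht h => ?_⟩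
  have D0 := ht.D0
  rcases le_or_gt K ((M + 3) * l) with hK | hK
  · refine (ht.short (by linarith) K le_rfl).trans (mul_le_mul_of_nonneg_right ?_ D0)
    exact le_trans (pow_le_pow_right₀ (by nlinarith) hK) (le_add_of_nonneg_right (by positivity))
  obtain ⟨K0, k1, hK0⟩ : ∃ K0, 1 ≤ K0 ∧ K + 1 = K0 + (M + 3) * l :=
    ⟨K + 1 - (M + 3) * l, by omega, by omega⟩
  have hK1 : K + 1 = K0 + 3 * l + M * l := by rw [hK0]; ring
  have δ0 : 0 ≤ 1 / (8 * exp 9 * C1) := by positivity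
  have wt : Xs K K0 l e + Ws K K0 l b ≤ C1 * Ws K K0 l i + D :=
    ht.wt _ (fun j => (Wt_pos _ _ _).le) (Wt_anti K0 l) (Wt_le _ _ _)
  have s1 : ∑ j ∈ Ico 0 1, Wt K0 l j * i j ≤ D := by
    simpa using (mul_le_of_le_one_left (ht.i0 0) (Wt_le K0 l 0)).trans ht.iD
  have s2 := h.first (K0 := K0) ht δ0 h2 (by linarith) hl (by omega)
  have s3 := h.mids ht δ0 h2 hl hM'.ge hK1
  have s4 := ht.last (by linarith) hc hl hM'.le hK1
  have s5 : Ws K K0 l i = ∑ j ∈ Ico 0 1, Wt K0 l j * i j +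
      ∑ j ∈ Ico 1 (K0 + 2 * l), Wt K0 l j * i j +
      ∑ j ∈ Ico (K0 + 2 * l) (K0 + 2 * l + M * l), Wt K0 l j * i j +
      ∑ j ∈ Ico (K0 + 2 * l + M * l) (K + 1), Wt K0 l j * i j := by
    rw [sum_Ico_consecutive _ (by omega) (by omega), sum_Ico_consecutive _ (by omega) (by omega),
      sum_Ico_consecutive _ (by omega) (by omega), Ws, range_eq_Ico]
  have XX : 0 ≤ Xs K K0 l e := sum_nonneg fun k _ => ht.X0 k
  have S0 : 0 ≤ Ws K K0 l i := sum_nonneg fun j _ => mul_nonneg (Wt_pos _ _ _).le (ht.i0 j)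
  have t5 : ∑ j ∈ range (K + 1), 1 * i j ≤ exp (((M + 3 : ℕ) : ℝ) ^ 2) * Ws K K0 l i :=
    sum_cmp ht.i0 fun j hj => by
      have a1 := Wt_ge (K0 := K0) (j := j) (n := M + 3) hl (by rw [mem_range] at hj; omega)
      have a2 := mul_le_mul_of_nonneg_left a1 (exp_pos (((M + 3 : ℕ) : ℝ) ^ 2)).le
      rwa [← exp_add, add_neg_cancel, exp_zero] at a2
  simp only [one_mul] at t5
  generalize Xs K K0 l e = X at *
  generalize Ws K K0 l b = B at *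
  have t1 : C1 * (exp 9 * (4 * (1 / (8 * exp 9 * C1) * B))) = B / 2 := by field_simp; ring
  have t2 : C1 * (exp 9 * (3 * (2 * C2 / l * X))) ≤ X / 4 := by
    have : C1 * (exp 9 * (3 * (2 * C2 / l))) ≤ 1 / 4 := by
      rw [show C1 * (exp 9 * (3 * (2 * C2 / l))) = 6 * exp 9 * C1 * C2 / l by ring,
        div_le_iff₀ (by linarith)]
      linarith
    have := mul_le_mul_of_nonneg_right this XX
    linarith
  have t3 := mul_le_mul_of_nonneg_left (add_le_add (add_le_add s1 s2) s3) (by linarith : 0 ≤ C1)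
  have t4 : C1 * Ws K K0 l i ≤ (C1 + 5 * C1 * exp 9 * C2 + C1 * l) * D + (X + B) / 2 := by
    rw [s5]; linarith
  have t6 : Ws K K0 l i ≤ (2 * (C1 + 5 * C1 * exp 9 * C2 + C1 * l) + 1) * D := by
    have := le_mul_of_one_le_left S0 h1
    linarith
  have t7 := mul_le_mul_of_nonneg_left t6 (exp_pos (((M + 3 : ℕ) : ℝ) ^ 2)).le
  have t8 : 0 ≤ (C1 ^ 2 + C1 + 2) ^ ((M + 3) * l) * D := by positivity
  linarith

end Vale.Agent.P354XL
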