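import Vale.Agent.P354XL.Low
import Vale.Agent.P354XL.Step

/-!
From the estimate in continuous time to the estimate on overlapping slabs.
-/

open Finset MeasureTheory intervalIntegral Real

namespace Vale.Agent.P354XL

variable {φ : ℝ → ℝ}

theorem sum_int (h : Continuous φ) (c : ℝ) {p q : ℕ} (hpq : p ≤ q) :
    ∑ j ∈ Ico p q, ∫ t in (c + j)..(c + j + 1), φ t = ∫ t in (c + p)..(c + q), φ t := by
  induction q, hpq using Nat.le_induction with
  | base => simp
  | succ q hq ih =>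
    rw [sum_Ico_succ_top hq, ih, integral_add_adjacent_intervals (h.intervalIntegrable _ _)
      (h.intervalIntegrable _ _), Nat.cast_succ, add_assoc]

theorem int_mono (h : Continuous φ) (h0 : ∀ t, 0 ≤ φ t) {a b A B : ℝ} (h1 : A ≤ a) (h2 : a ≤ b)
    (h3 : b ≤ B) : ∫ t in a..b, φ t ≤ ∫ t in A..B, φ t :=
  integral_mono_interval h1 h2 h3 (Filter.Eventually.of_forall h0) (h.intervalIntegrable _ _)

theorem ew_cont (ε : ℝ) (h : Continuous φ) : Continuous fun t => exp (-(2 * ε * t)) * φ t := by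
  fun_prop

/-- The weighted integral over a union of narrow slabs. -/
theorem narrow (h : Continuous φ) (h0 : ∀ t, 0 ≤ φ t) {ε t1 κ : ℝ} (e0 : 0 ≤ ε) (k0 : 0 ≤ κ)
    {p q : ℕ} (hpq : p ≤ q) {B : ℕ → ℝ}
    (hB : ∀ j < q, κ * ∫ t in (t1 + j + 1 / 2)..(t1 + j + 3 / 2), φ t ≤ B j) {a b : ℝ}
    (h1 : t1 + p + 1 / 2 ≤ a) (h2 : a ≤ b) (h3 : b ≤ t1 + q + 1 / 2) :
    κ * ∫ t in a..b, exp (-(2 * ε * t)) * φ t ≤
      exp (-(2 * ε * t1)) * ∑ j ∈ Ico p q, exp (-(2 * ε * j)) * B j := by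
  have c := ew_cont ε h
  refine (mul_le_mul_of_nonneg_left (int_mono c (fun t => mul_nonneg (exp_pos _).le (h0 t))
    (A := t1 + 1 / 2 + p) (B := t1 + 1 / 2 + q) (by linarith) h2 (by linarith)) k0).trans ?_
  rw [← sum_int c _ hpq, mul_sum, mul_sum]
  refine sum_le_sum fun j hj => ?_
  have a1 : ∫ t in (t1 + 1 / 2 + j)..(t1 + 1 / 2 + j + 1), exp (-(2 * ε * t)) * φ t ≤
      ∫ t in (t1 + 1 / 2 + j)..(t1 + 1 / 2 + j + 1),
        exp (-(2 * ε * t1)) * exp (-(2 * ε * j)) * φ t :=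
    integral_mono_on (by linarith) (c.intervalIntegrable _ _)
      ((continuous_const.mul h).intervalIntegrable _ _) fun t ht => by
        rw [← exp_add]
        exact mul_le_mul_of_nonneg_right (exp_le_exp.2 (by nlinarith [ht.1])) (h0 t)
  rw [intervalIntegral.integral_const_mul, show t1 + 1 / 2 + j + 1 = t1 + j + 3 / 2 by ring,
    show t1 + 1 / 2 + j = t1 + j + 1 / 2 by ring] at a1
  rw [show t1 + 1 / 2 + j + 1 = t1 + j + 3 / 2 by ring,
    show t1 + 1 / 2 + j = t1 + j + 1 / 2 by ring, ← mul_assoc]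
  refine (mul_le_mul_of_nonneg_left a1 k0).trans ?_
  rw [mul_left_comm]
  exact mul_le_mul_of_nonneg_left (hB j (Finset.mem_Ico.1 hj).2) (by positivity)

/-- The weighted sum over wide slabs. -/
theorem wide (h : Continuous φ) (h0 : ∀ t, 0 ≤ φ t) {ε C0 t1 : ℝ} (e0 : 0 ≤ ε) (e1 : ε ≤ C0)
    {p q : ℕ} (hpq : p ≤ q) {I : ℕ → ℝ}
    (hI : ∀ j ∈ Ico p q, I j ≤ ∫ t in (t1 + j)..(t1 + j + 2), φ t) :
    exp (-(2 * ε * t1)) * ∑ j ∈ Ico p q, exp (-(2 * ε * j)) * I j ≤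
      2 * exp (4 * C0) * ∫ t in (t1 + p)..(t1 + q + 1), exp (-(2 * ε * t)) * φ t := by
  have c := ew_cont ε h
  have c0 := fun t => mul_nonneg (exp_pos (-(2 * ε * t))).le (h0 t)
  have pq : (p : ℝ) ≤ q := Nat.cast_le.2 hpq
  have a1 := int_mono c c0 (a := t1 + p) (b := t1 + q) (B := t1 + q + 1) le_rfl (by linarith)
    (by linarith)
  have a2 := int_mono c c0 (a := t1 + 1 + p) (b := t1 + 1 + q) (A := t1 + p) (B := t1 + q + 1)
    (by linarith) (by linarith) (by linarith)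
  rw [← sum_int c _ hpq] at a1 a2
  have a3 := mul_le_mul_of_nonneg_left (add_le_add a1 a2) (exp_pos (4 * C0)).le
  rw [← sum_add_distrib, mul_sum] at a3
  rw [mul_sum]
  refine (sum_le_sum fun j hj => ?_).trans (a3.trans_eq (by ring))
  rw [show t1 + 1 + j = t1 + j + 1 by ring, integral_add_adjacent_intervals
    (c.intervalIntegrable _ _) (c.intervalIntegrable _ _), ← mul_assoc,
    show t1 + j + 1 + 1 = t1 + j + 2 by ring]
  refine (mul_le_mul_of_nonneg_left (hI j hj) (by positivity)).trans ?_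
  rw [← intervalIntegral.integral_const_mul, ← intervalIntegral.integral_const_mul]
  refine integral_mono_on (by linarith) ((continuous_const.mul h).intervalIntegrable _ _)
    ((continuous_const.mul c).intervalIntegrable _ _) fun t ht => ?_
  rw [← mul_assoc, ← exp_add, ← exp_add]
  exact mul_le_mul_of_nonneg_right (exp_le_exp.2 (by nlinarith [ht.2])) (h0 t)

theorem LowC.slab {i b e : ℝ → ℝ} {C0 C δ C2 t1 : ℝ} (h : LowC i b e C0 C) (hC : 0 ≤ C)
    (ci : Continuous i) (cb : Continuous b) (ce : Continuous e) (i0 : ∀ t, 0 ≤ i t)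
    (b0 : ∀ t, 0 ≤ b t) (e0 : ∀ t, 0 ≤ e t) {K : ℕ} {I B E F : ℕ → ℝ}
    (hI : ∀ j : ℕ, 1 ≤ j → j < K → I j ≤ ∫ t in (t1 + j)..(t1 + j + 2), i t)
    (hB : ∀ j ≤ K, 2 * exp (4 * C0) * ∫ t in (t1 + j + 1 / 2)..(t1 + j + 3 / 2), b t ≤
      δ * B j + C2 * F j)
    (hE : ∀ j ≤ K, 8 * exp (4 * C0) * C * ∫ t in (t1 + j + 1 / 2)..(t1 + j + 3 / 2), e t ≤
      C2 * E j) : Low K E B I F C0 δ C2 := by
  intro ε ε0 ε1 p q l1 l2 h1 h2 h3 h4 h5
  have r1 : (1 : ℝ) ≤ l1 := Nat.one_le_cast.2 h1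
  have r2 : (1 : ℝ) ≤ l2 := Nat.one_le_cast.2 h2
  have pq : (p : ℝ) ≤ q := Nat.cast_le.2 h4
  have a0 := h ε (t1 + p) (t1 + q + 1) (l1 - 1 / 2) (l2 - 1 / 2) ε0 ε1 (by linarith) (by linarith)
    (by linarith)
  have a1 := wide ci i0 ε0 ε1 h4 (t1 := t1) fun j hj =>
    hI j (by have := Finset.mem_Ico.1 hj; omega) (by have := Finset.mem_Ico.1 hj; omega)
  have a2 := narrow cb b0 ε0 (by positivity) (p := p - l1) (q := q + l2) (by omega)
    (fun j hj => hB j (by omega)) (a := t1 + p - (l1 - 1 / 2)) (b := t1 + q + 1 + (l2 - 1 / 2))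
    (by rw [Nat.cast_sub h3]; linarith) (by linarith) (by push_cast; linarith)
  have a3 := narrow ce e0 ε0 (by positivity) (p := p - l1) (q := p) (by omega)
    (fun j hj => hE j (by omega)) (a := t1 + p - (l1 - 1 / 2)) (b := t1 + p)
    (by rw [Nat.cast_sub h3]; linarith) (by linarith) (by linarith)
  have a4 := narrow ce e0 ε0 (by positivity) (p := q) (q := q + l2) (by omega)
    (fun j hj => hE j (by omega)) (a := t1 + q + 1) (b := t1 + q + 1 + (l2 - 1 / 2))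
    (by linarith) (by linarith) (by push_cast; linarith)
  have key : ∀ {l X Y : ℝ}, 1 ≤ l → 0 ≤ X → 8 * exp (4 * C0) * C * X ≤ Y →
      2 * exp (4 * C0) * (C / (l - 1 / 2) ^ 2 * X) ≤ 1 / l ^ 2 * Y := fun {l X Y} a b c => by
    refine le_trans ?_ (mul_le_mul_of_nonneg_left c (by positivity))
    have : C / (l - 1 / 2) ^ 2 ≤ 4 * C / l ^ 2 := by
      rw [div_le_div_iff₀ (pow_pos (by linarith) 2) (by positivity)]
      exact le_of_sub_nonneg (by nlinarith [mul_nonneg hC (mul_nonneg (sub_nonneg.2 a)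
        (show 0 ≤ 3 * l - 1 by linarith))])
    refine (mul_le_mul_of_nonneg_left (mul_le_mul_of_nonneg_right this b) (by positivity)).trans_eq ?_
    ring
  have n0 : ∀ a b, a ≤ b → 0 ≤ ∫ t in a..b, exp (-(2 * ε * t)) * e t := fun a b c =>
    integral_nonneg c fun t _ => mul_nonneg (exp_pos _).le (e0 t)
  have b3 := key r1 (n0 _ _ (by linarith)) a3
  have b4 := key r2 (n0 _ _ (by linarith)) a4
  have b0 := mul_le_mul_of_nonneg_left a0 (show 0 ≤ 2 * exp (4 * C0) by positivity)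
  simp only [mul_left_comm _ C2, ← mul_sum] at b3 b4
  refine le_of_mul_le_mul_left ?_ (exp_pos (-(2 * ε * t1)))
  rw [div_eq_mul_one_div C2, div_eq_mul_one_div C2]
  linarith

end Vale.Agent.P354XL
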