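import Vale.Agent.P354SA.FD

/-!
SLC: the spheres on a slice.
-/

open scoped ContDiff
open Set Filter Topology

namespace Vale.Agent.P354XL

open Vale.Agent.P354n (R4)
open Vale.Agent.P354H (X3)
open Vale.Agent.P354SA

theorem dot_bd (p η : Y2) : |dot p η| ≤ 2 * (‖p‖ * ‖η‖) := by
  have a := mul_le_mul (norm_fst_le p) (norm_fst_le η) (norm_nonneg _) (norm_nonneg _)
  have b := mul_le_mul (norm_snd_le p) (norm_snd_le η) (norm_nonneg _) (norm_nonneg _)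
  rw [← norm_mul] at a b
  exact (abs_add_le _ _).trans (by linarith [show |_| ≤ _ from a, show |_| ≤ _ from b])

theorem slc_lin {C P κ c r : ℝ} {p V : Y2} (hC : 1 ≤ C) (k : κ ∈ Icc (2 * C)⁻¹ (2 * C))
    (hp : ‖p‖ ≤ P) (c1 : |c| ≤ 3) (c2 : c * r ∈ Icc 0 2)
    (c3 : |c| * ‖V‖ * (1 + ‖p‖) ≤ (100 * C ^ 2)⁻¹) :
    ∃ κ' ∈ Icc (12 * C)⁻¹ (12 * C), ∃ p' : Y2, ‖p'‖ ≤ 6 * P ∧ ∀ (ξ : X3) (ρ : ℝ) (η η0 : Y2),
      ρ = κ * ξ.1 + dot p η → ‖η - η0‖ ≤ (8 * C)⁻¹ * ‖ξ‖ → ‖η0‖ ≤ C * ‖ξ‖ →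
      c * ρ * r + ρ = κ' * ξ.1 + dot p' ((c * ρ) • V + η) ∧
      ‖(c * ρ) • V + η - η0‖ ≤ (4 * C)⁻¹ * ‖ξ‖ ∧ (ξ.1 = 0 → |c * ρ| ≤ 12 * C * P * ‖ξ‖) := by
  have p0 := norm_nonneg p
  have v0 := mul_nonneg (abs_nonneg c) (norm_nonneg V)
  have k0 : 0 < κ := lt_of_lt_of_le (by positivity) k.1
  have i1 : (100 * C ^ 2)⁻¹ ≤ 1 / 100 := by
    rw [one_div]
    exact inv_anti₀ (by norm_num) (by nlinarith)
  have b : |c * dot p V| ≤ 1 / 50 := by
    rw [abs_mul]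
    linarith [mul_le_mul_of_nonneg_left (dot_bd p V) (abs_nonneg c)]
  rw [abs_le] at b
  obtain ⟨τ, t1, t2, t3⟩ : ∃ τ, 1 / 2 ≤ τ ∧ τ ≤ 4 ∧ τ * (1 + c * dot p V) = 1 + c * r :=
    ⟨(1 + c * r) / (1 + c * dot p V), (le_div_iff₀ (by linarith)).2 (by linarith [c2.1]),
      (div_le_iff₀ (by linarith)).2 (by linarith [c2.2]), div_mul_cancel₀ _ (by linarith)⟩
  refine ⟨τ * κ, ⟨le_trans ?_ (mul_le_mul t1 k.1 (by positivity) (by linarith)),
    (mul_le_mul t2 k.2 k0.le (by norm_num)).trans (by linarith)⟩, τ • p, ?_,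
    fun ξ ρ η η0 e a1 a2 => ?_⟩
  · rw [one_div, ← mul_inv]
    exact inv_anti₀ (by positivity) (by linarith)
  · rw [norm_smul, Real.norm_of_nonneg (by linarith)]
    nlinarith
  have x0 := norm_nonneg ξ
  have i2 : (8 * C)⁻¹ * ‖ξ‖ ≤ C / 8 * ‖ξ‖ := mul_le_mul_of_nonneg_right
    ((inv_anti₀ (by norm_num) (by linarith)).trans (show (8 : ℝ)⁻¹ ≤ _ by linarith)) x0
  have a3 : ‖η‖ ≤ 9 / 8 * (C * ‖ξ‖) := by linarith [norm_le_norm_sub_add η η0]
  have a4 := (dot_bd p η).trans (mul_le_mul_of_nonneg_left (mul_le_mul_of_nonneg_left a3 p0)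
    zero_le_two)
  have y0 := mul_nonneg (zero_le_one.trans hC) x0
  refine ⟨?_, ?_, fun z => ?_⟩
  · simp only [dot, Prod.smul_fst, Prod.smul_snd, Prod.fst_add, Prod.snd_add, smul_eq_mul] at e t3 ⊢
    linear_combination τ * e - ρ * t3
  · have a5 : |ρ| ≤ 9 / 4 * (C * ‖ξ‖) * (1 + ‖p‖) := by
      have := mul_le_mul k.2 (norm_fst_le ξ) (norm_nonneg _) (by positivity)
      rw [e]
      refine (abs_add_le _ _).trans ?_
      rw [abs_mul, abs_of_pos k0]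
      linarith [show κ * |ξ.1| ≤ _ from this]
    have a6 := mul_le_mul_of_nonneg_left a5 v0
    have a7 := mul_le_mul_of_nonneg_left c3 (show 0 ≤ 9 / 4 * (C * ‖ξ‖) by positivity)
    have a8 : 9 / 4 * (C * ‖ξ‖) * (100 * C ^ 2)⁻¹ + (8 * C)⁻¹ * ‖ξ‖ ≤ (4 * C)⁻¹ * ‖ξ‖ := by
      have : 0 ≤ C⁻¹ * ‖ξ‖ := by positivity
      rw [show 9 / 4 * (C * ‖ξ‖) * (100 * C ^ 2)⁻¹ = 9 / 400 * (C⁻¹ * ‖ξ‖) by field_simp; ring,
        mul_inv, mul_inv]
      linarith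
    rw [add_sub_assoc]
    refine (norm_add_le _ _).trans ?_
    rw [norm_smul, norm_mul, Real.norm_eq_abs, Real.norm_eq_abs]
    linarith
  · rw [e, z, mul_zero, zero_add, abs_mul]
    have := mul_le_mul_of_nonneg_right hp y0
    have := mul_nonneg p0 y0
    linarith [mul_le_mul c1 a4 (abs_nonneg _) (by norm_num)]

/-- SLC. -/
theorem slc : SLC := by
  intro C hC P Y S η0 W hW h hb
  have key : ∀ x ∈ W, ContDiffAt ℝ ∞ (fun x => Y (S x, x)) x ∧ DifferentiableAt ℝ η0 x ∧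
      ∃ κ' ∈ Icc (12 * C)⁻¹ (12 * C), ∃ p' : Y2, ‖p'‖ ≤ 6 * P ∧ ∀ ξ : X3,
      fderiv ℝ (fun x => (Y (S x, x)).1) x ξ =
        κ' * ξ.1 + dot p' (fderiv ℝ (fun x => (Y (S x, x)).2.1) x ξ) ∧
      ‖fderiv ℝ (fun x => (Y (S x, x)).2.1) x ξ - fderiv ℝ η0 x ξ‖ ≤ (4 * C)⁻¹ * ‖ξ‖ ∧
      (ξ.1 = 0 → |fderiv ℝ S x ξ| ≤ 12 * C * P * ‖ξ‖) := fun x hx => by
    have s := h x hx
    obtain ⟨c, c1, c2, c3, c4⟩ := s.slope
    obtain ⟨κ', k1, p', k2, k3⟩ := slc_lin hC s.kap.2 s.p c1 c2 c3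
    have y := (s.sm.1.self_of_nhds.differentiableAt (by simp)).hasFDerivAt
    have d0 := s.sm.2.2.self_of_nhds.differentiableAt (by simp)
    have d1 := HasFDerivAt.comp (f := fun x => (S x, x)) x y ((s.sm.2.1.self_of_nhds.differentiableAt
      (by simp)).hasFDerivAt.prodMk (hasFDerivAt_id x))
    have d2 := HasFDerivAt.comp (f := fun y => (S x, y)) x y (hasFDerivAt_prodMk_right (S x) x)
    have d3 : fderiv ℝ (Ph Y) (S x, x) = _ := (hasFDerivAt_fst.prodMk (y.fst.prodMk y.snd.fst)).fderiv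
    have n := s.near
    rw [show fderiv ℝ (fun y => (Y (S x, y)).2.1 - η0 y) x = _ from
      (d2.snd.fst.sub d0.hasFDerivAt).fderiv] at n
    refine ⟨ContDiffAt.comp (f := fun x => (S x, x)) x s.sm.1.self_of_nhds
      (s.sm.2.1.self_of_nhds.prodMk contDiffAt_id), d0, κ', k1, p', k2, fun ξ => ?_⟩
    have e : ∀ w, kv Y w (S x, x) = (fderiv ℝ Y (S x, x) w).1 -
        dot (Y (S x, x)).2.2 (fderiv ℝ Y (S x, x) w).2.1 := fun w => by
      simp [kv, d3, xp, dot, P354RC.cv]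
      ring
    have e2 : ((fderiv ℝ S x ξ, ξ) : R4) = fderiv ℝ S x ξ • e0 + (0, ξ) := by
      ext <;> simp [e0]
    have := k3 ξ _ (fderiv ℝ Y (S x, x) (0, ξ)).2.1 (fderiv ℝ η0 x ξ) (by
      have a0 := s.kap.1 0
      have a1 := s.kap.1 1
      rw [e] at a0 a1 ⊢
      rw [show ((0, ξ) : R4) = ξ.1 • e1 + ξ.2.1 • ey 0 + ξ.2.2 • ey 1 by ext <;> simp [e1, ey]]
      simp only [map_add, map_smul, dot, Prod.fst_add, Prod.snd_add, Prod.smul_fst, Prod.smul_snd,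
        smul_eq_mul] at a0 a1 ⊢
      linear_combination ξ.2.1 * a0 + ξ.2.2 * a1 :
        (fderiv ℝ Y (S x, x) (0, ξ)).1 = _) (ContinuousLinearMap.le_of_opNorm_le _ n ξ)
      (ContinuousLinearMap.le_of_opNorm_le _ s.ref.1 ξ)
    rw [← c4] at this
    rw [show fderiv ℝ (fun x => (Y (S x, x)).1) x = _ from d1.fst.fderiv,
      show fderiv ℝ (fun x => (Y (S x, x)).2.1) x = _ from d1.snd.fst.fderiv]
    simpa [e2] using this
  have c0 : 0 < C := one_pos.trans_le hC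
  have q : C * (4 * C)⁻¹ = 1 / 4 := by field_simp
  refine ⟨⟨⟨fun x hx => (key x hx).1.fst.contDiffWithinAt, fun x hx =>
    (key x hx).1.snd.fst.contDiffWithinAt⟩, fun x hx => ?_, fun x hx x' hx' e => ?_, fun x hx => ?_⟩,
    fun x hx a => ?_⟩
  · obtain ⟨-, -, _, -, _, -, k⟩ := key x hx
    refine ⟨ContinuousLinearMap.opNorm_le_bound _ (by positivity) fun ξ => ?_, fun y => ?_⟩
    · have := mul_le_mul_of_nonneg_right ((inv_le_one_of_one_le₀ (show 1 ≤ 4 * C by linarith)).trans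
        hC) (norm_nonneg ξ)
      exact (norm_le_norm_sub_add _ _).trans ((add_le_add (k ξ).2.1
        (ContinuousLinearMap.le_of_opNorm_le _ (h x hx).ref.1 ξ)).trans (by linarith))
    · have a1 := mul_le_mul_of_nonneg_left (k (0, y)).2.1 c0.le
      have a2 := mul_le_mul_of_nonneg_left (norm_le_norm_add_norm_sub'
        (fderiv ℝ η0 x (0, y)) (fderiv ℝ (fun x => (Y (S x, x)).2.1) x (0, y))) c0.le
      rw [← mul_assoc, q, show ‖((0, y) : X3)‖ = ‖y‖ by simp, norm_sub_rev] at a1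
      linarith [(h x hx).ref.2 y, norm_nonneg y]
  · have a1 := mul_le_mul_of_nonneg_left (hW.norm_image_sub_le_of_norm_fderiv_le (𝕜 := ℝ)
      (f := fun x => (Y (S x, x)).2.1 - η0 x) (C := (4 * C)⁻¹) (fun x hx =>
        ((key x hx).1.snd.fst.differentiableAt (by simp)).sub (key x hx).2.1) (fun x hx => by
      obtain ⟨k1, k2, _, -, _, -, k⟩ := key x hx
      rw [fderiv_fun_sub (k1.snd.fst.differentiableAt (by simp)) k2]
      exact ContinuousLinearMap.opNorm_le_bound _ (by positivity) fun ξ => (k ξ).2.1) hx' hx) c0.le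
    have a2 := mul_le_mul_of_nonneg_left (norm_le_norm_add_norm_sub' (η0 x - η0 x')
      ((Y (S x, x)).2.1 - (Y (S x', x')).2.1)) c0.le
    rw [← mul_assoc, q, Prod.norm_def (x - x'), Prod.fst_sub, e, sub_self, norm_zero,
      max_eq_right (norm_nonneg _), Prod.snd_sub, sub_sub_sub_comm, norm_sub_rev] at a1
    linarith [hb x hx x' hx' e, norm_nonneg (x.2 - x'.2)]
  · obtain ⟨-, -, κ, k1, p, k2, k⟩ := key x hx
    exact ⟨κ, k1, p, k2, fun ξ => (k ξ).1⟩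
  · obtain ⟨-, -, _, -, _, -, k⟩ := key x hx
    refine ((k _).2.2 (by fin_cases a <;> rfl)).trans_eq ?_
    fin_cases a <;> simp [ey, Prod.norm_def]

end Vale.Agent.P354XL
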