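import Vale.Agent.P354XL.Row
import Vale.Agent.P354XL.RowD
import Vale.Agent.P354SI.Fl

/-!
The estimate of low order for the system of the states.
-/

open scoped ContDiff
open Set Filter MeasureTheory

noncomputable section

namespace Vale.Agent.P354XL

open Vale.Agent.P354XG Vale.Agent.P354XI Vale.Agent.P354Z Vale.Agent.P354SI Vale.Agent.P354BO
open Vale.Agent.P354XT (Fld up dn bp words)
open Vale.Agent.P354XF (wd spn)
open Vale.Agent.P354YH (Jw Inn Wb Sys)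
open Vale.Agent.P354SI.St (rv_add rv_sum rv_sq)

/-- The square of the jets as an element of the ring. -/
def qr {O : Set E6} {ι : Type} [Fintype ι] (X : ι → Der (Sm (on O))) : ℕ → Sm (on O) → Sm (on O)
  | 0, f => f * cj f
  | n + 1, f => qr X n f + ∑ a, qr X n (X a f)

theorem rv_qr {O : Set E6} {ι : Type} [Fintype ι] (X : ι → Der (Sm (on O))) (x : E6) :
    ∀ n f, rv (qr X n f) x = q2 X x n f
  | 0, f => by
    rw [qr, q2, rv, fv_mul, fv_cj, Complex.mul_conj, Complex.ofReal_re, Complex.normSq_eq_norm_sq]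
  | n + 1, f => by simp only [qr, q2, rv_add, rv_sum, rv_qr X x n]

def etr (E : Est) (n : ℕ) : Sm (on E.O1) := qr (f4 E.G1) n E.G1.P0 + qr (f4 E.G1) n E.G1.P4

theorem rv_etr (E : Est) (n : ℕ) : rv (etr E n) = E.eta n := funext fun x => by
  rw [etr, rv_add, rv_qr, rv_qr, Est.eta]

/-- A smooth function which is the power on r ≥ 1. -/
def pw (α r : ℝ) : ℝ := (up 0 1 r * r + dn 0 1 r) ^ α

theorem pw_pos (r : ℝ) : 0 < up 0 1 r * r + dn 0 1 r := by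
  rcases le_or_gt r 0 with h | h
  · rw [P354XT.up_zero one_pos h, P354XT.dn_one one_pos h]; simp
  rcases (P354XT.up_nonneg 0 1 r).eq_or_lt with e | e
  · rw [dn, ← e]; simp
  · exact add_pos_of_pos_of_nonneg (mul_pos e h) (P354XT.dn_nonneg ..)

theorem pw_sm (α : ℝ) : ContDiff ℝ ∞ (pw α) := ContDiff.rpow_const_of_ne
  (((P354XT.up_sm _ _).mul contDiff_id).add (P354XT.dn_sm _ _)) fun r => (pw_pos r).ne'

theorem pw_eq (α : ℝ) {r : ℝ} (h : 1 ≤ r) : pw α r = r ^ α := by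
  rw [pw, P354XT.up_one one_pos h, P354XT.dn_zero one_pos h, one_mul, add_zero]

theorem f_bd (M0 a0 x y : ℝ) {c : ℝ × ℝ × ℝ → ℝ} (hc : ContDiff ℝ ∞ c) : ∃ F, 0 ≤ F ∧ ∀ M a,
    |M - M0| ≤ 1 → |a - a0| ≤ 1 → ∀ r ∈ Icc x y,
      |c (M, a, r)| ≤ F ∧ |deriv (fun r => c (M, a, r)) r| ≤ F := by
  obtain ⟨C, hC⟩ := ((isCompact_Icc (a := M0 - 1) (b := M0 + 1)).prod
    ((isCompact_Icc (a := a0 - 1) (b := a0 + 1)).prod (isCompact_Icc (a := x) (b := y)))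
    ).exists_bound_of_continuousOn
      (hc.continuous.prodMk (P354XT.d3_sm hc).continuous).continuousOn
  refine ⟨max 0 C, le_max_left _ _, fun M a h1 h2 r h3 => ?_⟩
  rw [abs_le] at h1 h2
  have := max_le_iff.1 (hC (M, a, r) ⟨⟨by linarith, by linarith⟩, ⟨by linarith, by linarith⟩, h3⟩)
  rw [P354XT.d3_eq hc]
  exact ⟨le_max_of_le_right this.1, le_max_of_le_right this.2⟩

variable {P : Pr} (σ : P354SI.St P) (s : Bool)

/-- The far density as an element of the ring. -/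
def lar (u : Sm (on σ.E.O1)) : Sm (on σ.E.O1) :=
  cond s ((σ.Ph s).rad (pw (1 / 10 - 5)) * (σ.Ph s).sq (oph σ.X σ.E.M σ.E.a (oD .one) u) +
      (σ.Ph s).rad (pw (1 / 10 - 7)) * (σ.Ph s).sq u)
    ((σ.Ph s).rad (pw (1 / 10 - 1)) * (σ.Ph s).sq (oph σ.X σ.E.M σ.E.a o3 u))

theorem rv_pw (α : ℝ) (u) (x : E6) :
    rv ((σ.Ph s).rad (pw α) * (σ.Ph s).sq u) x = pw α x.2.1 * ‖fv u x‖ ^ 2 := by
  by_cases h : x ∈ σ.E.O1
  · have e : fv ((σ.Ph s).rad (pw α)) x = pw α x.2.1 :=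
      P354EF.fv_fO (φ := fun p => pw α p.2) ((pw_sm α).comp contDiff_snd) h
    rw [← rv_sq s, rv, fv_mul, e, Complex.re_ofReal_mul, rv]
  · simp [rv, fv_out _ h]

theorem lar_nn (u) (x : E6) : 0 ≤ rv (lar σ s u) x := by
  have := fun α => Real.rpow_nonneg (pw_pos x.2.1).le α
  cases s <;> simp only [lar, cond, rv_add, rv_pw]
  exacts [mul_nonneg (this _) (sq_nonneg _),
    add_nonneg (mul_nonneg (this _) (sq_nonneg _)) (mul_nonneg (this _) (sq_nonneg _))]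

theorem lar_eq (u) {x : E6} (h : 1 ≤ x.2.1) : rv (lar σ s u) x = σ.la s u x := by
  cases s <;> simp only [lar, P354SI.St.la, cond, rv_add, rv_pw, pw_eq _ h]

theorem wd_it (u) (i : ℕ) : (σ.Ph s).wd (List.replicate i 0) u = (σ.X 0)^[i] u := by
  induction i with
  | zero => rfl
  | succ i ih => rw [List.replicate_succ, Fld.wd, ih, σ.Ph_X, Function.iterate_succ_apply']

theorem fd_eq (u) (z : (σ.Ph s).B.Pt) :
    fd (σ.Ph s) s (1 / 10) σ.E.M σ.E.a u z = σ.la s u z.1.1 := by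
  have r0 : 0 < z.1.1.2.1 := (σ.cone.pos _ z.1.2).1
  have e : ∀ k : ℕ, z.1.1.2.1 ^ (1 / 10 - k : ℝ) = z.1.1.2.1 ^ (1 / 10 : ℝ) / z.1.1.2.1 ^ k :=
    fun k => by rw [Real.rpow_sub r0, Real.rpow_natCast]
  have e1 := e 1
  have e5 := e 5
  have e7 := e 7
  norm_num only [pow_one] at e1 e5 e7
  cases s
  · rw [P354SI.St.la, cond_false, σ.oph_eq false]
    exact congrArg (· * _) (by norm_num only; exact e1.symm)
  · rw [P354SI.St.la, cond_true, σ.oph_eq true]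
    refine congrArg₂ (· + ·) (congrArg (· * _) ?_) (congrArg (· * _) ?_)
    · change z.1.1.2.1 ^ _ * z.1.1.2.1 ^ 2 / z.1.1.2.1 ^ 7 = _
      norm_num only
      rw [e5]
      field_simp
    · norm_num only
      exact e7.symm

/-- The pointwise inequalities on r ≤ ρ. -/
def Pq (ρ C : ℝ) : Prop :=
  ∀ (x : σ.E.O1) (j : ℕ), An x → x.1.2.1 ≤ ρ → |x.1.1 - P.c.t1 - j| ≤ 2 →
    σ.E.eta (P.n0 - 1) x ≤ C * (∑ b, ∑ J ∈ words (P.n0 - 1),
      ‖fv (wd σ.X J (σ.f b [])) x.1‖ ^ 2 + fh P σ j * σ.E.eta (P.n0 + 4) x) ∧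
    ∀ (b : Bool) (J : List (Fin 5)),
      (J.length ≤ P.n0 + 4 → ‖fv (wd σ.X J (σ.f b [])) x.1‖ ^ 2 ≤ C * σ.E.eta (P.n0 + 4) x) ∧
      (J.length ≤ P.n0 + 1 → ‖fv (wd σ.X J (σ.R.brg.P (spn b) (spn b) (σ.f b []))) x.1‖ ^ 2 ≤
        C * (fh P σ j * σ.E.eta (P.n0 + 4) x))

variable {σ} {j m : ℕ} {ρ C : ℝ}

theorem Pq.bd (h : Pq σ ρ C) (hm : P.n0 = m + 1) {x : ℝ} {z : (σ.Ph s).B.Pt}
    (hz : (σ.Ph s).pr z ∈ Icc (P.c.t1 + j) (P.c.t1 + j + 2) ×ˢ Icc x ρ) :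
    (σ.Ph s).Bd z (m + 4) (σ.f s []) √(C * (σ.Ph s).B.val z (etr σ.E (P.n0 + 4))) ∧
    (σ.Ph s).Bd z (m + 2) ((σ.Ph s).P (σ.Ph s).s (σ.Ph s).s σ.E.M σ.E.a (σ.f s []))
      √(C * (fh P σ j * (σ.Ph s).B.val z (etr σ.E (P.n0 + 4)))) := by
  have t1 : P.c.t1 + j ≤ z.1.1.1 := hz.1.1
  have t2 : z.1.1.1 ≤ P.c.t1 + j + 2 := hz.1.2
  have k := (h z.1 j (σ.pt_an s z) hz.2.2 (abs_le.2 ⟨by linarith, by linarith⟩)).2 s
  have e : (σ.Ph s).B.val z (etr σ.E (P.n0 + 4)) = σ.E.eta (P.n0 + 4) z.1.1 :=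
    congrFun (rv_etr σ.E _) _
  have w := fun J u => (σ.hom s).wd J u
  have p := (σ.hom s).P (P354XT.sp s) (P354XT.sp s) (σ.f s [])
  rw [← P354XF.spn_eq, ← σ.Ph_s s] at p
  simp only [AlgHom.id_apply] at w p
  rw [e, ← p]
  exact ⟨fun J hJ => Real.le_sqrt_of_sq_le (w J _ ▸ (k J).1 (by omega)),
    fun J hJ => Real.le_sqrt_of_sq_le (w J _ ▸ (k J).2 (by omega))⟩

theorem rw_of (hm : P.n0 = m + 1) {R2 R F C1 C3 : ℝ} (h2 : P.c.r0 + P.c.d + 2 ≤ R2)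
    (RR : R2 ≤ 2 * R) (hy : 2 * R + 1 < σ.R2) (f0 : ∀ r ∈ Icc (P.c.r0 + P.c.d) (R2 + 1),
      |(σ.Ph s).f r| ≤ F ∧ |deriv (σ.Ph s).f r| ≤ F) (p1 : Pq σ R2 C1) (p3 : Pq σ (2 * R) C3) :
    Rw (σ.Ph s) s (1 / 10) σ.E.M σ.E.a (P.c.r0 + P.c.d) R2 R (2 * R + 1) P.c.t1 F C1 C3 σ.K m
      (σ.f s []) (etr σ.E (P.n0 + 4)) (fun i => lar σ s ((σ.X 0)^[i] (σ.f s []))) (fh P σ)
      fun r => up (R2 - 1) R2 r * dn (2 * R) (2 * R + 1) r where
  is := σ.Ph_is s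
  box := σ.box_U (sub_one_lt _) (σ.sa (Nat.le_add_right _ 2)).2 (lt_add_of_pos_right _ σ.d_pos) hy
  RR := RR
  hy := le_rfl
  f0 := f0
  sp := σ.f_sp s []
  Y0 z := (σ.eta_nn _ _).trans_eq (congrFun (rv_etr σ.E _) z.1.1).symm
  L0 _ z := lar_nn σ s _ z.1.1
  h0 j := (fh_pos σ j).le
  cs := ⟨(P354XT.up_sm _ _).mul (P354XT.dn_sm _ _), fun r k => by
    rcases not_and_or.1 k with k | k
    · rw [P354XT.up_zero (sub_one_lt _) (by linarith [not_le.1 k]), zero_mul]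
    · rw [P354XT.dn_zero (lt_add_one _) (not_le.1 k).le, mul_zero]⟩
  c0 _ := mul_nonneg (P354XT.up_nonneg ..) (P354XT.dn_nonneg ..)
  B _ _ _ hz := (p1.bd s hm hz).1
  E _ _ _ hz := p3.bd s hm hz
  L i _ z hz := by
    rw [P354XT.up_one (sub_one_lt _) hz.1, P354XT.dn_one (lt_add_one _) hz.2, one_mul, one_mul,
      fd_eq, wd_it]
    exact (lar_eq σ s _ (le_trans (by linarith [σ.r0_pos, σ.d_pos]) hz.1)).ge

theorem jw_eq (hP : P.Ok) (hj : j ≤ σ.K) {β : ℝ} (hβ : β ≤ σ.R2 - 2) (G) :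
    Jw (σ.Ph s) (ej P.c.t1 j) (Wb P.ch β) G = σ.sj j (fun r => P.ch r * σ.out β r) (rv G) := by
  have e : Wb P.ch β = fun r => P.ch r * σ.out β r := by
    unfold P354SI.St.out
    rw [min_eq_left hβ]
    rfl
  rw [P354SI.St.sj_eq hj, e]
  exact P354SI.St.J_sl s (σ.sa (by omega)) (P354SI.St.wc_y hP σ β) ((P354XT.up_sm _ _).mul (P354XT.dn_sm _ _))
    (fun _ => rfl) G

theorem jw_la (hj : j ≤ σ.K) {R2 R : ℝ} (h2 : P.c.r0 + P.c.d + 2 ≤ R2) (hy : 2 * R + 1 < σ.R2) (u) :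
    Jw (σ.Ph s) (ej P.c.t1 j) (fun r => up (R2 - 1) R2 r * dn (2 * R) (2 * R + 1) r) (lar σ s u) =
      σ.sj j (fun r => up (R2 - 1) R2 r * dn (2 * R) (2 * R + 1) r) (σ.la s u) := by
  rw [P354SI.St.sj_eq hj]
  refine (P354SI.St.J_sl s (σ.sa (by omega)) (P354SI.St.wc_of (by linarith [σ.d_pos]) (sub_one_lt _)
    (lt_add_one _) hy) ((P354XT.up_sm _ _).mul (P354XT.dn_sm _ _)) (fun _ => rfl) _).trans
    (integral_congr_ae (.of_forall fun x => ?_))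
  rcases le_total 1 x.2.1 with h | h
  · simp only [lar_eq σ s u h]
  · simp only [P354XT.up_zero (sub_one_lt R2) (show x.2.1 ≤ _ by linarith [σ.r0_pos, σ.d_pos]),
      zero_mul, mul_zero]

theorem i_le (hP : P.Ok) (hj : j ≤ σ.K) (hm : P.n0 = m + 1) {R b R'' : ℝ} (h : Pq σ ρ C)
    (C0 : 0 ≤ C) (h1 : R ≤ b) (h2 : b + 1 ≤ ρ) (h3 : b ≤ R'') (h4 : b ≤ σ.R2 - 2) :
    fy P (P.n0 - 1) R σ j ≤ C * (Jw (σ.Ph true) (ej P.c.t1 j) (Wb P.ch b)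
      ((σ.Ph true).jq m (σ.f true [])) + Jw (σ.Ph false) (ej P.c.t1 j) (Wb P.ch b)
      ((σ.Ph false).jq m (σ.f false []))) + C * (fh P σ j * fy P (P.n0 + 4) R'' σ j) := by
  rw [jw_eq _ hP hj h4, jw_eq _ hP hj h4, fy, fy, mul_add, ← mul_assoc]
  simp only [P354SI.St.sj_eq hj]
  refine P354SI.St.sl_le3 (σ.sa (by omega)) (P354SI.St.wc_y hP σ _) (P354SI.St.wc_y hP σ _) (P354SI.St.wc_y hP σ _)
    (P354SI.St.wc_y hP σ _) (σ.cn_eta _) (σ.cn_rv _) (σ.cn_rv _) (σ.cn_eta _) fun x a1 a2 a3 a4 => ?_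
  have w := fun s J u => (σ.hom s).wd J u
  simp only [AlgHom.id_apply] at w
  simp only [Fld.jq, P354SI.St.rv_lv, ← w]
  have c0 : 0 ≤ P.ch x.2.1 := P354XT.up_nonneg ..
  have o1 := mul_le_mul_of_nonneg_left (P354SI.St.out_mono (σ := σ) h1 x.2.1) c0
  have o2 := mul_le_mul_of_nonneg_left (P354SI.St.out_mono (σ := σ) (h1.trans h3) x.2.1) c0
  have o3 := mul_nonneg c0 (P354SI.St.out_nn (σ := σ) R x.2.1)
  have n1 := mul_nonneg (mul_nonneg C0 (fh_pos σ j).le) (σ.eta_nn (P.n0 + 4) x)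
  have n2 : ∀ s, 0 ≤ C * ∑ J ∈ words m, ‖fv (wd σ.R.brg.X J (σ.f s [])) x‖ ^ 2 := fun s => by
    positivity
  have : P.ch x.2.1 * σ.out R x.2.1 * σ.E.eta (P.n0 - 1) x ≤ P.ch x.2.1 * σ.out R x.2.1 *
      (C * (∑ b, ∑ J ∈ words m, ‖fv (wd σ.R.brg.X J (σ.f b [])) x‖ ^ 2 +
        fh P σ j * σ.E.eta (P.n0 + 4) x)) := by
    rcases le_total x.2.1 (R + 1) with r | r
    · have := (h ⟨x, a1⟩ j a2 (by change x.2.1 ≤ _; linarith)
        (abs_le.2 ⟨by change _ ≤ x.1 - _ - _; linarith, by change x.1 - _ - _ ≤ _; linarith⟩)).1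
      rw [show words (P.n0 - 1) = words m by rw [hm]; rfl] at this
      exact mul_le_mul_of_nonneg_left this o3
    · rw [P354SI.St.out_zero r, mul_zero, zero_mul, zero_mul]
  rw [Fintype.sum_bool] at this
  linarith [mul_le_mul_of_nonneg_right o1 (n2 true), mul_le_mul_of_nonneg_right o1 (n2 false),
    mul_le_mul_of_nonneg_right o2 n1]

theorem low_cv (hP : P.Ok) (hm : P.n0 = m + 1) {R2 R C0 δs δ : ℝ} {i : ℕ → ℝ} (hδ : 0 ≤ δ)
    (h2 : P.c.r0 + P.c.d + 2 ≤ R2) (RR : R2 ≤ 2 * R) (hy : 2 * R + 2 ≤ σ.R2)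
    (k : Low σ.K (fun j => Jw (σ.Ph s) (ej P.c.t1 j) (Wb P.ch (2 * R)) (etr σ.E (P.n0 + 4)))
      (fun j => δs * Jw (σ.Ph s) (ej P.c.t1 j) (Wb P.ch R2) (etr σ.E (P.n0 + 4)) +
        δ * ∑ n ∈ Finset.range (m + 1), Jw (σ.Ph s) (ej P.c.t1 j) (fun r => up (R2 - 1) R2 r *
          dn (2 * R) (2 * R + 1) r) (lar σ s ((σ.X 0)^[n] (σ.f s [])))) i
      (fun j => fh P σ j * Jw (σ.Ph s) (ej P.c.t1 j) (Wb P.ch (2 * R)) (etr σ.E (P.n0 + 4))) C0 1 C) :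
    Low σ.K (fy P (P.n0 + 4) (2 * R) σ) (fun j => δs * fy P (P.n0 + 4) R2 σ j +
      δ * ∑ n ∈ Finset.range (P.n0 + 1), σ.sj j (fun r => up (R2 - 1) R2 r *
        dn (2 * R) (2 * R + 1) r) (σ.la s ((σ.X 0)^[n] (σ.f s [])))) i
      (fun j => fh P σ j * fy P (P.n0 + 4) (2 * R) σ j) C0 1 C := by
  refine low_congr k (fun _ _ => le_rfl) (fun j hj => ?_) fun j hj => by
    rw [jw_eq s hP hj (by linarith), rv_etr, fy]
  have := mul_le_mul_of_nonneg_left (Finset.sum_le_sum_of_subset_of_nonneg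
    (Finset.range_mono (show m + 1 ≤ P.n0 + 1 by omega)) (f := fun n => σ.sj j (fun r =>
      up (R2 - 1) R2 r * dn (2 * R) (2 * R + 1) r) (σ.la s ((σ.X 0)^[n] (σ.f s []))))
    fun _ _ _ => P354SI.St.sj_nn fun x => mul_nonneg (mul_nonneg (P354XT.up_nonneg _ _ _)
      (P354XT.dn_nonneg _ _ _)) (σ.la_nn _ _ x)) hδ
  rw [jw_eq s hP hj (by linarith), jw_eq s hP hj (by linarith), rv_etr, Finset.sum_congr rfl
    fun n _ => jw_la s hj h2 (by linarith) _, fy, fy]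
  linarith

/-- The estimate of low order. -/
theorem low_of {G : ℕ → Filter (P354SI.St P)} {Γ : ℕ → ℝ → P354SI.St P → ℕ → ℝ} (hP : P.Ok) (hW : PW P)
    (hL : ∀ s, LOWO s) : (sys P G Γ).LOW := fun R => by
  rcases isEmpty_or_nonempty (P354SI.St P) with h | ⟨⟨σ0⟩⟩
  · exact ⟨0, 0, fun _ _ _ => ⟨0, fun _ _ => ⟨0, 0, 0, 0, le_rfl, .of_forall h.elim⟩⟩⟩
  obtain ⟨m, hm⟩ : ∃ m, P.n0 = m + 1 := ⟨_, rfl⟩
  obtain ⟨b, b1, b2⟩ : ∃ b, R ≤ b ∧ P.c.r0 + P.c.d + 3 ≤ b := ⟨_, le_max_left _ _, le_max_right _ _⟩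
  obtain ⟨J, hJ⟩ := exists_nat_ge (b + m + 1 - P.c.R1)
  have m0 : (0 : ℝ) ≤ m := m.cast_nonneg
  have hR : b + m + 1 ≤ P.c.R1 + J := by linarith
  obtain ⟨C1, c1, h1⟩ := hW (P.c.R1 + J)
  obtain ⟨F, F0, hF⟩ := f_bd P.c.M P.c.a (P.c.r0 + P.c.d) (P.c.R1 + J + 1) (hs_sm σ0.M0)
  have hch : Inn (P.c.r0 + P.c.d) P.ch := ⟨P354XT.up_sm _ _, fun r r' h =>
    Real.smoothTransition.monotone (div_le_div_of_nonneg_right (by linarith)
      (by linarith [hP.rI.1])), fun r h => P354XT.up_zero hP.rI.1 h, fun r h =>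
    Real.smoothTransition.pos_of_pos (div_pos (by linarith) (by linarith [hP.rI.1]))⟩
  refine ⟨P.n0 + 5, P.c.R1 + J, fun C0 δs hs => ⟨J, fun δ hδ => ?_⟩⟩
  obtain ⟨r, δ1, CA, r1, r2, d1, ca, hr⟩ := row hch F0 m b2 hR c1
    (show 0 < δs / (2 * (C1 + 1)) by positivity) (lt_min (sub_pos.2 hP.rI.1) one_pos)
  have r3 := min_le_left (P.rI - (P.c.r0 + P.c.d)) 1
  have r4 := min_le_right (P.rI - (P.c.r0 + P.c.d)) 1
  have aM : |P.c.a| < P.c.M := σ0.ok.aM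
  have Mr : P.c.M < P.c.r0 := σ0.ok.r0
  have L := fun s => hL s P.c.M P.c.a _ r (1 / 10) (P.c.R1 + J) C0 δ1 _ aM
    (hs_slope aM (by linarith [σ0.d_pos]) (hP.rI.1.trans hP.rI.2)) r1.le (by linarith [hP.rI.2])
    (by norm_num) (by linarith) d1 (δ / (C1 + 1) / CA) (by positivity)
  obtain ⟨Rc, hc, hRc⟩ := ((eventually_all.2 L).and (eventually_ge_atTop (P.c.R1 + J))).exists
  choose C dl c0 d0 hc using hc
  obtain ⟨C3, c3, h3⟩ := hW (2 * Rc)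
  choose C2 c2 hr using fun s => hr (δ / (C1 + 1)) (C s) C3 (by positivity) (c0 s) c3
  have s0 := add_nonneg (c2 true) (c2 false)
  have dp : 0 < min (min (dl true) (dl false)) 1 := lt_min (lt_min (d0 _) (d0 _)) one_pos
  refine ⟨Rc, P.n0 + 4, 2 * Rc, C1 * (C2 true + C2 false) + C1, by positivity, ev_sys ?_⟩
  filter_upwards [h1, h3, ev_R _ (2 * Rc + 2), ev_e _ (div_pos dp (show 0 < C1 + 1 by positivity))]
    with σ h1 h3 q1 q2
  have q3 : C1 * σ.eps < min (min (dl true) (dl false)) 1 := by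
    linarith [(le_div_iff₀' (by positivity)).1 q2.1, σ.e0]
  have q4 := (le_add_of_nonneg_right (abs_nonneg _)).trans_lt (h1.1.trans_lt q3)
  have q5 := (le_add_of_nonneg_left (abs_nonneg _)).trans_lt (h1.1.trans_lt q3)
  simp only [lt_min_iff] at q4 q5
  have r0 := σ.r0_pos
  have d0 := σ.d_pos
  have k := fun s => low_cv s hP hm (by positivity) (by linarith) (by linarith) (by linarith)
    (hr s _ (σ.Ph s) s _ _ _ _ _ _ _ _ _ _ _ _ _ (hc s σ.E.M σ.E.a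
      (by cases s; exacts [q4.1.2, q4.1.1]) (by cases s; exacts [q5.1.2, q5.1.1]) _ σ.cone.op σ.U _ _
      (cone_off σ.cone) (isOpen_Ioo.prod isOpen_Ioo) σ.U_sub (sl_sm (js_sm σ.M0) _ _) (σ.Ph_s s))
      (rw_of s hm (by linarith) (by linarith) (by linarith) (hF _ _ q4.2.le q5.2.le) h1.2 h3.2))
  refine low_congr (low_add (low_smul (low_add (k true) (k false)) c1) (low_self (g := fun j =>
    C1 * (fh P σ j * fy P (P.n0 + 4) (2 * Rc) σ j)) fun j _ => mul_nonneg c1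
      (mul_nonneg (fh_pos σ j).le (fy_nn _ _ _ _))))
    (fun j hj => i_le hP hj hm h1.2 c1 b1 (by linarith) (by linarith) (by linarith))
    (fun j _ => ?_) fun j _ => mul_le_mul_of_nonneg_right (by linarith) (fy_nn _ _ _ _)
  have y0 := fy_nn (P.n0 + 4) (P.c.R1 + J) σ j
  have x0 := mul_nonneg hs.le (fx_nn (P.n0 + 5) (P.c.R1 + J) σ j)
  have B0 := fB_nn J Rc σ j
  have u1 : C1 * (δs / (2 * (C1 + 1))) * 2 ≤ δs := by
    rw [← mul_div_assoc, div_mul_eq_mul_div, div_le_iff₀ (by positivity)]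
    linarith
  have u2 : C1 * (δ / (C1 + 1)) ≤ δ := by
    rw [← mul_div_assoc, div_le_iff₀ (by positivity)]
    linarith
  have u3 := mul_le_mul_of_nonneg_right u1 y0
  have u4 := mul_le_mul_of_nonneg_right u2 B0
  change _ ≤ 1 * (δs * (fy P (P.n0 + 4) (P.c.R1 + J) σ j + fx P (P.n0 + 5) (P.c.R1 + J) σ j) +
    δ * fB P J Rc σ j) + _ * (fh P σ j * fy P (P.n0 + 4) (2 * Rc) σ j)
  simp only [fB, Fintype.sum_bool] at u4 ⊢
  linarith

end Vale.Agent.P354XL
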